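import Vale.Agent.Common.TreeDiv
import Mathlib.Data.Nat.ModEq

/-! More polynomial time functions. -/

namespace Vale.Agent.P337

open Vale.Agent.Common.TreeTM Enc

variable {α β γ : Type} [Enc α] [Enc β] [Enc γ] {e : ℕ}

instance : Enc Tr := ⟨id⟩

@[fun_prop] theorem tc_enc {f : α → β} (hf : TC e f) : TC e fun a => (enc (f a) : Tr) :=
  hf.of_enc fun _ => rfl

def toL : Tr → List Tr
  | .nil => []
  | .cons a b => a :: toL b

theorem enc_toL (t : Tr) : enc (toL t) = t := by
  induction t with
  | nil => rfl
  | cons a b _ ih => rw [toL, enc_cons, ih]; rfl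

theorem toL_enc (l : List α) : toL (enc l) = l.map enc := by
  induction l with
  | nil => rfl
  | cons a l ih => rw [enc_cons, toL, ih]; rfl

@[fun_prop] theorem tc_toL {f : α → Tr} (hf : TC e f) : TC e fun a => toL (f a) :=
  hf.of_enc fun _ => enc_toL _

@[fun_prop] theorem tc_cons {f g : α → Tr} (hf : TC e f) (hg : TC e g) :
    TC e fun a => Tr.cons (f a) (g a) := (TC.pair hf hg).of_enc fun _ => rfl

/-- The bit code of an object. -/
def code (a : α) : List Bool := (enc a).enc

theorem length_code (a : α) : (code a).length = sz a := rfl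

def flatStep (s : List Tr × List Bool) : List Tr × List Bool :=
  lcases s.1 s fun t rest => lcases (toL t) (rest, false :: s.2) fun a b =>
    (a :: enc b :: rest, true :: s.2)

def flatAll (l : List Tr) : List Bool := l.flatMap Tr.enc

theorem flatStep_spec (s : List Tr × List Bool) (h : s.1 ≠ []) :
    (flatStep s).2.reverse ++ flatAll (flatStep s).1 = s.2.reverse ++ flatAll s.1 ∧
      (flatStep s).2.length = s.2.length + 1 := by
  obtain ⟨l, acc⟩ := s
  cases l with
  | nil => simp at h
  | cons t rest =>
    cases t with
    | nil => simp [flatStep, lcases, toL, flatAll, Tr.enc]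
    | cons a b =>
      have : (enc (toL b) : Tr) = b := enc_toL b
      simp [flatStep, lcases, toL, flatAll, Tr.enc, this]

theorem flatAll_eq_nil {l : List Tr} (h : flatAll l = []) : l = [] := by
  cases l with
  | nil => rfl
  | cons t l => cases t <;> simp [flatAll, Tr.enc] at h

theorem sz_le_flatAll (l : List Tr) : sz l ≤ 2 * (flatAll l).length + 1 := by
  induction l with
  | nil => simp [sz_lnil]
  | cons t l ih =>
    have h1 : sz t = t.enc.length := rfl
    have h2 := sz_pos t
    have h3 : t.sz = t.enc.length := rfl
    simp only [sz_lcons, flatAll, List.flatMap_cons, List.length_append] at ih ⊢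
    omega

theorem sz_bools (l : List Bool) : sz l ≤ 4 * l.length + 1 := by
  have := sz_list_le (l := l) (b := 3) fun a _ => sz_bool a
  omega

theorem tc_code' : TC 0 fun t : Tr => t.enc := by
  have key : ∀ (t : Tr) (k : ℕ), k ≤ t.sz →
      (flatStep^[k] ([t], [])).2.reverse ++ flatAll (flatStep^[k] ([t], [])).1 = t.enc ∧
      (flatStep^[k] ([t], [])).2.length = k := by
    intro t k
    induction k with
    | zero => intro _; simp [flatAll]
    | succ k ih =>
      intro hk
      obtain ⟨h1, h2⟩ := ih (by omega)
      have hne : (flatStep^[k] ([t], [])).1 ≠ [] := by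
        intro h0
        rw [h0] at h1
        have := congrArg List.length h1
        simp only [flatAll, List.flatMap_nil, List.append_nil, List.length_reverse] at this
        unfold Tr.sz at hk
        omega
      rw [Function.iterate_succ_apply']
      obtain ⟨h3, h4⟩ := flatStep_spec _ hne
      exact ⟨h3.trans h1, by omega⟩
  have hlen : ∀ (t : Tr) (k : ℕ), k ≤ t.sz → (flatAll (flatStep^[k] ([t], [])).1).length + k = t.sz := by
    intro t k hk
    obtain ⟨h1, h2⟩ := key t k hk
    have := congrArg List.length h1
    simp only [List.length_append, List.length_reverse] at this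
    unfold Tr.sz
    omega
  have hstep : TC 0 flatStep := by
    unfold flatStep
    refine TC.lcases (by fun_prop) (by fun_prop) ?_
    exact TC.lcases (by fun_prop) (by fun_prop) (by fun_prop)
  have hfin : ∀ t : Tr, (flatStep^[t.sz] ([t], [])).1 = [] := fun t =>
    flatAll_eq_nil (List.length_eq_zero_iff.1 (by have := hlen t _ le_rfl; omega))
  have hout : ∀ t : Tr, (flatStep^[t.sz] ([t], [])).2.reverse = t.enc := fun t => by
    have := (key t _ le_rfl).1
    rw [hfin t] at this
    simpa [flatAll] using this
  have := TC.iter (e := 0) (e₁ := 0) (e₂ := 0) (step := flatStep) (cont := fun s => isCons s.1)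
    (out := fun s => s.2.reverse) (init := fun t : Tr => ([t], [])) hstep (by fun_prop)
    (by fun_prop) (by fun_prop) (by omega) (N := fun t => t.sz) (S := fun t => 6 * sz t + 3)
    (Bd.sz 0) (((Bd.const _ _).mul (Bd.sz 0)).add (Bd.const _ _))
    (fun t i hi => by
      have := hlen t i hi.le
      cases h : (flatStep^[i] ([t], [])).1 with
      | nil => rw [h] at this; simp [flatAll] at this; omega
      | cons _ _ => simp [isCons])
    (fun t => by simp [hfin t, isCons])
    (fun t i hi => by
      have h1 := hlen t i hi
      have h2 := (key t i hi).2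
      have h3 := sz_le_flatAll (flatStep^[i] ([t], [])).1
      have h4 := sz_bools (flatStep^[i] ([t], [])).2
      have h5 : sz t = t.sz := rfl
      rw [sz_prod]
      omega)
    ((((Bd.const 0 4).mul (Bd.sz 0)).add (Bd.const 0 1)).mono fun t => by
      rw [hout t]
      exact sz_bools _)
  exact this.of_eq fun t => (hout t).symm

@[fun_prop] theorem tc_code {f : α → β} (hf : TC 0 f) : TC 0 fun a => code (f a) :=
  TC.comp (f := fun t : Tr => t.enc) tc_code' (tc_enc hf)

@[fun_prop] theorem tc_mod {f g : α → ℕ} (hf : TC e f) (hg : TC e g) :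
    TC e fun a => f a % g a := by
  have : TC e fun a => f a - g a * (f a / g a) := by fun_prop
  exact this.of_eq fun a => Nat.mod_def _ _

def neq (a b : ℕ) : Bool := decide (a = b)

@[fun_prop] theorem tc_neq {f g : α → ℕ} (hf : TC e f) (hg : TC e g) :
    TC e fun a => neq (f a) (g a) := by
  have : TC e fun a => !(nlt (f a) (g a)) && !(nlt (g a) (f a)) := by fun_prop
  refine this.of_eq fun a => ?_
  simp only [neq, nlt]
  rcases lt_trichotomy (f a) (g a) with h | h | h
  · simp [h, h.ne]
  · simp [h]
  · simp [h, h.ne']

@[fun_prop] theorem tc_min {f g : α → ℕ} (hf : TC e f) (hg : TC e g) :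
    TC e fun a => min (f a) (g a) := by
  have : TC e fun a => f a - (f a - g a) := by fun_prop
  exact this.of_eq fun a => by omega

@[fun_prop] theorem tc_flatMap {f : α → β → List γ} {l : α → List β}
    (hf : TC e fun p : α × β => f p.1 p.2) (hl : TC e l) : TC e fun a => (l a).flatMap (f a) := by
  have hf' : TC e fun p : α × List γ × β => f p.1 p.2.2 :=
    TC.comp (g := fun p : α × List γ × β => (p.1, p.2.2)) hf (by fun_prop)
  have hsz : ∀ l l' : List γ, sz (l ++ l') ≤ sz l + sz l' := by
    intro l l'
    induction l with
    | nil => simp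
    | cons a l ih => simp only [List.cons_append, sz_lcons]; omega
  refine (TC.foldl_grow (f := fun a acc x => acc ++ f a x) (i := fun _ => [])
    (by fun_prop) (by fun_prop) hl (m := fun p => sz (f p.1 p.2)) hf.bd
    (fun a acc x => hsz _ _)).of_eq fun a => ?_
  have : ∀ (l : List β) (acc : List γ), l.foldl (fun acc x => acc ++ f a x) acc =
      acc ++ l.flatMap (f a) := by
    intro l
    induction l with
    | nil => simp
    | cons x l ih => intro acc; simp [ih]
  simp [this]

@[fun_prop] theorem tc_take {l : α → List β} {k : α → ℕ} (hl : TC e l) (hk : TC e k) :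
    TC e fun a => (l a).take (k a) := by
  have h := TC.foldl_grow (f := fun a (acc : List β) (x : β) =>
      bif nlt acc.length (k a) then acc ++ [x] else acc) (i := fun _ => [])
    (by fun_prop) (by fun_prop) hl (m := fun p => sz p + 1) ((Bd.sz 0).add (Bd.const _ _))
    (fun a acc x => by
      have hsz : ∀ l : List β, sz (l ++ [x]) = sz l + sz x + 1 := by
        intro l
        induction l with
        | nil => simp [sz_lcons, sz_lnil]; omega
        | cons a l ih => simp only [List.cons_append, sz_lcons, ih]; omega
      have := hsz acc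
      cases nlt acc.length (k a) <;> simp only [Bool.cond_true, Bool.cond_false, sz_pair] <;> omega)
  refine h.of_eq fun a => ?_
  have : ∀ (t acc : List β), t.foldl (fun (acc : List β) (x : β) =>
      bif nlt acc.length (k a) then acc ++ [x] else acc) acc =
      acc ++ t.take (k a - acc.length) := by
    intro t
    induction t with
    | nil => simp
    | cons x t ih =>
      intro acc
      rw [List.foldl_cons, ih]
      by_cases hlt : acc.length < k a
      · obtain ⟨m, hm⟩ : ∃ m, k a - acc.length = m + 1 := ⟨k a - acc.length - 1, by omega⟩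
        have : k a - (acc.length + 1) = m := by omega
        simp [nlt, hlt, hm, this]
      · have : k a - acc.length = 0 := by omega
        simp [nlt, hlt, this]
  simp [this]

@[fun_prop] theorem tc_powLen {f : α → ℕ} {l : α → List β} (hf : TC e f) (hl : TC e l) :
    TC e fun a => f a ^ (l a).length := by
  refine (TC.foldl_inv (f := fun a acc (_ : β) => acc * f a) (i := fun _ => 1)
    (by fun_prop) (by fun_prop) hl (S := fun a => 4 * (sz (f a) * sz (l a) + 1) + 1)
    (((Bd.const _ _).mul ((hf.bd.mul hl.bd).add (Bd.const _ _))).add (Bd.const _ _))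
    (fun a k s => s = f a ^ k) (fun _ => by simp)
    (fun _ _ _ _ _ h => by rw [h, pow_succ]) ?_).of_eq fun a => ?_
  · rintro a k s hk rfl
    refine sz_nat_le ?_
    have h1 := lt_two_pow_sz (f a)
    have h2 := length_le_sz (l a)
    calc f a ^ k ≤ (2 ^ sz (f a)) ^ k := Nat.pow_le_pow_left h1.le _
      _ ≤ 2 ^ (sz (f a) * sz (l a)) := by
        rw [← pow_mul]
        exact Nat.pow_le_pow_right (by norm_num) (Nat.mul_le_mul_left _ (by omega))
      _ < _ := Nat.pow_lt_pow_right (by norm_num) (by omega)
  · have : ∀ (t : List β) (s : ℕ), t.foldl (fun acc (_ : β) => acc * f a) s = s * f a ^ t.length := by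
      intro t
      induction t with
      | nil => simp
      | cons x t ih => intro s; rw [List.foldl_cons, ih, List.length_cons]; ring
    simp [this]

/-- The `i`-th digit of `y` in base `N`. -/
def dg (N y i : ℕ) : ℕ := y / N ^ i % N

@[fun_prop] theorem tc_dg {N y i : α → ℕ} (hN : TC e N) (hy : TC e y) (hi : TC e i) :
    TC e fun a => dg (N a) (y a) (i a) := by
  have : TC e fun a => y a / N a ^ ((true :: (y a).bits).take (i a)).length % N a := by fun_prop
  refine this.of_eq fun a => ?_
  unfold dg
  rw [List.length_take, List.length_cons, Nat.size_eq_bits_len]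
  by_cases h : i a ≤ (y a).size + 1
  · rw [min_eq_left h]
  · rw [min_eq_right (by omega)]
    have h1 : y a < 2 ^ (y a).size := Nat.lt_size_self _
    rcases Nat.lt_or_ge (N a) 2 with h2 | h2
    · have : N a = 0 ∨ N a = 1 := by omega
      rcases this with h0 | h0
      · rw [h0, zero_pow (by omega), zero_pow (by omega)]
      · rw [h0, one_pow, one_pow]
    · have h3 : ∀ k, (y a).size ≤ k → y a / N a ^ k = 0 := fun k hk =>
        Nat.div_eq_of_lt (h1.trans_le ((Nat.pow_le_pow_right (by norm_num) hk).trans
          (Nat.pow_le_pow_left h2 _)))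
      rw [h3 _ (by omega), h3 _ (by omega)]

@[fun_prop] theorem tc_powMod {g x p : α → ℕ} (hg : TC e g) (hx : TC e x) (hp : TC e p) :
    TC e fun a => g a ^ x a % (p a + 1) := by
  have hl : TC e fun a => (x a).bits.reverse := by fun_prop
  refine (TC.foldl_inv (f := fun a acc c => acc * acc * (bif c then g a else 1) % (p a + 1))
    (i := fun a => 1 % (p a + 1)) (by fun_prop) (by fun_prop) hl
    (S := fun a => 4 * sz (p a) + 1) (((Bd.const _ _).mul hp.bd).add (Bd.const _ _))
    (fun a _ s => s ≤ p a) (fun a => Nat.le_of_lt_succ (Nat.mod_lt _ (by omega)))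
    (fun a _ _ _ _ _ => Nat.le_of_lt_succ (Nat.mod_lt _ (by omega)))
    (fun a _ _ _ h => sz_nat_mono h)).of_eq fun a => ?_
  have : ∀ (l : List Bool) (s : ℕ),
      l.foldl (fun acc c => acc * acc * (bif c then g a else 1) % (p a + 1)) (g a ^ s % (p a + 1)) =
      g a ^ (l.foldl (fun acc c => Nat.bit c acc) s) % (p a + 1) := by
    intro l
    induction l with
    | nil => simp
    | cons c l ih =>
      intro s
      rw [List.foldl_cons, List.foldl_cons, ← ih]
      congr 1
      have h1 : g a ^ Nat.bit c s = g a ^ s * g a ^ s * (bif c then g a else 1) := by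
        cases c <;> simp [Nat.bit_val, pow_succ, two_mul, pow_add]
      rw [h1]
      exact ((Nat.mod_modEq _ _).mul (Nat.mod_modEq _ _)).mul_right _
  have h := this (x a).bits.reverse 0
  rw [bits_fold, pow_zero] at h
  exact h.symm

/-- Polynomial bounds are realised by lengths of computable lists. -/
theorem exists_unary {m : α → ℕ} (h : Bd 0 m) :
    ∃ u : α → List Bool, TC 0 u ∧ ∀ a, m a ≤ (u a).length := by
  obtain ⟨k, hk⟩ := h
  have key : ∀ k : ℕ, ∃ u : α → List Bool, TC 0 u ∧ ∀ a, (u a).length = (4 * sz a) ^ k := by
    intro k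
    induction k with
    | zero => exact ⟨fun _ => [true], by fun_prop, fun _ => rfl⟩
    | succ k ih =>
      obtain ⟨u, hu, hl⟩ := ih
      refine ⟨fun a => (code a ++ code a ++ code a ++ code a).flatMap fun _ => u a, by fun_prop,
        fun a => ?_⟩
      simp only [List.length_flatMap, hl, List.map_const', List.sum_replicate, List.length_append,
        length_code, smul_eq_mul, pow_succ]
      ring
  obtain ⟨u, hu, hl⟩ := key k
  refine ⟨u, hu, fun a => (hk a).trans ?_⟩
  rw [hl, zero_add, pow_one, mul_comm k, pow_mul]
  refine Nat.pow_le_pow_left ?_ _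
  unfold ell
  have := Nat.pow_log_le_self 2 (show sz a ≠ 0 by have := one_le_sz a; omega)
  rw [pow_add]
  omega

theorem exists_bound {m : α → ℕ} (h : Bd 0 fun a => sz (m a)) :
    ∃ b : α → ℕ, TC 0 b ∧ ∀ a, m a < b a := by
  obtain ⟨u, hu, hl⟩ := exists_unary h
  exact ⟨fun a => 2 ^ (u a).length, by fun_prop, fun a =>
    (lt_two_pow_sz _).trans_le (Nat.pow_le_pow_right (by norm_num) (hl a))⟩

/-- The number with the given binary digits. -/
def ofBits (l : List Bool) : ℕ := l.reverse.foldl (fun acc c => Nat.bit c acc) 0

theorem ofBits_cons (b : Bool) (l : List Bool) : ofBits (b :: l) = Nat.bit b (ofBits l) := by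
  simp [ofBits]

theorem ofBits_bits (n : ℕ) : ofBits n.bits = n := bits_fold n

@[fun_prop] theorem tc_ofBits {l : α → List Bool} (hl : TC e l) : TC e fun a => ofBits (l a) :=
  TC.foldl_grow (f := fun _ acc c => Nat.bit c acc) (i := fun _ => 0) (by fun_prop) (by fun_prop)
    (TC.reverse hl) (m := fun _ => 4) (Bd.const _ _) (fun _ _ _ => sz_bit _ _)

theorem ofBits_lt (l : List Bool) : ofBits l < 2 ^ l.length := by
  induction l with
  | nil => simp [ofBits]
  | cons b l ih =>
    rw [ofBits_cons, List.length_cons, pow_succ, Nat.bit_val]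
    cases b <;> simp <;> omega

theorem ofBits_inj : ∀ {l l' : List Bool}, l.length = l'.length → ofBits l = ofBits l' → l = l'
  | [], [], _, _ => rfl
  | [], _ :: _, h, _ => by simp at h
  | _ :: _, [], h, _ => by simp at h
  | b :: l, b' :: l', h, h' => by
    rw [ofBits_cons, ofBits_cons, Nat.bit_val, Nat.bit_val] at h'
    have hb : b = b' := by cases b <;> cases b' <;> simp at h' ⊢ <;> omega
    subst hb
    rw [ofBits_inj (l := l) (l' := l') (by simpa using h) (by omega)]

def leq (l l' : List Bool) : Bool := decide (l = l')

@[fun_prop] theorem tc_leq {l l' : α → List Bool} (hl : TC e l) (hl' : TC e l') :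
    TC e fun a => leq (l a) (l' a) := by
  have : TC e fun a => neq (l a).length (l' a).length && neq (ofBits (l a)) (ofBits (l' a)) := by
    fun_prop
  refine this.of_eq fun a => ?_
  simp only [leq, neq]
  by_cases h : l a = l' a
  · simp [h]
  · rw [decide_eq_false h]
    by_cases h1 : (l a).length = (l' a).length
    · have : ofBits (l a) ≠ ofBits (l' a) := fun h2 => h (ofBits_inj h1 h2)
      simp [this]
    · simp [h1]

end Vale.Agent.P337
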