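import Mathlib.Computability.TuringMachine.Computable
import Mathlib.Data.Real.Basic
import Mathlib.Data.Nat.Bits
import Mathlib.Data.Set.Card
import Mathlib.Algebra.BigOperators.Fin

namespace Vale.Agent.P337

/-- Languages are sets of bit strings. -/
abbrev Lang : Type := Set (List Bool)

/-- Functions on bit strings computed by a polynomial-time Turing machine. -/
def PolyFun (f : List Bool → List Bool) : Prop :=
  ∃ tm : Turing.TM2ComputableInPolyTime (id : List Bool → List Bool) (id : List Bool → List Bool) f,
    ∀ k, Finite (tm.tm.Γ k)

/-- The class `P`. -/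
def ClassP : Set Lang := {L | ∃ f, PolyFun f ∧ ∀ w, w ∈ L ↔ f w = [true]}

/-- Pairing of bit strings. -/
def pair (x y : List Bool) : List Bool := x.flatMap (fun b => [true, b]) ++ false :: y

open Classical in
/-- The oracle answers to the first `k` adaptive queries; the next query is computed by `q` from
the input and the answers so far. -/
noncomputable def answers (A : Lang) (q : List Bool → List Bool) (w : List Bool) : ℕ → List Bool
  | 0 => []
  | k + 1 => answers A q w k ++ [decide (q (pair w (answers A q w k)) ∈ A)]

/-- The class `P^A`: polynomially many adaptive queries, then a polynomial-time decision. -/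
def PRel (A : Lang) : Set Lang :=
  {L | ∃ (q : List Bool → List Bool) (r : Polynomial ℕ) (B : Lang), PolyFun q ∧ B ∈ ClassP ∧
    ∀ w, w ∈ L ↔ pair w (answers A q w (r.eval w.length)) ∈ B}

/-- The class `PP^A`: acceptance for more than half of the coin sequences. -/
def PPRel (A : Lang) : Set Lang :=
  {L | ∃ (B : Lang) (p : Polynomial ℕ), B ∈ PRel A ∧ ∀ x, x ∈ L ↔
    2 ^ p.eval x.length < 2 * {y : List Bool | y.length = p.eval x.length ∧ pair x y ∈ B}.ncard}

/-- The levels of the counting hierarchy. -/
def Level : ℕ → Set Lang
  | 0 => ClassP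
  | j + 1 => ⋃ A ∈ Level j, PPRel A

/-- Integer polynomials in `n` variables as lists of monomials. -/
abbrev Poly (n : ℕ) : Type := List (ℤ × (Fin n → ℕ))

def Poly.eval {n : ℕ} (x : Fin n → ℝ) (p : Poly n) : ℝ :=
  (p.map fun m => (m.1 : ℝ) * ∏ i, x i ^ m.2 i).sum

/-- Boolean formulas over the atoms `p = 0` and `p > 0`. -/
inductive Formula (n : ℕ) : Type
  | eq (p : Poly n) : Formula n
  | pos (p : Poly n) : Formula n
  | and (a b : Formula n) : Formula n
  | or (a b : Formula n) : Formula n
  | not (a : Formula n) : Formula n

def Formula.Holds {n : ℕ} (x : Fin n → ℝ) : Formula n → Prop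
  | .eq p => p.eval x = 0
  | .pos p => 0 < p.eval x
  | .and a b => a.Holds x ∧ b.Holds x
  | .or a b => a.Holds x ∨ b.Holds x
  | .not a => ¬ a.Holds x

/-- Reverse Polish notation: a list of tokens (kind, polynomial). -/
def Formula.tokens {n : ℕ} : Formula n → List (ℕ × Poly n)
  | .eq p => [(0, p)]
  | .pos p => [(1, p)]
  | .and a b => a.tokens ++ b.tokens ++ [(2, [])]
  | .or a b => a.tokens ++ b.tokens ++ [(3, [])]
  | .not a => a.tokens ++ [(4, [])]

/-- Self-delimiting binary codes of bits, pairs, lists, numbers in binary and in unary. -/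
def encBool (b : Bool) : List Bool := if b then [true, false, false] else [false]

def encPair {α β : Type} (f : α → List Bool) (g : β → List Bool) (p : α × β) : List Bool :=
  true :: (f p.1 ++ g p.2)

def encList {α : Type} (f : α → List Bool) (l : List α) : List Bool :=
  l.flatMap (fun a => true :: f a) ++ [false]

def encNat (k : ℕ) : List Bool := encList encBool k.bits

def encInt (z : ℤ) : List Bool := encPair encNat encNat (z.toNat, (-z).toNat)

def encUnary (k : ℕ) : List Bool := encList encBool (List.replicate k false)

def encPoly {n : ℕ} (p : Poly n) : List Bool :=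
  encList (encPair encInt fun e : Fin n → ℕ => encList encUnary (List.ofFn e)) p

def encSentence (n : ℕ) (Φ : Formula n) : List Bool :=
  encPair encUnary (encList (encPair encNat encPoly)) (n, Φ.tokens)

/-- The language of true existential sentences over the reals. -/
def ETR : Lang :=
  {w | ∃ (n : ℕ) (Φ : Formula n), w = encSentence n Φ ∧ ∃ x : Fin n → ℝ, Φ.Holds x}

end Vale.Agent.P337
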