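import Vale.Agent.P337.CH
import Vale.Agent.P337.Defs

/-! From the typed hierarchy to the Turing machine definition. -/

namespace Vale.Agent.P337

open Vale.Agent.Common Vale.Agent.Common.TreeTM Enc Finset LoopTM

theorem Bd.poly {m : List Bool → ℕ} (h : Bd 0 m) :
    ∃ p : Polynomial ℕ, ∀ w, m w ≤ p.eval w.length := by
  obtain ⟨k, hk⟩ := h
  refine ⟨(16 * Polynomial.X + 4) ^ k, fun w => (hk w).trans ?_⟩
  rw [zero_add, pow_one, mul_comm k, pow_mul, Polynomial.eval_pow]
  refine Nat.pow_le_pow_left ?_ _
  have h1 := Nat.pow_log_le_self 2 (show sz w ≠ 0 by have := one_le_sz w; omega)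
  have h2 := sz_bools w
  simp only [TreeTM.ell, pow_add, Polynomial.eval_add, Polynomial.eval_mul, Polynomial.eval_X,
    Polynomial.eval_ofNat]
  omega

def preA : Prog Rg :=
  .loop .D isS (.cond .D isT (.seq (.pop .D) (.push .A [true])) (.seq (.pop .D) (.push .A [false])))

def preB : Prog Rg :=
  .loop .A isS (.cond .A isT (.seq (.pop .A) (.push .D [true, true, false, false]))
    (.seq (.pop .A) (.push .D [true, false])))

def postA : Prog Rg :=
  .loop .D isT (.seq (.pop .D) (.cond .D isT (.seq (.pop .D) (.seq (.pop .D) (.seq (.pop .D)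
    (.push .A [true])))) (.seq (.pop .D) (.push .A [false]))))

theorem code_cons (x : Bool) (l : List Bool) :
    code (x :: l) = (if x then [true, true, false, false] else [true, false]) ++ code l := by
  cases x <;> rfl

theorem run_preA {β : ℕ} (l : List Bool) (hl : l.length ≤ β) :
    Run β preA (st l [] [] []) (st [] l.reverse [] []) := by
  have key : ∀ (l a : List Bool), LoopN β .D isS (.cond .D isT (.seq (.pop .D) (.push .A [true]))
      (.seq (.pop .D) (.push .A [false]))) l.length (st l a [] []) (st [] (l.reverse ++ a) [] []) := by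
    intro l
    induction l with
    | nil => intro d; rfl
    | cons x l ih =>
      intro a
      refine ⟨rfl, st l (x :: a) [] [], ?_, by simpa using ih (x :: a)⟩
      cases x
      · exact rcondF rfl (Run.seq (Run.pop _ _) ((Run.push _ _ _).of_eq (by simp)))
      · exact rcondT rfl (Run.seq (Run.pop _ _) ((Run.push _ _ _).of_eq (by simp)))
  have := (key l []).run hl rfl
  rw [List.append_nil] at this
  exact this

theorem run_preB {β : ℕ} (l : List Bool) (hl : l.length ≤ β) :
    Run β preB (st [false] l [] []) (st (code l.reverse) [] [] []) := by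
  have key : ∀ (l a : List Bool), LoopN β .A isS (.cond .A isT (.seq (.pop .A)
      (.push .D [true, true, false, false])) (.seq (.pop .A) (.push .D [true, false]))) l.length
      (st (code a) l [] []) (st (code (l.reverse ++ a)) [] [] []) := by
    intro l
    induction l with
    | nil => intro d; rfl
    | cons x l ih =>
      intro a
      refine ⟨rfl, st (code (x :: a)) l [] [], ?_, by simpa using ih (x :: a)⟩
      cases x
      · exact rcondF rfl (Run.seq (Run.pop _ _) ((Run.push _ _ _).of_eq (by simp [code_cons])))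
      · exact rcondT rfl (Run.seq (Run.pop _ _) ((Run.push _ _ _).of_eq (by simp [code_cons])))
  have := (key l []).run hl rfl
  rw [List.append_nil] at this
  exact this

theorem run_postA {β : ℕ} (l : List Bool) (hl : l.length ≤ β) :
    Run β postA (st (code l) [] [] []) (st [false] l.reverse [] []) := by
  have key : ∀ (l a : List Bool), LoopN β .D isT (.seq (.pop .D) (.cond .D isT (.seq (.pop .D)
      (.seq (.pop .D) (.seq (.pop .D) (.push .A [true])))) (.seq (.pop .D) (.push .A [false]))))
      l.length (st (code l) a [] []) (st [false] (l.reverse ++ a) [] []) := by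
    intro l
    induction l with
    | nil => intro d; rfl
    | cons x l ih =>
      intro a
      refine ⟨by cases x <;> rfl, st (code l) (x :: a) [] [], ?_, by simpa using ih (x :: a)⟩
      cases x
      · exact Run.seq (Run.pop _ _) (rcondF rfl (Run.seq (Run.pop _ _)
          ((Run.push _ _ _).of_eq (by simp [code_cons]))))
      · exact Run.seq (Run.pop _ _) (rcondT rfl (Run.seq (Run.pop _ _) (Run.seq (Run.pop _ _)
          (Run.seq (Run.pop _ _) ((Run.push _ _ _).of_eq (by simp [code_cons]))))))
  have := (key l []).run hl rfl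
  rw [List.append_nil] at this
  exact this

theorem polyFun_of_TC {f : List Bool → List Bool} (h : TC 0 f) : PolyFun f := by
  obtain ⟨F, m, h1, h2, h3⟩ := h
  obtain ⟨p, hp⟩ := Bd.poly (h1.add (h2.add (Bd.sz 0)))
  have h0 : ∀ l : List Bool, Function.update (fun _ => []) Rg.D l = st l [] [] [] := fun l => by
    funext r
    cases r <;> rfl
  refine polyTime Rg.D Rg.D (.seq preA (.seq (.push .D [false]) (.seq preB (.seq (compile F)
    (.seq postA (.seq (.pop .D) (flush .A))))))) id id f p fun w => ?_
  have a1 := hp w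
  have a2 := length_le_sz w
  have a3 := length_le_sz (f w)
  simp only [id, h0] at a1 ⊢
  refine Run.seq (run_preA w (by omega)) (Run.seq (t := st [false] w.reverse [] [])
    ((Run.push _ _ _).of_eq (by simp)) (Run.seq (run_preB _ (by simp; omega))
    (Run.seq (t := st (code (f w)) [] [] []) ?_ (Run.seq (run_postA _ (by omega))
    (Run.seq (t := st [] (f w).reverse [] []) ((Run.pop _ _).of_eq (by simp)) ?_)))))
  · simpa [code] using (h3 w _ (by omega)).run []
  · simpa using run_flushA (f w).reverse (by simp; omega) [] []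

def unStep (s : ℕ × List Bool × List Bool) (b : Bool) : ℕ × List Bool × List Bool :=
  bif neq s.1 0 then (bif b then 1 else 2, s.2) else
    bif neq s.1 1 then (0, b :: s.2.1, s.2.2) else (2, s.2.1, b :: s.2.2)

def unpair (w : List Bool) : List Bool × List Bool :=
  ((w.foldl unStep (0, [], [])).2.1.reverse, (w.foldl unStep (0, [], [])).2.2.reverse)

theorem unpair_pair (x y : List Bool) : unpair (pair x y) = (x, y) := by
  have h1 : ∀ (y a b : List Bool), y.foldl unStep (2, a, b) = (2, a, y.reverse ++ b) := by
    intro y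
    induction y with
    | nil => simp
    | cons c y ih => intro a b; simp [unStep, neq, ih]
  have h2 : ∀ (x a : List Bool), (pair x y).foldl unStep (0, a, []) =
      (2, x.reverse ++ a, y.reverse) := by
    intro x
    induction x with
    | nil => intro a; simp [pair, unStep, neq, h1]
    | cons c x ih => intro a; simpa [pair, unStep, neq] using ih (c :: a)
  simp [unpair, h2]

theorem tc_unpair' : TC 0 unpair := by
  have h : TC 0 fun w : List Bool => w.foldl unStep (0, [], []) := by
    refine TC.foldl_grow (f := fun _ s b => unStep s b) (i := fun _ => (0, [], []))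
      (by unfold unStep; fun_prop) (by fun_prop) TC.id (m := fun _ => 20) (Bd.const _ _)
      fun _ s b => ?_
    have h1 := sz_nat_self 1
    have h2 := sz_nat_self 2
    have h3 := sz_nat_self 0
    have h4 := sz_bool b
    have h5 := sz_prod s
    have h6 := sz_prod s.2
    unfold unStep
    cases neq s.1 0 <;> cases neq s.1 1 <;> cases b <;>
      simp only [Bool.cond_true, Bool.cond_false, sz_pair, sz_lcons] <;> omega
  unfold unpair
  fun_prop

theorem exists_unpair : ∃ u : List Bool → List Bool × List Bool, TC 0 u ∧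
    ∀ x y, u (pair x y) = (x, y) := ⟨unpair, tc_unpair', unpair_pair⟩

theorem exists_ofBits (m : ℕ) : ∀ v < 2 ^ m, ∃ y : List Bool, y.length = m ∧ ofBits y = v := by
  induction m with
  | zero => intro v hv; exact ⟨[], rfl, by simp [ofBits]; omega⟩
  | succ m ih =>
    intro v hv
    obtain ⟨y, h1, h2⟩ := ih v.div2 (by rw [Nat.div2_val]; omega)
    exact ⟨v.bodd :: y, by simp [h1], by rw [ofBits_cons, h2, Nat.bit_bodd_div2]⟩

theorem ncard_bits (m : ℕ) (T : ℕ → Prop) :
    {y : List Bool | y.length = m ∧ T (ofBits y)}.ncard = cnt (2 ^ m) T := by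
  classical
  rw [← Set.InjOn.ncard_image (f := ofBits) fun y hy y' hy' h =>
    ofBits_inj (hy.1.trans hy'.1.symm) h, cnt, ← Set.ncard_coe_finset]
  congr 1
  ext v
  simp only [Set.mem_image, Set.mem_ofPred_eq, coe_filter, mem_range]
  constructor
  · rintro ⟨y, ⟨h1, h2⟩, rfl⟩
    exact ⟨h1 ▸ ofBits_lt y, h2⟩
  · rintro ⟨h1, h2⟩
    obtain ⟨y, h3, rfl⟩ := exists_ofBits m v h1
    exact ⟨y, ⟨h3, h2⟩, rfl⟩

theorem classP_of_TC {f : List Bool → Bool} (hf : TC 0 f) : {w | f w = true} ∈ ClassP :=
  ⟨fun w => [f w], polyFun_of_TC (by fun_prop), fun w => by simp⟩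

theorem self_mem_PRel (A : Lang) : A ∈ PRel A := by
  obtain ⟨unpair, hu, unpair_pair⟩ := exists_unpair
  refine ⟨fun u => (unpair u).1, 1, _, polyFun_of_TC (by fun_prop),
    classP_of_TC (f := fun u => (unpair u).2.headD false) (by fun_prop), fun w => ?_⟩
  have : ∀ q : List Bool → List Bool, (answers A q w 1).headD false = true ↔ q (pair w []) ∈ A :=
    fun q => @decide_eq_true_iff _ (Classical.propDecidable _)
  rw [Set.mem_ofPred_eq, unpair_pair, Polynomial.eval_one, this, unpair_pair]

theorem Lv.level (j : ℕ) : ∀ P : List Bool → Prop, Lv j _ P → {w | P w} ∈ Level j := by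
  induction j with
  | zero =>
    rintro P ⟨f, hf, h⟩
    simp only [h]
    exact classP_of_TC hf
  | succ j ih =>
    rintro P ⟨Q, N, k, hQ, hN, hk, h⟩
    obtain ⟨p, hp⟩ := Bd.poly (hN.bd.add hk.bd)
    obtain ⟨unpair, hu, unpair_pair⟩ := exists_unpair
    have h0 : Lv j (List Bool) fun u => (nlt (ofBits (unpair u).2 + k (unpair u).1)
        (2 ^ (unpair u).2.length) && !nlt (ofBits (unpair u).2) (2 ^ (unpair u).2.tail.length)) = true :=
      Lv.mono (j := 0) ⟨_, by fun_prop, fun _ => Iff.rfl⟩ (Nat.zero_le j)
    have h1 := ih _ ((hQ.comp (g := fun u => ((unpair u).1, ofBits (unpair u).2)) (by fun_prop)).ite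
      h0 (c := fun u => nlt (ofBits (unpair u).2) (N (unpair u).1)) (by fun_prop))
    refine Set.mem_biUnion h1 ⟨_, p + 1, self_mem_PRel _, fun x => ?_⟩
    have a1 := hp x
    have a2 := (lt_two_pow_sz (N x)).trans_le
      (Nat.pow_le_pow_right (by norm_num) (show _ ≤ p.eval x.length by omega))
    have a3 := (lt_two_pow_sz (k x)).trans_le
      (Nat.pow_le_pow_right (by norm_num) (show _ ≤ p.eval x.length by omega))
    rw [Polynomial.eval_add, Polynomial.eval_one]
    generalize p.eval x.length = m at *
    have h2 := ncard_bits (m + 1) fun v => if v < N x then Q (x, v) else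
      v + k x < 2 ^ (m + 1) ∧ ¬ v < 2 ^ m
    refine (h x).trans (iff_of_eq (Eq.trans ?_ (congrArg (fun S => _ < 2 * Set.ncard S)
      (Set.ext fun y => and_congr_right fun hy => ?_ :
        {y : List Bool | y.length = m + 1 ∧ if ofBits y < N x then Q (x, ofBits y) else
          ofBits y + k x < 2 ^ (m + 1) ∧ ¬ ofBits y < 2 ^ m} = _))))
    · obtain ⟨c, hc⟩ : ∃ c, 2 ^ m = N x + c := ⟨2 ^ m - N x, by omega⟩
      rw [h2, eq_iff_iff, pow_succ 2 m, mul_two, cnt_add, cnt_congr (N := 2 ^ m) (Q' := fun y => y < 2 ^ m - k x)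
        (Q := fun y => if 2 ^ m + y < N x then _ else _) fun y _ => by
          rw [if_neg (by omega)]; omega, cnt_lt _ _ (by omega)]
      conv_rhs => rw [hc, cnt_add, ← hc]
      rw [cnt_congr (N := N x) (Q' := fun y => Q (x, y)) (Q := fun y => if y < N x then _ else _)
        fun y hy => by rw [if_pos hy]]
      have : cnt c (fun y => if N x + y < N x then Q (x, N x + y) else
          N x + y + k x < 2 ^ m + 2 ^ m ∧ ¬ N x + y < 2 ^ m) = 0 := by
        by_contra h3
        obtain ⟨y, hy, h4⟩ := cnt_pos.1 (Nat.pos_of_ne_zero h3)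
        rw [if_neg (by omega)] at h4
        omega
      omega
    · simp [unpair_pair, nlt, hy]

theorem CH.level {P : List Bool → Prop} (h : CH P) : ∃ j, {w | P w} ∈ Level j :=
  Exists.imp (fun j hj => Lv.level j P hj) h

end Vale.Agent.P337
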