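import Vale.Agent.P337.TCx
import Mathlib.Algebra.BigOperators.Intervals
import Mathlib.Algebra.BigOperators.Fin
import Mathlib.Logic.Equiv.Fin.Basic
import Mathlib.Data.Nat.Prime.Basic

/-! Typed counting hierarchy: predicates `CH` and functions `CF`. -/

namespace Vale.Agent.P337

open Vale.Agent.Common.TreeTM Enc Finset

open Classical in
noncomputable def cnt (N : ℕ) (Q : ℕ → Prop) : ℕ := ((range N).filter Q).card

def Lv : ℕ → ∀ (α : Type) [Enc α], (α → Prop) → Prop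
  | 0, α, _, P => ∃ f : α → Bool, TC 0 f ∧ ∀ a, P a ↔ f a = true
  | j + 1, α, _, P => ∃ (Q : α × ℕ → Prop) (N k : α → ℕ), Lv j (α × ℕ) Q ∧ TC 0 N ∧ TC 0 k ∧
      ∀ a, P a ↔ k a < cnt (N a) fun y => Q (a, y)

theorem cnt_congr {N : ℕ} {Q Q' : ℕ → Prop} (h : ∀ y < N, Q y ↔ Q' y) : cnt N Q = cnt N Q' := by
  classical
  unfold cnt
  congr 1
  ext y
  simp only [mem_filter, mem_range]
  exact and_congr_right fun hy => h y hy

theorem cnt_le (N : ℕ) (Q : ℕ → Prop) : cnt N Q ≤ N := by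
  classical
  exact (card_filter_le _ _).trans (by simp)

theorem cnt_pos {N : ℕ} {Q : ℕ → Prop} : 0 < cnt N Q ↔ ∃ y < N, Q y := by
  classical
  simp [cnt, card_pos, Finset.Nonempty]

open Classical in
theorem cnt_eq_sum (N : ℕ) (Q : ℕ → Prop) : cnt N Q = ∑ y ∈ range N, if Q y then 1 else 0 := by
  unfold cnt
  rw [card_filter]

theorem cnt_add (N M : ℕ) (Q : ℕ → Prop) :
    cnt (N + M) Q = cnt N Q + cnt M fun y => Q (N + y) := by
  simp only [cnt_eq_sum, sum_range_add]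

theorem cnt_not (N : ℕ) (Q : ℕ → Prop) : cnt N Q + cnt N (fun y => ¬ Q y) = N := by
  classical
  simp only [cnt_eq_sum]
  rw [← sum_add_distrib]
  trans ∑ _y ∈ range N, 1
  · refine sum_congr rfl fun y _ => ?_
    by_cases h : Q y <;> simp [h]
  · simp

theorem cnt_lt (N k : ℕ) (h : k ≤ N) : cnt N (fun y => y < k) = k := by
  unfold cnt
  rw [← card_range k]
  congr 1
  ext y
  simp only [mem_filter, mem_range, card_range]
  omega

theorem cnt_true (N : ℕ) : cnt N (fun _ => True) = N := by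
  simp [cnt]

theorem Lv.comp {j : ℕ} : ∀ {α β : Type} [Enc α] [Enc β] {P : β → Prop} {g : α → β},
    Lv j β P → TC 0 g → Lv j α fun a => P (g a) := by
  induction j with
  | zero =>
    rintro α β _ _ P g ⟨f, hf, h⟩ hg
    exact ⟨fun a => f (g a), by fun_prop, fun a => h _⟩
  | succ j ih =>
    rintro α β _ _ P g ⟨Q, N, k, hQ, hN, hk, h⟩ hg
    exact ⟨fun p => Q (g p.1, p.2), fun a => N (g a), fun a => k (g a),
      ih hQ (by fun_prop), by fun_prop, by fun_prop, fun a => h _⟩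

theorem Lv.succ {j : ℕ} {α : Type} [Enc α] {P : α → Prop} (h : Lv j α P) : Lv (j + 1) α P :=
  ⟨fun p => P p.1, fun _ => 1, fun _ => 0, h.comp (by fun_prop), by fun_prop, by fun_prop,
    fun a => by simp [cnt_pos]⟩

theorem Lv.mono {j j' : ℕ} {α : Type} [Enc α] {P : α → Prop} (h : Lv j α P) (hj : j ≤ j') :
    Lv j' α P := by
  induction hj with
  | refl => exact h
  | step _ ih => exact ih.succ

theorem Lv.ite {j : ℕ} : ∀ {α : Type} [Enc α] {P Q : α → Prop} {c : α → Bool},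
    Lv j α P → Lv j α Q → TC 0 c → Lv j α fun a => if c a = true then P a else Q a := by
  induction j with
  | zero =>
    rintro α _ P Q c ⟨f, hf, h⟩ ⟨g, hg, h'⟩ hc
    refine ⟨fun a => bif c a then f a else g a, by fun_prop, fun a => ?_⟩
    cases hca : c a <;> simp [h, h']
  | succ j ih =>
    rintro α _ P Q c ⟨R, N, k, hR, hN, hk, h⟩ ⟨R', N', k', hR', hN', hk', h'⟩ hc
    refine ⟨fun p => if c p.1 = true then R p else R' p, fun a => bif c a then N a else N' a,
      fun a => bif c a then k a else k' a, ih hR hR' (by fun_prop), by fun_prop, by fun_prop,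
      fun a => ?_⟩
    cases hca : c a <;> simp [h, h', hca]

variable {α β γ : Type} [Enc α] [Enc β] [Enc γ]

@[fun_prop] def CH (P : α → Prop) : Prop := ∃ j, Lv j α P

theorem CH.of_iff {P Q : α → Prop} (h : CH P) (hi : ∀ a, Q a ↔ P a) : CH Q := by
  rwa [show Q = P from funext fun a => propext (hi a)]

theorem CH.ofTC {f : α → Bool} (hf : TC 0 f) : CH fun a => f a = true :=
  ⟨0, f, hf, fun _ => Iff.rfl⟩

theorem CH.compTC {P : β → Prop} {g : α → β} (h : CH P) (hg : TC 0 g) : CH fun a => P (g a) := by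
  obtain ⟨j, h⟩ := h
  exact ⟨j, h.comp hg⟩

theorem CH.thr {Q : α × ℕ → Prop} {N k : α → ℕ} (hQ : CH Q) (hN : TC 0 N) (hk : TC 0 k) :
    CH fun a => k a < cnt (N a) fun y => Q (a, y) := by
  obtain ⟨j, h⟩ := hQ
  exact ⟨j + 1, Q, N, k, h, hN, hk, fun _ => Iff.rfl⟩

theorem CH.iteTC {P Q : α → Prop} {c : α → Bool} (hP : CH P) (hQ : CH Q) (hc : TC 0 c) :
    CH fun a => if c a = true then P a else Q a := by
  obtain ⟨j, h⟩ := hP
  obtain ⟨j', h'⟩ := hQ
  exact ⟨max j j', (h.mono (le_max_left _ _)).ite (h'.mono (le_max_right _ _)) hc⟩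

theorem CH.exTC {Q : α × ℕ → Prop} {N : α → ℕ} (hQ : CH Q) (hN : TC 0 N) :
    CH fun a => ∃ y < N a, Q (a, y) :=
  (hQ.thr hN (TC.const 0)).of_iff fun _ => cnt_pos.symm

@[fun_prop] theorem CH.or {P Q : α → Prop} (hP : CH P) (hQ : CH Q) : CH fun a => P a ∨ Q a := by
  have := (CH.iteTC (hP.compTC (g := fun p : α × ℕ => p.1) (by fun_prop))
    (hQ.compTC (g := fun p : α × ℕ => p.1) (by fun_prop))
    (c := fun p => neq p.2 0) (by fun_prop)).exTC (TC.const 2)
  refine this.of_iff fun a => ⟨?_, ?_⟩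
  · rintro (h | h)
    · exact ⟨0, by omega, by simpa [neq] using h⟩
    · exact ⟨1, by omega, by simpa [neq] using h⟩
  · rintro ⟨y, -, h⟩
    split_ifs at h
    · exact Or.inl h
    · exact Or.inr h

@[fun_prop] theorem CH.not {P : α → Prop} (hP : CH P) : CH fun a => ¬ P a := by
  obtain ⟨j, h⟩ := hP
  induction j generalizing α with
  | zero =>
    obtain ⟨f, hf, h⟩ := h
    exact (CH.ofTC (f := fun a => !f a) (by fun_prop)).of_iff fun a => by simp [h]
  | succ j ih =>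
    obtain ⟨Q, N, k, hQ, hN, hk, h⟩ := h
    have h1 : CH fun p : α × ℕ => ¬ Q p ∨ (!nlt p.2 (N p.1)) = true :=
      (ih hQ).or (CH.ofTC (by fun_prop))
    refine (h1.thr (N := fun a => N a + (k a + 1)) (k := N) (by fun_prop) hN).of_iff fun a => ?_
    rw [h, cnt_add, cnt_congr (Q := fun y => ¬ Q (a, y) ∨ (!nlt y (N a)) = true)
      (Q' := fun y => ¬ Q (a, y)) (N := N a)
      (fun y hy => by simp [nlt, hy]), cnt_congr (Q' := fun _ => True) (N := k a + 1)
      (fun y _ => by simp [nlt]), cnt_true]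
    have := cnt_not (N a) fun y => Q (a, y)
    omega

@[fun_prop] theorem CH.and {P Q : α → Prop} (hP : CH P) (hQ : CH Q) : CH fun a => P a ∧ Q a :=
  (hP.not.or hQ.not).not.of_iff fun a => by tauto

theorem CH.imp {P Q : α → Prop} (hP : CH P) (hQ : CH Q) : CH fun a => P a → Q a :=
  (hP.not.or hQ).of_iff fun a => by tauto

@[fun_prop] theorem CH.const (p : Prop) : CH fun _ : α => p := by
  classical
  exact (CH.ofTC (TC.const (decide p))).of_iff fun _ => by simp

/-! ### Functions -/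

@[fun_prop] def CF (f : α → β) : Prop :=
  (Bd 0 fun a => sz (f a)) ∧ ∀ (γ : Type) [Enc γ] (h : γ → α) (P : γ × β → Prop),
    TC 0 h → CH P → CH fun c => P (c, f (h c))

theorem CF.of_eq {f g : α → β} (h : CF f) (hg : ∀ a, g a = f a) : CF g := by
  rwa [show g = f from funext hg]

theorem CF.ofTC {f : α → β} (hf : TC 0 f) : CF f :=
  ⟨hf.bd, fun _ _ h _ hh hP => hP.compTC (g := fun c => (c, f (h c))) (by fun_prop)⟩

theorem CF.subst {f : α → β} {P : α × β → Prop} (hf : CF f) (hP : CH P) :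
    CH fun a => P (a, f a) := hf.2 α id P TC.id hP

@[fun_prop] theorem CH.comp {P : β → Prop} {g : α → β} (h : CH P) (hg : CF g) :
    CH fun a => P (g a) :=
  hg.subst (P := fun p => P p.2) (h.compTC (by fun_prop))

@[fun_prop] theorem CF.id : CF fun a : α => a := CF.ofTC TC.id

@[fun_prop] theorem CF.const (b : β) : CF fun _ : α => b := CF.ofTC (TC.const b)

@[fun_prop] theorem CF.comp {f : β → γ} {g : α → β} (hf : CF f) (hg : CF g) :
    CF fun a => f (g a) :=
  ⟨hf.1.comp hg.1, fun δ _ h P hh hP =>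
    hg.2 δ h (fun p => P (p.1, f p.2)) hh
      (hf.2 (δ × β) (fun p => p.2) (fun q => P (q.1.1, q.2)) (by fun_prop)
        (hP.compTC (by fun_prop)))⟩

@[fun_prop] theorem CF.pair {f : α → β} {g : α → γ} (hf : CF f) (hg : CF g) :
    CF fun a => (f a, g a) :=
  ⟨((hf.1.add hg.1).add (Bd.const 0 1)).mono fun _ => (sz_pair _ _).le, fun δ _ h P hh hP =>
    hf.2 δ h (fun p => P (p.1, p.2, g (h p.1))) hh
      (hg.2 (δ × β) (fun p => h p.1) (fun q => P (q.1.1, q.1.2, q.2)) (by fun_prop)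
        (hP.compTC (by fun_prop)))⟩

@[fun_prop] theorem CF.fst {f : α → β × γ} (hf : CF f) : CF fun a => (f a).1 :=
  CF.comp (CF.ofTC TC.fst') hf

@[fun_prop] theorem CF.snd {f : α → β × γ} (hf : CF f) : CF fun a => (f a).2 :=
  CF.comp (CF.ofTC TC.snd') hf

theorem CF.op2 {δ : Type} [Enc δ] {F : β → γ → δ} (hF : TC 0 fun p : β × γ => F p.1 p.2)
    {f : α → β} {g : α → γ} (hf : CF f) (hg : CF g) : CF fun a => F (f a) (g a) :=
  CF.comp (CF.ofTC hF) (hf.pair hg)

theorem CF.op3 {δ ε : Type} [Enc δ] [Enc ε] {F : β → γ → δ → ε}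
    (hF : TC 0 fun p : β × γ × δ => F p.1 p.2.1 p.2.2)
    {f : α → β} {g : α → γ} {k : α → δ} (hf : CF f) (hg : CF g) (hk : CF k) :
    CF fun a => F (f a) (g a) (k a) :=
  CF.comp (CF.ofTC hF) (hf.pair (hg.pair hk))

section ops

variable {f g k : α → ℕ}

@[fun_prop] theorem CF.add (hf : CF f) (hg : CF g) : CF fun a => f a + g a :=
  CF.op2 (F := fun x y : ℕ => x + y) (by fun_prop) hf hg
@[fun_prop] theorem CF.sub (hf : CF f) (hg : CF g) : CF fun a => f a - g a :=
  CF.op2 (F := fun x y : ℕ => x - y) (by fun_prop) hf hg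
@[fun_prop] theorem CF.mul (hf : CF f) (hg : CF g) : CF fun a => f a * g a :=
  CF.op2 (F := fun x y : ℕ => x * y) (by fun_prop) hf hg
@[fun_prop] theorem CF.div (hf : CF f) (hg : CF g) : CF fun a => f a / g a :=
  CF.op2 (F := fun x y : ℕ => x / y) (by fun_prop) hf hg
@[fun_prop] theorem CF.mod (hf : CF f) (hg : CF g) : CF fun a => f a % g a :=
  CF.op2 (F := fun x y : ℕ => x % y) (by fun_prop) hf hg
@[fun_prop] theorem CF.min (hf : CF f) (hg : CF g) : CF fun a => min (f a) (g a) :=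
  CF.op2 (F := fun x y : ℕ => Min.min x y) (by fun_prop) hf hg
@[fun_prop] theorem CF.dg (hf : CF f) (hg : CF g) (hk : CF k) : CF fun a => dg (f a) (g a) (k a) :=
  CF.op3 (F := fun x y z : ℕ => P337.dg x y z) (by fun_prop) hf hg hk
theorem CF.powMod (hf : CF f) (hg : CF g) (hk : CF k) : CF fun a => f a ^ g a % (k a + 1) :=
  CF.op3 (F := fun x y z : ℕ => x ^ y % (z + 1)) (by fun_prop) hf hg hk

@[fun_prop] theorem CH.lt (hf : CF f) (hg : CF g) : CH fun a => f a < g a :=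
  ((CH.ofTC (f := fun p : ℕ × ℕ => nlt p.1 p.2) (by fun_prop)).comp (hf.pair hg)).of_iff
    fun a => by simp [nlt]
@[fun_prop] theorem CH.le (hf : CF f) (hg : CF g) : CH fun a => f a ≤ g a :=
  (CH.lt hg hf).not.of_iff fun a => by simp
@[fun_prop] theorem CH.eq (hf : CF f) (hg : CF g) : CH fun a => f a = g a :=
  ((CH.le hf hg).and (CH.le hg hf)).of_iff fun a => by omega
@[fun_prop] theorem CH.ne (hf : CF f) (hg : CF g) : CH fun a => f a ≠ g a :=
  (CH.eq hf hg).not

end ops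

@[fun_prop] theorem CF.getD {l : α → List β} {i : α → ℕ} {d : α → β} (hl : CF l) (hi : CF i)
    (hd : CF d) : CF fun a => (l a).getD (i a) (d a) :=
  CF.op3 (F := fun (x : List β) (y : ℕ) (z : β) => x.getD y z) (by fun_prop) hl hi hd

@[fun_prop] theorem CF.length {l : α → List β} (hl : CF l) : CF fun a => (l a).length :=
  CF.comp (CF.ofTC (f := fun x : List β => x.length) (by fun_prop)) hl

@[fun_prop] theorem CF.tail {l : α → List β} (hl : CF l) : CF fun a => (l a).tail :=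
  CF.comp (CF.ofTC (f := fun x : List β => x.tail) (by fun_prop)) hl

@[fun_prop] theorem CF.toNat {l : α → ℤ} (hl : CF l) : CF fun a => (l a).toNat :=
  CF.comp (CF.ofTC (f := fun x : ℤ => x.toNat) (by fun_prop)) hl

@[fun_prop] theorem CF.neg {l : α → ℤ} (hl : CF l) : CF fun a => -(l a) :=
  CF.comp (CF.ofTC (f := fun x : ℤ => -x) (by fun_prop)) hl

def Bex (N : ℕ) (Q : ℕ → Prop) : Prop := ∃ y < N, Q y
def Ball (N : ℕ) (Q : ℕ → Prop) : Prop := ∀ y < N, Q y

theorem CH.thr' {Q : α → ℕ → Prop} {N k : α → ℕ} (hQ : CH fun p : α × ℕ => Q p.1 p.2) (hN : CF N)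
    (hk : CF k) : CH fun a => k a < cnt (N a) (Q a) :=
  (CH.thr (Q := fun p : (α × ℕ × ℕ) × ℕ => Q p.1.1 p.2) (N := fun p => p.2.1) (k := fun p => p.2.2)
    (hQ.compTC (g := fun p : (α × ℕ × ℕ) × ℕ => (p.1.1, p.2)) (by fun_prop)) (by fun_prop)
    (by fun_prop)).comp (g := fun a => (a, N a, k a)) (by fun_prop)

@[fun_prop] theorem CH.bex {Q : α → ℕ → Prop} {N : α → ℕ} (hN : CF N)
    (hQ : CH fun p : α × ℕ => Q p.1 p.2) : CH fun a => Bex (N a) (Q a) :=
  (hQ.thr' hN (CF.const 0)).of_iff fun _ => cnt_pos.symm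

@[fun_prop] theorem CH.ball {Q : α → ℕ → Prop} {N : α → ℕ} (hN : CF N)
    (hQ : CH fun p : α × ℕ => Q p.1 p.2) : CH fun a => Ball (N a) (Q a) :=
  (CH.bex (Q := fun a y => ¬ Q a y) hN hQ.not).not.of_iff fun a => by simp [Bex, Ball]

theorem CF.ofGraph {f : α → ℕ} (hb : Bd 0 fun a => sz (f a))
    (hg : CH fun p : α × ℕ => f p.1 = p.2) : CF f := by
  obtain ⟨b, hb1, hb2⟩ := exists_bound hb
  refine ⟨hb, fun γ _ h P hh hP => ?_⟩
  have := ((hg.compTC (g := fun p : γ × ℕ => (h p.1, p.2)) (by fun_prop)).and hP).exTC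
    (N := fun c => b (h c)) (by fun_prop)
  refine this.of_iff fun c => ⟨fun h1 => ⟨_, hb2 _, rfl, h1⟩, ?_⟩
  rintro ⟨y, -, h1, h2⟩
  dsimp only at h1
  rwa [h1]

theorem CF.ofLe {f g : α → ℕ} (hg : CF g) (hle : ∀ a, f a ≤ g a)
    (h : CH fun p : α × ℕ => f p.1 = p.2) : CF f :=
  CF.ofGraph ((((Bd.const 0 4).mul hg.1).add (Bd.const 0 1)).mono fun a => sz_nat_mono (hle a)) h

@[fun_prop] theorem CF.cnt {Q : α → ℕ → Prop} {N : α → ℕ} (hN : CF N)
    (hQ : CH fun p : α × ℕ => Q p.1 p.2) : CF fun a => cnt (N a) (Q a) := by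
  refine CF.ofLe hN (fun a => cnt_le _ _) ?_
  have hQ' : CH fun p : (α × ℕ) × ℕ => Q p.1.1 p.2 :=
    hQ.compTC (g := fun p : (α × ℕ) × ℕ => (p.1.1, p.2)) (by fun_prop)
  have h1 := hQ'.thr' (Q := fun (p : α × ℕ) y => Q p.1 y) (N := fun p => N p.1) (k := fun p => p.2)
    (by fun_prop) (by fun_prop)
  have h2 := hQ'.thr' (Q := fun (p : α × ℕ) y => Q p.1 y) (N := fun p => N p.1)
    (k := fun p => p.2 - 1) (by fun_prop) (by fun_prop)
  have h3 : CH fun p : α × ℕ => p.2 = 0 := by fun_prop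
  refine (h1.not.and (h2.or h3)).of_iff fun p => ?_
  show P337.cnt (N p.1) (Q p.1) = p.2 ↔ ¬ p.2 < P337.cnt (N p.1) (Q p.1) ∧
    (p.2 - 1 < P337.cnt (N p.1) (Q p.1) ∨ p.2 = 0)
  omega

@[fun_prop] theorem CF.ite {P : α → Prop} [DecidablePred P] {f g : α → ℕ} (hP : CH P) (hf : CF f)
    (hg : CF g) : CF fun a => if P a then f a else g a := by
  refine CF.ofLe (hf.add hg) (fun a => by split_ifs <;> omega) ?_
  have : CH fun p : α × ℕ => (P p.1 ∧ f p.1 = p.2) ∨ (¬ P p.1 ∧ g p.1 = p.2) := by fun_prop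
  refine this.of_iff fun p => ?_
  by_cases h : P p.1 <;> simp [h]

/-- A uniform bound for a function on a range. -/
theorem CF.unif {f : α × ℕ → ℕ} {N : α → ℕ} (hf : CF f) (hN : CF N) :
    ∃ B : α → ℕ, CF B ∧ ∀ a, ∀ i < N a, f (a, i) < B a := by
  obtain ⟨M, hM, h⟩ := hf.1.unif (e := 0) (S := fun a => sz a + (4 * sz (N a) + 1) + 1)
    (((Bd.sz 0).add (((Bd.const 0 4).mul hN.1).add (Bd.const 0 1))).add (Bd.const 0 1)) (by omega)
  obtain ⟨u, hu, hl⟩ := exists_unary hM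
  refine ⟨fun a => 2 ^ (u a).length, CF.ofTC (by fun_prop), fun a i hi => ?_⟩
  refine (lt_two_pow_sz _).trans_le (Nat.pow_le_pow_right (by norm_num) ((h a (a, i) ?_).trans (hl a)))
  have := sz_nat_mono hi.le
  rw [sz_pair]
  omega

theorem sum_range_mul {M : Type} [AddCommMonoid M] (N B : ℕ) (f : ℕ → M) :
    ∑ y ∈ range (N * B), f y = ∑ i ∈ range N, ∑ v ∈ range B, f (i * B + v) := by
  induction N with
  | zero => simp
  | succ N ih => rw [Nat.succ_mul, sum_range_add, ih, sum_range_succ]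

@[fun_prop] theorem CF.sum {f : α → ℕ → ℕ} {N : α → ℕ} (hN : CF N)
    (hf : CF fun p : α × ℕ => f p.1 p.2) : CF fun a => ∑ i ∈ range (N a), f a i := by
  obtain ⟨B, hB, h⟩ := hf.unif hN
  have : CF fun a => P337.cnt (N a * B a) fun y => y % B a < f a (y / B a) := by fun_prop
  refine this.of_eq fun a => ?_
  rw [cnt_eq_sum, sum_range_mul]
  refine sum_congr rfl fun i hi => ?_
  have h1 := h a i (mem_range.1 hi)
  rw [← cnt_lt (B a) (f a i) h1.le, cnt_eq_sum]
  refine sum_congr rfl fun v hv => ?_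
  have hv := mem_range.1 hv
  have h2 : (i * B a + v) / B a = i := by
    rw [mul_comm, Nat.mul_add_div (by omega), Nat.div_eq_of_lt hv, add_zero]
  have h3 : (i * B a + v) % B a = v := by
    rw [mul_comm, Nat.mul_add_mod, Nat.mod_eq_of_lt hv]
  simp only [h2, h3]
  congr

/-- Numbers that are polynomially bounded. -/
@[fun_prop] def Sm (f : α → ℕ) : Prop := CF f ∧ Bd 0 f

theorem Sm.cf {f : α → ℕ} (h : Sm f) : CF f := h.1

@[fun_prop] theorem Sm.comp {f : β → ℕ} {g : α → β} (hf : Sm f) (hg : CF g) : Sm fun a => f (g a) :=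
  ⟨hf.1.comp hg, hf.2.comp hg.1⟩

@[fun_prop] theorem Sm.const (c : ℕ) : Sm fun _ : α => c := ⟨CF.const c, Bd.const 0 c⟩

@[fun_prop] theorem Sm.add {f g : α → ℕ} (hf : Sm f) (hg : Sm g) : Sm fun a => f a + g a :=
  ⟨hf.1.add hg.1, hf.2.add hg.2⟩

@[fun_prop] theorem Sm.mul {f g : α → ℕ} (hf : Sm f) (hg : Sm g) : Sm fun a => f a * g a :=
  ⟨hf.1.mul hg.1, hf.2.mul hg.2⟩

theorem Sm.of_le {f g : α → ℕ} (hg : Sm g) (hf : CF f) (h : ∀ a, f a ≤ g a) : Sm f :=
  ⟨hf, hg.2.mono h⟩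

@[fun_prop] theorem Sm.length {l : α → List β} (hl : CF l) : Sm fun a => (l a).length :=
  ⟨hl.length, hl.1.mono fun _ => length_le_sz _⟩

@[fun_prop] theorem CF.pow {f g : α → ℕ} (hf : CF f) (hg : Sm g) : CF fun a => f a ^ g a := by
  obtain ⟨u, hu, hl⟩ := exists_unary hg.2
  have := CF.op3 (F := fun (x y : ℕ) (l : List Bool) => x ^ (l.take y).length) (by fun_prop) hf hg.1
    (CF.ofTC hu)
  exact this.of_eq fun a => by rw [List.length_take, min_eq_left (hl a)]

@[fun_prop] theorem CF.range {g : α → ℕ} (hg : Sm g) : CF fun a => List.range (g a) := by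
  obtain ⟨u, hu, hl⟩ := exists_unary hg.2
  have := CF.op2 (F := fun (y : ℕ) (l : List Bool) => idx (l.take y)) (by fun_prop) hg.1 (CF.ofTC hu)
  exact this.of_eq fun a => by rw [idx, List.length_take, min_eq_left (hl a)]

/-- Lists built by a polynomial time map. -/
theorem CF.mapTC {δ : Type} [Enc δ] {F : β → γ → δ} (hF : TC 0 fun p : β × γ => F p.1 p.2)
    {g : α → β} {l : α → List γ} (hg : CF g) (hl : CF l) : CF fun a => (l a).map (F (g a)) :=
  CF.op2 (F := fun (x : β) (l : List γ) => l.map (F x)) (by fun_prop) hg hl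

/-- The least number below `N` with a property. -/
noncomputable def lst (N : ℕ) (Q : ℕ → Prop) : ℕ := cnt N fun y => Ball (y + 1) fun z => ¬ Q z

@[fun_prop] theorem CF.lst {Q : α → ℕ → Prop} {N : α → ℕ} (hN : CF N)
    (hQ : CH fun p : α × ℕ => Q p.1 p.2) : CF fun a => lst (N a) (Q a) := by
  unfold P337.lst
  have hQ' : CH fun p : (α × ℕ) × ℕ => Q p.1.1 p.2 :=
    hQ.compTC (g := fun p : (α × ℕ) × ℕ => (p.1.1, p.2)) (by fun_prop)
  exact CF.cnt hN (CH.ball (by fun_prop) hQ'.not)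

theorem lst_spec {N : ℕ} {Q : ℕ → Prop} (h : ∃ y < N, Q y) : Q (lst N Q) := by
  classical
  have h0 : ∃ y, Q y := h.imp fun _ h => h.2
  obtain ⟨y, hy, hQ⟩ := h
  have h1 := Nat.find_min' h0 hQ
  have : lst N Q = Nat.find h0 := by
    rw [lst, ← cnt_lt N (Nat.find h0) (by omega)]
    refine cnt_congr fun z _ => ?_
    rw [Nat.lt_find_iff]
    exact ⟨fun h m hm => h m (by omega), fun h m hm => h m (by omega)⟩
  rw [this]
  exact Nat.find_spec h0

@[fun_prop] theorem CH.prime {f : α → ℕ} (hf : CF f) : CH fun a => (f a).Prime := by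
  have : CH fun a => 2 ≤ f a ∧ Ball (f a) fun d => d < 2 ∨ f a % d ≠ 0 := by fun_prop
  refine this.of_iff fun a => ?_
  rw [Nat.prime_def_lt']
  refine and_congr_right fun _ => ⟨fun h d hd => ?_, fun h d h2 hd hdvd => ?_⟩
  · by_cases h2 : d < 2
    · exact Or.inl h2
    · exact Or.inr fun h0 => h d (by omega) hd (Nat.dvd_of_mod_eq_zero h0)
  · rcases h d hd with h1 | h1
    · omega
    · exact h1 (Nat.mod_eq_zero_of_dvd hdvd)

end Vale.Agent.P337
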