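import Vale.Agent.P337.TCx
import Vale.Agent.P337.Defs

/-! Decoding of sentences and evaluation of formulas in reverse Polish form. -/

namespace Vale.Agent.P337

open Vale.Agent.Common.TreeTM Enc

variable {α β : Type} [Enc α] [Enc β]

def Dec (α : Type) [Enc α] : Prop := ∃ d : Tr → α, TC 0 d ∧ ∀ a, d (enc a) = a

theorem Dec.bool : Dec Bool := ⟨fun t => isCons (toL t), by fun_prop, fun a => by cases a <;> rfl⟩

theorem Dec.prod (h : Dec α) (h' : Dec β) : Dec (α × β) := by
  obtain ⟨d, hd, h⟩ := h
  obtain ⟨d', hd', h'⟩ := h'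
  refine ⟨fun t => (d ((toL t).headD .nil), d' (enc (toL t).tail)), by fun_prop, fun a => ?_⟩
  show (d (enc a.1), d' (enc (toL (enc a.2)))) = a
  rw [enc_toL, h, h']

theorem Dec.list (h : Dec α) : Dec (List α) := by
  obtain ⟨d, hd, h⟩ := h
  exact ⟨fun t => (toL t).map d, by fun_prop, fun a => by simp [toL_enc, Function.comp_def, h]⟩

theorem Dec.nat : Dec ℕ := by
  obtain ⟨d, hd, h⟩ := Dec.bool.list
  exact ⟨fun t => ofBits (d t), by fun_prop, fun a => (congrArg ofBits (h a.bits)).trans (ofBits_bits a)⟩

theorem Dec.int : Dec ℤ := by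
  obtain ⟨d, hd, h⟩ := Dec.nat.prod Dec.nat
  refine ⟨fun t => ((d t).1 : ℤ) - (d t).2, by fun_prop, fun a => ?_⟩
  have : d (enc a) = (a.toNat, (-a).toNat) := h _
  simp only [this]
  omega

def pStep (s : List Tr) (b : Bool) : List Tr :=
  bif b then .cons (s.headD .nil) (s.tail.headD .nil) :: s.tail.tail else .nil :: s

theorem pStep_enc (t : Tr) : ∀ s, t.enc.reverse.foldl pStep s = t :: s := by
  induction t with
  | nil => intro s; rfl
  | cons a b iha ihb =>
    intro s
    rw [Tr.enc, List.reverse_cons, List.reverse_append, List.foldl_append, List.foldl_append, ihb, iha]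
    rfl

theorem Dec.code (h : Dec α) : ∃ g : List Bool → α, TC 0 g ∧ ∀ a, g (code a) = a := by
  obtain ⟨d, hd, h⟩ := h
  have h1 : TC 0 fun w : List Bool => w.reverse.foldl pStep [] := by
    refine TC.foldl_grow (f := fun _ s b => pStep s b) (i := fun _ => [])
      (by unfold pStep; fun_prop) (by fun_prop) (by fun_prop) (m := fun _ => 4) (Bd.const _ _)
      fun _ s b => ?_
    have h0 : sz Tr.nil = 1 := rfl
    have h2 : ∀ a b : Tr, sz (Tr.cons a b) = sz a + sz b + 1 := sz_cons
    cases b
    · simp only [pStep, Bool.cond_false, sz_lcons, h0]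
      omega
    · rcases s with _ | ⟨a, _ | ⟨b, s⟩⟩ <;>
        simp only [pStep, Bool.cond_true, sz_lcons, h0, h2, List.headD_nil, List.headD_cons,
          List.tail_nil, List.tail_cons] <;> omega
  exact ⟨fun w => d ((w.reverse.foldl pStep []).headD .nil), hd.comp (h1.headD (TC.const _)),
    fun a => by simp only [P337.code, pStep_enc, List.headD_cons, h]⟩

abbrev RP : Type := List (ℤ × List (List Bool))

abbrev Raw : Type := List Bool × List (ℕ × RP)

theorem exists_decoder : ∃ g : List Bool → Raw, TC 0 g ∧ ∀ a, g (code a) = a :=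
  (Dec.bool.list.prod (Dec.nat.prod (Dec.int.prod Dec.bool.list.list).list).list).code

variable {n : ℕ}

def rawP (p : Poly n) : RP := p.map fun m => (m.1, List.ofFn fun i => List.replicate (m.2 i) false)

def toRaw (ts : List (ℕ × Poly n)) : Raw :=
  (List.replicate n false, ts.map fun t => (t.1, rawP t.2))

def polyOf (n : ℕ) (p : RP) : Poly n := p.map fun m => (m.1, fun i => (m.2.getD i []).length)

def toks (n : ℕ) (l : List (ℕ × RP)) : List (ℕ × Poly n) := l.map fun t => (t.1, polyOf n t.2)

def zo (t : ℕ × Poly n) : ℕ × Poly n := (t.1, if t.1 < 2 then t.2 else [])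

theorem encList_eq {γ : Type} {f : γ → List Bool} {g : γ → α} (h : ∀ c, f c = code (g c))
    (l : List γ) : encList f l = code (l.map g) := by
  rw [code, ← enc_list code fun _ => rfl, encList, List.flatMap_map]
  simp only [h]

theorem encBools (l : List Bool) : encList encBool l = code l := by
  rw [encList_eq (g := id) fun b => by cases b <;> rfl, List.map_id]

theorem code_pair (a : α) (b : β) : code (a, b) = true :: (code a ++ code b) := rfl

theorem encSentence_eq (Φ : Formula n) : encSentence n Φ = code (toRaw Φ.tokens) := by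
  have h1 : ∀ k : ℕ, encNat k = code k := fun k => encBools _
  have h2 : ∀ z : ℤ, encInt z = code z := fun z => by
    rw [encInt, encPair, h1, h1]; rfl
  have h3 : ∀ p : Poly n, encPoly p = code (rawP p) := fun p => encList_eq (fun m => by
    rw [encPair, code_pair, h2, encList_eq (f := encUnary) (g := fun k => List.replicate k false)
      fun k => encBools _, List.map_ofFn]
    rfl) p
  rw [encSentence, encPair, toRaw, code_pair, encUnary, encBools,
    encList_eq (g := fun t : ℕ × Poly n => (t.1, rawP t.2)) fun t => by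
      rw [encPair, code_pair, h1, h3]]

theorem toks_toRaw (ts : List (ℕ × Poly n)) : toks n (toRaw ts).2 = ts := by
  have : ∀ p : Poly n, polyOf n (rawP p) = p := fun p => by
    simp [polyOf, rawP, Function.comp_def]
  simp [toks, toRaw, Function.comp_def, this]

def norm (r : Raw) : Raw :=
  (r.1.map fun _ => false, r.2.map fun t => (t.1, bif nlt t.1 2 then
    t.2.map fun m => (m.1, (idx r.1).map fun i => (m.2.getD i []).map fun _ => false) else []))

theorem tc_norm : TC 0 norm := by
  unfold norm
  fun_prop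

theorem norm_eq (r : Raw) : norm r = toRaw ((toks r.1.length r.2).map zo) := by
  simp only [norm, toRaw, toks, List.map_map, List.map_const']
  congr 2
  funext t
  simp only [Function.comp_def, zo, nlt]
  split_ifs with h
  · simp [h, rawP, polyOf, Function.comp_def, idx, List.ofFn_eq_map, ← List.map_coe_finRange_eq_range]
  · simp [h, rawP]

theorem zo_tokens (Φ : Formula n) : Φ.tokens.map zo = Φ.tokens := by
  induction Φ <;> simp_all [Formula.tokens, zo]

def bStep (s : Bool × List Bool) (t : ℕ × Bool) : Bool × List Bool :=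
  bif nlt t.1 2 then (s.1, t.2 :: s.2) else
    bif nlt t.1 4 then (s.1 && isCons s.2.tail, (bif neq t.1 2 then
      s.2.tail.headD false && s.2.headD false else (s.2.tail.headD false || s.2.headD false)) ::
        s.2.tail.tail)
    else (s.1 && (neq t.1 4 && isCons s.2), (!s.2.headD false) :: s.2.tail)

def runB (l : List (ℕ × Bool)) : Bool :=
  (l.foldl bStep (true, [])).1 && leq (l.foldl bStep (true, [])).2 [true]

theorem tc_runB : TC 0 runB := by
  have h : TC 0 fun l : List (ℕ × Bool) => l.foldl bStep (true, []) := by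
    refine TC.foldl_grow (f := fun _ s t => bStep s t) (i := fun _ => (true, []))
      (by unfold bStep; fun_prop) (by fun_prop) TC.id (m := fun _ => 7) (Bd.const _ _)
      fun _ s t => ?_
    have h1 : ∀ l : List Bool, sz l.tail ≤ sz l := fun l => by
      rw [← List.drop_one]; exact sz_drop _ _
    have h2 := h1 s.2
    have h3 := h1 s.2.tail
    have h4 : ∀ (a b : Bool) (l : List Bool), sz (a, b :: l) ≤ sz l + 8 := fun a b l => by
      have := sz_bool a
      have := sz_bool b
      rw [sz_pair, sz_lcons]
      omega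
    have h5 := sz_prod s
    unfold bStep
    cases nlt t.1 2 <;> cases nlt t.1 4 <;> exact (h4 _ _ _).trans (by omega)
  unfold runB
  fun_prop

noncomputable def pb (p : Prop) : Bool := @decide p (Classical.propDecidable p)

theorem pb_iff {p : Prop} : pb p = true ↔ p := @decide_eq_true_iff p (Classical.propDecidable p)

noncomputable def tvx (x : Fin n → ℝ) (t : ℕ × Poly n) : ℕ × Bool :=
  (t.1, pb (if t.1 = 0 then t.2.eval x = 0 else 0 < t.2.eval x))

theorem run_tokens (x : Fin n → ℝ) (Φ : Formula n) : ∀ s : Bool × List Bool,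
    (Φ.tokens.map (tvx x)).foldl bStep s = (s.1, pb (Φ.Holds x) :: s.2) := by
  induction Φ with
  | eq p => intro s; rfl
  | pos p => intro s; rfl
  | and a b iha ihb =>
    intro s
    simp only [Formula.tokens, List.map_append, List.foldl_append, iha, ihb]
    by_cases h : a.Holds x <;> by_cases h' : b.Holds x <;>
      simp [tvx, bStep, nlt, neq, isCons, pb, Formula.Holds, h, h']
  | or a b iha ihb =>
    intro s
    simp only [Formula.tokens, List.map_append, List.foldl_append, iha, ihb]
    by_cases h : a.Holds x <;> by_cases h' : b.Holds x <;>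
      simp [tvx, bStep, nlt, neq, isCons, pb, Formula.Holds, h, h']
  | not a iha =>
    intro s
    simp only [Formula.tokens, List.map_append, List.foldl_append, iha]
    by_cases h : a.Holds x <;> simp [tvx, bStep, nlt, neq, isCons, pb, Formula.Holds, h]

theorem exists_formulas (x : Fin n → ℝ) (ts : List (ℕ × Poly n)) (h : ts.map zo = ts)
    (h1 : ((ts.map (tvx x)).foldl bStep (true, [])).1 = true) : ∃ L : List (Formula n),
      L.length = ((ts.map (tvx x)).foldl bStep (true, [])).2.length ∧
      ts = L.reverse.flatMap Formula.tokens := by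
  induction ts using List.reverseRecOn with
  | nil => exact ⟨[], rfl, rfl⟩
  | append_singleton ts t ih =>
    obtain ⟨k, p⟩ := t
    rw [List.map_append] at h
    obtain ⟨h2, h3⟩ := List.append_inj' h rfl
    have h4 := ih h2
    simp only [List.map_append, List.foldl_append, List.map_cons, List.map_nil, List.foldl_cons,
      List.foldl_nil, List.cons.injEq, zo, Prod.mk.injEq, true_and, and_true, tvx] at h1 h3 ⊢
    generalize (ts.map (tvx x)).foldl bStep (true, []) = s at *
    generalize pb _ = v at *
    by_cases k2 : k < 2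
    · simp only [bStep, nlt, k2, decide_true, Bool.cond_true] at h1 ⊢
      obtain ⟨L, h5, rfl⟩ := h4 h1
      obtain rfl | rfl : k = 0 ∨ k = 1 := by omega
      · exact ⟨.eq p :: L, by simp [h5], by simp [Formula.tokens]⟩
      · exact ⟨.pos p :: L, by simp [h5], by simp [Formula.tokens]⟩
    rw [if_neg k2] at h3
    subst h3
    by_cases k4 : k < 4
    · simp only [bStep, nlt, k2, k4, decide_true, decide_false, Bool.cond_true, Bool.cond_false,
        Bool.and_eq_true] at h1 ⊢
      obtain ⟨L, h5, rfl⟩ := h4 h1.1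
      have h6 : 2 ≤ s.2.length := by
        have := h1.2
        rcases hs : s.2 with _ | ⟨a, _ | ⟨b, l⟩⟩ <;> simp_all [isCons]
      obtain ⟨A, B, R, rfl⟩ : ∃ A B R, L = A :: B :: R := by
        rcases L with _ | ⟨a, _ | ⟨b, l⟩⟩
        · simp at h5; omega
        · simp at h5; omega
        · exact ⟨a, b, l, rfl⟩
      simp only [List.length_cons] at h5
      obtain rfl | rfl : k = 2 ∨ k = 3 := by omega
      · exact ⟨.and B A :: R, by simp; omega, by simp [Formula.tokens]⟩
      · exact ⟨.or B A :: R, by simp; omega, by simp [Formula.tokens]⟩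
    · simp only [bStep, nlt, k2, k4, decide_false, Bool.cond_false, Bool.and_eq_true, neq,
        decide_eq_true_eq] at h1 ⊢
      obtain ⟨L, h5, rfl⟩ := h4 h1.1
      have h6 : 1 ≤ s.2.length := by
        have := h1.2.2
        rcases hs : s.2 with _ | ⟨a, l⟩ <;> simp_all [isCons]
      obtain ⟨A, R, rfl⟩ : ∃ A R, L = A :: R := by
        rcases L with _ | ⟨a, l⟩
        · simp at h5; omega
        · exact ⟨a, l, rfl⟩
      simp only [List.length_cons] at h5
      exact ⟨.not A :: R, by simp; omega, by simp [Formula.tokens, h1.2.1]⟩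

theorem runB_iff (x : Fin n → ℝ) (ts : List (ℕ × Poly n)) (h : ts.map zo = ts) :
    runB (ts.map (tvx x)) = true ↔ ∃ Φ : Formula n, ts = Φ.tokens ∧ Φ.Holds x := by
  have key : ∀ Φ : Formula n, runB (Φ.tokens.map (tvx x)) = true ↔ Φ.Holds x := fun Φ => by
    simp [runB, run_tokens, leq, pb_iff]
  refine ⟨fun h1 => ?_, by rintro ⟨Φ, rfl, h1⟩; exact (key Φ).2 h1⟩
  have h2 := h1
  simp only [runB, leq, Bool.and_eq_true, decide_eq_true_eq] at h2
  obtain ⟨L, h3, h4⟩ := exists_formulas x ts h h2.1
  rw [h2.2] at h3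
  obtain ⟨Φ, rfl⟩ := List.length_eq_one_iff.1 h3
  obtain rfl : ts = Φ.tokens := by simpa using h4
  exact ⟨Φ, rfl, (key Φ).1 h1⟩

theorem mem_ETR {g : List Bool → Raw} (hg : ∀ a, g (code a) = a) (w : List Bool) :
    w ∈ ETR ↔ code (norm (g w)) = w ∧ ∃ x : Fin (g w).1.length → ℝ,
      runB ((toks _ (g w).2).map (tvx x)) = true := by
  have key : ∀ (n : ℕ) (ts : List (ℕ × Poly n)) (m : ℕ), m = n →
      ((toks m (toRaw ts).2).map zo = toks m (toRaw ts).2 → ts.map zo = ts) ∧
      (toRaw ((toks m (toRaw ts).2).map zo) = toRaw (ts.map zo)) ∧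
      ((∃ x : Fin m → ℝ, runB ((toks m (toRaw ts).2).map (tvx x)) = true) ↔
        ∃ x : Fin n → ℝ, runB (ts.map (tvx x)) = true) := by
    rintro n ts _ rfl
    simp [toks_toRaw]
  constructor
  · rintro ⟨n, Φ, rfl, x, hx⟩
    obtain ⟨-, h1, h2⟩ := key n Φ.tokens (toRaw Φ.tokens).1.length (by simp [toRaw])
    rw [encSentence_eq, hg, norm_eq, h1, h2, zo_tokens]
    exact ⟨rfl, x, (runB_iff x _ (zo_tokens Φ)).2 ⟨Φ, rfl, hx⟩⟩
  · rintro ⟨h1, x, hx⟩
    have h2 : g w = norm (g w) := by
      conv_lhs => rw [← h1, hg]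
    rw [norm_eq] at h1 h2
    have h3 : toks (g w).1.length (g w).2 = (toks (g w).1.length (g w).2).map zo := by
      have := toks_toRaw ((toks (g w).1.length (g w).2).map zo)
      rwa [← h2] at this
    obtain ⟨Φ, h4, h5⟩ := (runB_iff x _ h3.symm).1 hx
    exact ⟨_, Φ, by rw [encSentence_eq, ← h4, h3, h1], x, h5⟩

end Vale.Agent.P337
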