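import Vale.Agent.P337.RealZero
import Vale.Agent.P337.Parse
import Vale.Agent.P337.Transfer

/-! Reduction of the existential theory of the reals to real zeros of one polynomial. -/

namespace Vale.Agent.P337

open Vale.Agent.Common.TreeTM Enc Finset MvPolynomial

section

variable {S : Type} [CommRing S] (n : ℕ) (x : ℕ → S)

def rval (p : RP) : S := ∑ j ∈ range p.length, ((p.getD j (0, [])).1 : S) *
  ∏ i ∈ range n, x i ^ ((p.getD j (0, [])).2.getD i []).length

def eqn (l : List (ℕ × RP)) (σ j : ℕ) : S :=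
  if dg 3 σ j = 0 then rval n x (l.getD j (0, [])).2
  else if dg 3 σ j = 1 then rval n x (l.getD j (0, [])).2 * x (n + j) ^ 2 + (-1 : ℤ)
  else rval n x (l.getD j (0, [])).2 * x (n + j) ^ 2 + (1 : ℤ)

def FF (l : List (ℕ × RP)) (σ : ℕ) : S := ∑ j ∈ range l.length, eqn n x l σ j ^ 2

theorem map_FF {S' : Type} [CommRing S'] (φ : S →+* S') (l : List (ℕ × RP)) (σ : ℕ) :
    φ (FF n x l σ) = FF n (fun i => φ (x i)) l σ := by
  simp [FF, eqn, rval, apply_ite φ]

theorem rval_congr {y : ℕ → S} (h : ∀ i < n, x i = y i) (p : RP) : rval n x p = rval n y p :=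
  sum_congr rfl fun _ _ => congrArg _ (prod_congr rfl fun i hi => by rw [h i (mem_range.1 hi)])

end

theorem sum_getD {α M : Type} [AddCommMonoid M] (l : List α) (d : α) (f : α → M) :
    ∑ j ∈ range l.length, f (l.getD j d) = (l.map f).sum := by
  induction l with
  | nil => simp
  | cons a l ih => rw [List.length_cons, sum_range_succ', List.map_cons, List.sum_cons, ← ih, add_comm]; rfl

theorem eval_polyOf (n : ℕ) (x : ℕ → ℝ) (p : RP) :
    (polyOf n p).eval (fun i : Fin n => x i) = rval n x p := by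
  rw [rval, sum_getD p (0, []) fun m => (m.1 : ℝ) * ∏ i ∈ range n, x i ^ (m.2.getD i []).length,
    Poly.eval, polyOf, List.map_map]
  congr 2
  funext m
  exact congrArg _ (Fin.prod_univ_eq_prod_range (fun i => x i ^ (m.2.getD i []).length) n)

noncomputable def sg (v : ℝ) : ℕ := if v = 0 then 0 else if 0 < v then 1 else 2

theorem zero_iff (n : ℕ) (l : List (ℕ × RP)) (σ : ℕ) {N : ℕ} (hN : N = n + l.length) :
    (∃ x : Fin N → ℝ, aeval x (FF n (xn N) l σ) = 0) ↔
      ∃ x : ℕ → ℝ, ∀ j < l.length, dg 3 σ j = sg (rval n x (l.getD j (0, [])).2) := by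
  have h0 : ∀ x : Fin N → ℝ, aeval x (FF n (xn N) l σ) = 0 ↔
      ∀ j < l.length, eqn n (fun i => if h : i < N then x ⟨i, h⟩ else 0) l σ j = 0 := by
    intro x
    have : (fun i => eval₂Hom (algebraMap ℤ ℝ) x (xn N i)) =
        fun i => if h : i < N then x ⟨i, h⟩ else 0 := funext fun i => by
      unfold xn
      split_ifs <;> simp
    rw [aeval_eq_eval₂Hom, map_FF, this, FF, sum_eq_zero_iff_of_nonneg fun _ _ => sq_nonneg _]
    simp only [mem_range, pow_eq_zero_iff two_ne_zero]
  simp only [h0]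
  constructor
  · rintro ⟨x, hx⟩
    generalize (fun i => if h : i < N then x ⟨i, h⟩ else 0) = y at hx
    refine ⟨y, fun j hj => ?_⟩
    have h1 := hx j hj
    have h2 : dg 3 σ j < 3 := Nat.mod_lt _ (by norm_num)
    unfold eqn at h1
    unfold sg
    generalize rval (S := ℝ) n _ _ = v at h1 ⊢
    generalize y (n + j) = z at h1
    have h3 := sq_nonneg z
    push_cast at h1
    split_ifs at h1 with a1 a2
    · rw [if_pos h1, a1]
    · have : 0 < v := by nlinarith
      rw [if_neg this.ne', if_pos this, a2]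
    · have : v < 0 := by nlinarith
      rw [if_neg this.ne, if_neg this.not_gt]
      omega
  · rintro ⟨x, hx⟩
    refine ⟨fun i => if (i : ℕ) < n then x i else
      (√|rval n x (l.getD (i - n) (0, [])).2|)⁻¹, fun j hj => ?_⟩
    have h1 := hx j hj
    unfold eqn
    rw [rval_congr n _ (y := x) fun i hi => (dif_pos (by omega)).trans (if_pos hi)]
    dsimp only
    rw [dif_pos (by omega), if_neg (show ¬ n + j < n by omega), Nat.add_sub_cancel_left, h1, inv_pow,
      Real.sq_sqrt (abs_nonneg _)]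
    generalize rval n x _ = v
    unfold sg
    rcases lt_trichotomy v 0 with h | h | h
    · simp [h.ne, h.not_gt, abs_of_neg h]
    · simp [h]
    · simp [h.ne', h, abs_of_pos h]

theorem exists_digits (k : ℕ) : ∀ s : ℕ → ℕ, (∀ j, s j < 3) →
    ∃ σ < 3 ^ k, ∀ j < k, dg 3 σ j = s j := by
  induction k with
  | zero => exact fun _ _ => ⟨0, by simp, by simp⟩
  | succ k ih =>
    intro s hs
    obtain ⟨σ, h1, h2⟩ := ih (fun j => s (j + 1)) fun j => hs _
    have h0 := hs 0
    refine ⟨s 0 + 3 * σ, by omega, fun j hj => ?_⟩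
    cases j with
    | zero => simp only [dg]; omega
    | succ j =>
      rw [← h2 j (by omega), dg, dg, pow_succ', ← Nat.div_div_eq_div_mul,
        show (s 0 + 3 * σ) / 3 = σ by omega]

def tv (l : List (ℕ × RP)) (σ : ℕ) : List (ℕ × Bool) :=
  (idx l).map fun j => ((l.getD j (0, [])).1,
    bif neq (l.getD j (0, [])).1 0 then neq (dg 3 σ j) 0 else neq (dg 3 σ j) 1)

theorem tv_eq {n : ℕ} {l : List (ℕ × RP)} {σ : ℕ} {x : ℕ → ℝ}
    (h : ∀ j < l.length, dg 3 σ j = sg (rval n x (l.getD j (0, [])).2)) :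
    tv l σ = (toks n l).map (tvx fun i : Fin n => x i) := by
  refine List.ext_getElem (by simp [tv, toks, idx]) fun j h1 h2 => ?_
  have hj : j < l.length := by simpa [toks] using h2
  have h3 := h j hj
  rw [List.getD_eq_getElem _ _ hj] at h3
  simp only [tv, toks, idx, List.getElem_map, List.getElem_range, tvx, eval_polyOf, h3,
    List.getD_eq_getElem _ _ hj, Prod.mk.injEq, true_and]
  generalize rval n x _ = v
  rw [Bool.eq_iff_iff, pb_iff]
  rcases lt_trichotomy v 0 with h | h | h <;> by_cases h4 : l[j].1 = 0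
  · simp [neq, sg, h4, h.ne, h.not_gt]
  · simp [neq, sg, h4, h.ne, h.not_gt]
  · simp [neq, sg, h4, h]
  · simp [neq, sg, h4, h]
  · simp [neq, sg, h4, h, h.ne']
  · simp [neq, sg, h4, h, h.ne']

theorem sat_iff (n : ℕ) (l : List (ℕ × RP)) :
    (∃ x : Fin n → ℝ, runB ((toks n l).map (tvx x)) = true) ↔ ∃ σ < 3 ^ l.length,
      runB (tv l σ) = true ∧
        ∃ x : Fin (n + l.length) → ℝ, aeval x (FF n (xn (n + l.length)) l σ) = 0 := by
  simp only [zero_iff n l _ rfl]
  constructor
  · rintro ⟨x, hx⟩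
    obtain ⟨σ, h1, h2⟩ := exists_digits l.length (fun j => sg (rval n
      (fun i => if h : i < n then x ⟨i, h⟩ else 0) (l.getD j (0, [])).2)) fun j => by
      unfold sg
      split_ifs <;> omega
    exact ⟨σ, h1, by rw [tv_eq h2]; simpa using hx, _, h2⟩
  · rintro ⟨σ, -, h1, x, h2⟩
    exact ⟨_, tv_eq h2 ▸ h1⟩

variable {N : ℕ}

theorem Good2.sum {A d k : ℕ} {f : ℕ → MvPolynomial (Fin N) ℤ} (h : ∀ i < k, Good2 A d (f i)) :
    Good2 (k * A) d (∑ i ∈ range k, f i) := by
  induction k with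
  | zero => simpa using (Good2.C (n := N) 0).mono le_rfl (Nat.zero_le d)
  | succ k ih =>
    rw [sum_range_succ, Nat.succ_mul]
    exact (ih fun i hi => h i (by omega)).add (h k (by omega))

theorem Good2.prod {d k : ℕ} {f : ℕ → MvPolynomial (Fin N) ℤ} (h : ∀ i < k, Good2 1 d (f i)) :
    Good2 1 (k * d) (∏ i ∈ range k, f i) := by
  induction k with
  | zero => simpa using Good2.C (n := N) 1
  | succ k ih =>
    rw [prod_range_succ, Nat.succ_mul]
    exact (ih fun i hi => h i (by omega)).mul (h k (by omega))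

theorem Good2.int (c : ℤ) : Good2 c.natAbs 0 (c : MvPolynomial (Fin N) ℤ) := by
  simpa using Good2.C (n := N) c

theorem sz_getD {α : Type} [Enc α] (l : List α) (j : ℕ) (d : α) : sz (l.getD j d) ≤ sz l + sz d := by
  by_cases h : j < l.length
  · rw [List.getD_eq_getElem _ _ h]
    exact (sz_mem (List.getElem_mem h)).trans (Nat.le_add_right _ _)
  · rw [List.getD_eq_default _ _ (not_lt.1 h)]
    exact Nat.le_add_left _ _

theorem good2_rval {n L : ℕ} {p : RP} (hn : n ≤ L) (hp : sz p + 6 ≤ L) :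
    Good2 (L * 2 ^ L) (L * L) (rval n (xn N) p) := by
  have h0 := length_le_sz p
  refine (Good2.sum (A := 2 ^ L) fun j _ => ?_).mono (Nat.mul_le_mul_right _ (by omega)) le_rfl
  have h1 := sz_getD p j (0, [])
  have h2 := sz_prod (p.getD j (0, []))
  have h3 : sz ((0, []) : ℤ × List (List Bool)) = 5 := rfl
  have h4 := int_lt_two_pow_sz (p.getD j (0, [])).1
  refine ((Good2.int _).mul (Good2.prod (d := L) fun i _ => ((good2_xn N i).pow _).mono (by simp)
    ?_)).mono ?_ (by rw [zero_add]; exact Nat.mul_le_mul_right _ hn)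
  · have := sz_getD (p.getD j (0, [])).2 i []
    have := length_le_sz ((p.getD j (0, [])).2.getD i [])
    rw [sz_lnil] at *
    omega
  · have := Nat.pow_le_pow_right (show 0 < 2 by norm_num) (show sz (p.getD j (0, [])).1 ≤ L by omega)
    have h5 : ((2 ^ sz (p.getD j (0, [])).1 : ℕ) : ℤ) = 2 ^ sz (p.getD j (0, [])).1 := by simp
    omega

theorem good2_FF {n L σ : ℕ} {l : List (ℕ × RP)} (hn : n ≤ L) (hl : sz l + 9 ≤ L) :
    Good2 (L * (L * 2 ^ L + 1) ^ 2) (2 * (L * L + 2)) (FF n (xn N) l σ) := by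
  have h0 := length_le_sz l
  refine (Good2.sum fun j _ => Good2.pow ?_ 2).mono (Nat.mul_le_mul_right _ (by omega)) le_rfl
  have h1 := sz_getD l j (0, [])
  have h2 := sz_prod (l.getD j (0, []))
  have h3 : sz ((0, []) : ℕ × RP) = 3 := rfl
  have h4 := good2_rval (N := N) (p := (l.getD j (0, [])).2) hn (by omega)
  have h5 := (h4.mul ((good2_xn N (n + j)).pow 2)).mono (A' := L * 2 ^ L) (d' := L * L + 2)
    (by simp) (by simp)
  unfold eqn
  split_ifs
  · exact h4.mono (by omega) (by omega)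
  · exact h5.add ((Good2.int (-1)).mono le_rfl (Nat.zero_le _))
  · exact h5.add ((Good2.int 1).mono le_rfl (Nat.zero_le _))

variable {β : Type} [Enc β] {π : β → ℕ} {good : β → Prop} {M n : β → ℕ}

theorem PZ.rval (hπ : CF π) (hM : CF M) (hn : CF n) {p : β → RP} (hp : CF p) :
    PZ π good M fun b => rval (n b) (P337.xn (M b)) (p b) :=
  PZ.sum hπ (by fun_prop) ((PZ.int (ZV.int (by fun_prop) (by fun_prop))).mul
    (PZ.prod (by fun_prop) (by fun_prop)
      ((PZ.xn (by fun_prop) (by fun_prop) (by fun_prop)).pow (by fun_prop))))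

theorem PZ.FF (hπ : CF π) (hM : CF M) (hn : CF n) {l : β → List (ℕ × RP)} (hl : CF l) {σ : β → ℕ}
    (hσ : CF σ) : PZ π good M fun b => FF (n b) (P337.xn (M b)) (l b) (σ b) := by
  have h1 : PZ (fun q : β × ℕ => π q.1) (fun q => good q.1) (fun q => M q.1) fun q =>
      P337.rval (n q.1) (P337.xn (M q.1)) ((l q.1).getD q.2 (0, [])).2 :=
    PZ.rval (by fun_prop) (by fun_prop) (by fun_prop) (by fun_prop)
  have h2 := h1.mul ((PZ.xn (i := fun q => n q.1 + q.2) (by fun_prop) (by fun_prop)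
    (by fun_prop)).pow (CF.const 2))
  exact PZ.sum hπ (by fun_prop) ((PZ.ite (by fun_prop) h1 (PZ.ite (by fun_prop)
    (h2.add (PZ.int (ZV.const (by fun_prop) (-1))))
    (h2.add (PZ.int (ZV.const (by fun_prop) 1))))).pow (CF.const 2))

theorem ch_sat : CH fun r : Raw => ∃ x : Fin r.1.length → ℝ,
    runB ((toks _ r.2).map (tvx x)) = true := by
  have hL : Sm fun q : Raw × ℕ => sz q.1 + 9 :=
    (Sm.length (CF.ofTC (f := fun q : Raw × ℕ => code q.1) (by fun_prop))).add (Sm.const 9)
  have hL1 := hL.1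
  have hL2 := Ex.ofCF hL1
  have h1 := CH.real_zero (α := Raw × ℕ) (n := fun q => q.1.1.length + q.1.2.length)
    (F := fun q => FF q.1.1.length (xn _) q.1.2 q.2)
    (A := fun q => (sz q.1 + 9) * ((sz q.1 + 9) * 2 ^ (sz q.1 + 9) + 1) ^ 2)
    (d := fun q => 2 * ((sz q.1 + 9) * (sz q.1 + 9) + 2)) (by fun_prop)
    ((Sm.const 2).mul ((hL.mul hL).add (Sm.const 2)))
    (hL2.mul (((hL2.mul (Ex.two hL1)).add (Ex.const 1)).pow (CF.const 2)))
    (fun q => by
      have := sz_prod q.1
      have := length_le_sz q.1.1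
      exact good2_FF (by omega) (by omega))
    (fun q => Nat.succ_le_of_lt (by positivity))
    (fun q x => by
      rw [aeval_eq_eval₂Hom, map_FF]
      exact sum_nonneg fun _ _ => sq_nonneg _)
    (PZ.FF (by fun_prop) (by fun_prop) (by fun_prop) (by fun_prop) (by fun_prop))
  have h2 : CH fun q : Raw × ℕ => runB (tv q.1.2 q.2) = true :=
    CH.ofTC (tc_runB.comp (by unfold tv; fun_prop))
  exact ((h2.and h1).bex' (N := fun r => 3 ^ r.2.length) (by fun_prop)).of_iff fun r => sat_iff _ _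

theorem etr_mem : ∃ j, ETR ∈ Level j := by
  obtain ⟨g, hg, h⟩ := exists_decoder
  have h1 : CH fun w => leq (code (norm (g w))) w = true :=
    CH.ofTC (tc_leq (tc_code (tc_norm.comp hg)) TC.id)
  exact ((h1.and (ch_sat.compTC hg)).of_iff (Q := fun w => w ∈ ETR) fun w => by
    rw [mem_ETR h, leq, decide_eq_true_eq]).level

end Vale.Agent.P337
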