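import Vale.Agent.P337.Stage2
import Mathlib.Analysis.SpecialFunctions.Pow.Real

/-! The arithmetic criterion for the existence of a real zero. -/

namespace Vale.Agent.P337

open Finset MvPolynomial

variable {n : ℕ}

noncomputable def UU (n c s : ℕ) : MvPolynomial (Fin n) ℤ := (c : MvPolynomial (Fin n) ℤ) * lin n s

noncomputable def HH (N c E Θ W M : ℕ) (r : ℕ → MvPolynomial (Fin n) ℤ) (s' τ s y : ℕ) :
    MvPolynomial (Fin n) ℤ :=
  hnum (chp N r (UU n c s')) W M (yv E Θ τ) s (UU n c s') (xn n 0) -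
    y * hden (chp N r (UU n c s')) W M (yv E Θ τ) (UU n c s') (xn n 0)

noncomputable def PP (N c E Θ W M : ℕ) (r : ℕ → MvPolynomial (Fin n) ℤ) (s' τ s y : ℕ) : ℤ :=
  nm N r ((W + 1) * (M * N ^ n)) (HH N c E Θ W M r s' τ s y)

theorem Pts.deg_HH {N : ℕ} {r : ℕ → MvPolynomial (Fin n) ℤ} {z : Fin (N ^ n) → Fin n → ℂ}
    (hz : Pts N r z) (c E Θ W M s' τ s y : ℕ) :
    (HH N c E Θ W M r s' τ s y).totalDegree ≤ (W + 1) * (M * N ^ n) :=
  totalDegree_test (hz.chp_deg (totalDegree_lin n c s')) _ (totalDegree_lin n c s')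
    (good2_xn n 0).1.deg

theorem Pts.PP {N : ℕ} {r : ℕ → MvPolynomial (Fin n) ℤ} {z : Fin (N ^ n) → Fin n → ℂ}
    (hz : Pts N r z) (c E Θ W M s' τ s y : ℕ) :
    (PP N c E Θ W M r s' τ s y : ℂ) = cfac (N ^ n) * ∏ j,
      (hnum (P337.chp N r (UU n c s')) W M (yv E Θ τ) s (aeval (z j) (UU n c s'))
        (aeval (z j) (xn n 0)) - y * hden (P337.chp N r (UU n c s')) W M (yv E Θ τ)
        (aeval (z j) (UU n c s')) (aeval (z j) (xn n 0))) := by
  rw [P337.PP, hz.int (hz.deg_HH c E Θ W M s' τ s y)]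
  congr 1
  refine prod_congr rfl fun j _ => ?_
  simp only [aeval_eq_eval₂Hom, HH, map_sub, map_mul, map_natCast, map_hnum, map_hden]

theorem few_real {x : Fin n → ℂ} {i : Fin n} (hi : (i : ℕ) ≠ 0) (hx : (x i).im ≠ 0) (T : Finset ℕ)
    (hT : ∀ s ∈ T, (aeval x (lin n s)).im = 0) : T.card ≤ n := by
  let Q : Polynomial ℝ := ∑ k : Fin n, Polynomial.monomial k (if (k : ℕ) = 0 then 0 else (x k).im)
  have hQ : Q ≠ 0 := by
    intro h
    have := congrArg (fun P => Polynomial.coeff P i) h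
    simp only [Q, Polynomial.finsetSum_coeff, Polynomial.coeff_monomial, Fin.val_inj, sum_ite_eq',
      mem_univ, if_true, if_neg hi, Polynomial.coeff_zero] at this
    exact hx this
  have hd : Q.natDegree ≤ n := Polynomial.natDegree_sum_le_of_forall_le _ _ fun k _ =>
    (Polynomial.natDegree_monomial_le _).trans k.2.le
  rw [← card_image_of_injective T (Nat.cast_injective (R := ℝ))]
  refine (Polynomial.card_le_degree_of_subset_roots (p := Q) fun a ha => ?_).trans hd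
  obtain ⟨s, hs, rfl⟩ := mem_image.1 ha
  rw [Polynomial.mem_roots hQ, Polynomial.IsRoot, ← hT s hs, aeval_lin, Complex.im_sum,
    Polynomial.eval_finsetSum]
  refine sum_congr rfl fun k _ => ?_
  rw [Polynomial.eval_monomial]
  split_ifs
  · simp
  · rw [← Nat.cast_pow, ← Nat.cast_pow, mul_comm, ← Complex.ofReal_natCast, Complex.im_ofReal_mul]

theorem exists_scale {a v : ℝ} {E : ℕ} (ha : 0 < a) (h1 : a ≤ v) (h2 : v < a * 2 ^ E) :
    ∃ e < E, a * 2 ^ e ≤ v ∧ v ≤ 2 * (a * 2 ^ e) := by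
  obtain ⟨e, h3, h4⟩ := exists_nat_pow_near (x := v / a) (y := 2) ((one_le_div ha).2 h1) one_lt_two
  rw [le_div_iff₀ ha] at h3
  rw [div_lt_iff₀ ha, pow_succ] at h4
  refine ⟨e, (pow_lt_pow_iff_right₀ (a := (2 : ℝ)) one_lt_two).1 ?_, by linarith, by linarith⟩
  nlinarith

theorem scale_ok {D G Ru E Θ : ℕ} {H b : ℝ} (hH : 0 ≤ H) (hG : 2 * H ≤ G)
    (hE : G * Ru * cL D < 2 ^ E) (hΘ : 0 < Θ) (h1 : 1 ≤ H * (2 * b)) (h2 : b ≤ Ru) :
    ∃ e < E, (Θ * 2 ^ e * cX D : ℝ) ≤ (cX D * Θ * G : ℕ) * b * cL D ∧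
      (cX D * Θ * G : ℕ) * b * cL D ≤ 2 * (Θ * 2 ^ e) * cX D := by
  have hE' : (G * Ru * cL D : ℝ) < 2 ^ E := by exact_mod_cast hE
  have hL : (2 : ℝ) ≤ cL D := by exact_mod_cast two_le_cL D
  have hX : (2 : ℝ) ≤ cX D := by exact_mod_cast (two_le_cL D).trans (cL_le_cX D)
  have hΘ' : (0 : ℝ) < Θ := by exact_mod_cast hΘ
  have b0 : 0 ≤ b := by
    by_contra b1
    nlinarith
  have a3 : 1 ≤ G * b := by nlinarith
  have a4 : (G : ℝ) * b * cL D ≤ G * Ru * cL D := by gcongr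
  obtain ⟨e, he, a5, a6⟩ := exists_scale (a := Θ * cX D) (v := Θ * cX D * (G * b * cL D))
    (E := E) (by positivity) (le_mul_of_one_le_right (by positivity) (by nlinarith))
    (mul_lt_mul_of_pos_left (a4.trans_lt hE') (by positivity))
  refine ⟨e, he, ?_, ?_⟩ <;> push_cast <;> linarith

theorem main_math {A d m V B T D A₂ S' Ru G E W Θ S Kc K eK : ℕ} {F : MvPolynomial (Fin n) ℤ}
    (hF : Good2 A d F) (hpos : ∀ x : Fin n → ℝ, 0 ≤ aeval x F) (hm : d + 2 ≤ m) (hev : Even m)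
    (hA : 1 ≤ d * A) (hV : m * A * (d * A) ^ d + n * (d * A) ^ m ≤ V)
    (hB : cfac ((m - 1) ^ n) * (1 + V) ^ (m - 1) ^ n + 2 ≤ B)
    (hT : cfac ((m - 1) ^ n) * (B + 1 + V) ^ (m - 1) ^ n + 1 < T) (hD : D = (m + 2) ^ (n + 2))
    (hA₂ : B + T * m * A + n + T * (d * A) + 1 ≤ A₂) (hS' : D * (n + 2) < S')
    (hRu : (n + 2) * S' ^ (n + 2) * A₂ ≤ Ru)
    (hG : 2 * (cfac D * (cfac D * (1 + 2 * Ru) ^ D) ^ D + 1) ≤ G) (hE : G * Ru * cL D < 2 ^ E)
    (hW : W = 2 * (E * (8 * cX D + 2))) (hΘ : D * D * W < Θ) (hS : D * W < S)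
    (hKc : (D + 1) * (W * S ^ W + D + 1) ^ (D + 1) < Kc) (hK : 2 * D * D * Kc < K)
    (hKb : W * K * (S + 2) ^ W < 2 ^ eK) :
    (∃ x : Fin n → ℝ, aeval x F = 0) ↔ ¬ ∃ s' < S', ∃ τ < Θ, ∃ s < S, ∀ y < D + 1,
      (Kc : ℤ) ^ 2 * (PP (m + 2) (cX D * Θ * G) E Θ W (8 * cL D * eK) (sys2 m B T F) s' τ s y -
        PP (m + 2) (cX D * Θ * G) E Θ W (8 * cL D * eK) (sys2 m B T F) s' τ s 0) ^ 2 <
        PP (m + 2) (cX D * Θ * G) E Θ W (8 * cL D * eK) (sys2 m B T F) s' τ s 0 ^ 2 := by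
  subst hD
  obtain ⟨hy, hn⟩ := stage1 hF hpos hm hev hA hV hB hT
  obtain ⟨z, hz1, hz⟩ := exists_pts (by omega) (sys2_deg (B := B) (T := T) hF hm hev)
  have hsol := fun j => (sys2_iff hev _).1 ((hz1 _).1 ⟨j, rfl⟩)
  have hι : ∀ j, aeval (z j) (xn (n + 2) 0) ^ 2 = -1 := fun j => by
    rw [show xn (n + 2) 0 = X 0 from xn_coe 0, aeval_X]
    exact (hsol j).1
  constructor
  · rintro hx ⟨s', -, τ, -, s, hs, h⟩
    obtain ⟨x, h1, h2⟩ := hy hx
    let w : ℝ := (B - obj m F (T : ℝ) x) ^ ((m + 2 : ℕ) : ℝ)⁻¹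
    obtain ⟨j, hj⟩ := (hz1 (Fin.cons Complex.I (Fin.cons w fun i => x i))).2 ((sys2_iff hev _).2
      ⟨by simp, by
        have := Real.rpow_inv_natCast_pow (sub_nonneg.2 h1) (show m + 2 ≠ 0 by omega)
        have h3 := obj_ofReal m F T x
        simp only [Fin.cons_succ, Fin.cons_one, Fin.cons_zero]
        rw [Complex.ofReal_natCast] at h3
        rw [h3]
        exact_mod_cast this, fun i => by
        simp only [Fin.cons_succ]
        rw [aeval_ofReal, show m + 2 = 3 + (m - 1) by omega, pow_add]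
        have := congrArg (fun t : ℝ => (t : ℂ)) (h2 i)
        push_cast at this
        rw [this]
        ring⟩)
    refine final_yes (fun y => hz.PP _ _ _ _ _ s' τ s y) (j := j)
      (hnum_le ?_ (hι j) hs.le (by omega)) hKc h
    rw [UU, map_mul, map_natCast, aeval_lin, hj, Fin.sum_univ_succ, Fin.sum_univ_succ]
    simp [Complex.im_sum, ← Nat.cast_pow]
  · intro h
    by_contra hx
    push Not at hx
    refine h ?_
    have h1 : ∀ j, ∃ i : Fin (n + 2), (i : ℕ) ≠ 0 ∧ (z j i).im ≠ 0 := by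
      intro j
      by_contra hc
      push Not at hc
      have h2 := (hsol j).2.1
      have h3 : ∀ i : Fin (n + 2), (i : ℕ) ≠ 0 → z j i = ((z j i).re : ℂ) := fun i hi =>
        Complex.ext (by simp) (by simp [hc i hi])
      have h4 := obj_ofReal m F T fun i => (z j i.succ.succ).re
      rw [Complex.ofReal_natCast] at h4
      rw [h3 1 (by simp), funext fun i : Fin n => h3 i.succ.succ (by simp), h4] at h2
      have h5 : (z j 1).re ^ (m + 2) = B - obj m F (T : ℝ) fun i => (z j i.succ.succ).re := by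
        exact_mod_cast h2
      have h6 := hn hx fun i => (z j i.succ.succ).re
      have h7 := (hev.add even_two).pow_nonneg (z j 1).re
      linarith
    obtain ⟨s', hs', h2⟩ := exists_good (W := n + 2) (S := S')
      (fun j s => (aeval (z j) (lin (n + 2) s)).im = 0) (fun j T hT => by
        obtain ⟨i, h3, h4⟩ := h1 j
        exact few_real h3 h4 T fun s hs => (hT s hs).2) (by rwa [Fintype.card_fin])
    have hR : ∀ j, ‖aeval (z j) (lin (n + 2) s')‖ ≤ Ru := fun j =>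
      (norm_lin_le hs'.le (by omega) (sys2_le hF hm hev hA₂ ((hz1 _).1 ⟨j, rfl⟩))).trans
        (by exact_mod_cast hRu)
    have hsep := fun j => hz.sep (by simpa using totalDegree_lin (n + 2) 1 s') hR j (h2 j)
    obtain ⟨τ, hτ, s, hs, h3⟩ := test_no (cfac_ne _)
      (hz.chp (totalDegree_lin (n + 2) (cX ((m + 2) ^ (n + 2)) * Θ * G) s'))
      (hz.chp_deg (totalDegree_lin _ _ _)) hι (fun j => by
        rw [map_mul, map_natCast, ← Complex.ofReal_natCast, Complex.im_ofReal_mul, abs_mul,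
          Nat.abs_cast]
        exact scale_ok (by positivity) (by exact_mod_cast hG) hE (Nat.zero_lt_of_lt hΘ) (hsep j)
          ((Complex.abs_im_le_norm _).trans (hR j))) hW hΘ hS hKb le_rfl
    exact ⟨s', hs', τ, hτ, s, hs, final_no (cfac_ne _) (fun y => hz.PP _ _ _ _ _ s' τ s y)
      (fun j => (h3 j).1) (fun j => (h3 j).2) (by omega) hK⟩

theorem norm_yv_le {E Θ τ W j : ℕ} (hτ : τ ≤ Θ) (hj : j < W) :
    ‖(yv E Θ τ j : ℂ)‖ ≤ (Θ + W * (Θ * 2 ^ E) : ℕ) := by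
  have h1 : j / 2 / E ≤ W := (Nat.div_le_self _ _).trans ((Nat.div_le_self _ _).trans hj.le)
  have h2 : j / 2 / E * (Θ * 2 ^ (j / 2 % E)) ≤ W * (Θ * 2 ^ E) := by
    rcases Nat.eq_zero_or_pos E with rfl | h
    · simp
    · exact Nat.mul_le_mul h1 (Nat.mul_le_mul_left _
        (Nat.pow_le_pow_right (by norm_num) (Nat.mod_lt _ h).le))
  have h3 : ‖(yv E Θ τ j : ℂ)‖ = (τ + j / 2 / E * (Θ * 2 ^ (j / 2 % E)) : ℕ) := by
    rw [yv, Int.cast_mul, norm_mul, Int.cast_natCast, Complex.norm_natCast]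
    split_ifs <;> simp
  rw [h3]
  exact_mod_cast Nat.add_le_add hτ h2

theorem Pts.PP_le {N : ℕ} {r : ℕ → MvPolynomial (Fin n) ℤ} {z : Fin (N ^ n) → Fin n → ℂ}
    (hz : Pts N r z) {c E Θ W M S S' A Φ s' τ s y : ℕ} (hA : ∀ j i, ‖z j i‖ ≤ A) (hA1 : 1 ≤ A)
    (hs' : s' ≤ S') (hS' : 1 ≤ S') (hτ : τ ≤ Θ) (hs : s ≤ S) (hS : 1 ≤ S) (hy : y ≤ N ^ n)
    (hΦ : cfac (N ^ n) * (2 * (c * (n * S' ^ n * A)) + (Θ + W * (Θ * 2 ^ E)) * A + 1) ^ N ^ n ≤ Φ) :
    (P337.PP N c E Θ W M r s' τ s y).natAbs ≤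
      cfac (N ^ n) * ((W * S ^ W + N ^ n) * Φ ^ (M * (W + 1))) ^ N ^ n := by
  have h0 : (1 : ℝ) ≤ Φ := by
    have := (Nat.mul_le_mul (one_le_cfac _) (Nat.one_le_pow _ _ (Nat.succ_pos _))).trans hΦ
    exact_mod_cast this
  have hU : ∀ j, ‖aeval (z j) (UU n c s')‖ ≤ (c * (n * S' ^ n * A) : ℕ) := fun j => by
    rw [UU, map_mul, map_natCast, norm_mul, Complex.norm_natCast, Nat.cast_mul]
    exact mul_le_mul_of_nonneg_left (norm_lin_le hs' hS' (hA j)) (Nat.cast_nonneg _)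
  have hι : ∀ j, ‖aeval (z j) (xn n 0)‖ ≤ A := fun j => by
    have := (good2_xn n 0).1.bd (z j) A (by exact_mod_cast hA1) (hA j)
    simpa using this
  have hf : ∀ j, ∀ i < W, ∀ v : ℂ, ‖v‖ = ‖(yv E Θ τ i : ℂ) * aeval (z j) (xn n 0)‖ →
      ‖Polynomial.aeval (aeval (z j) (UU n c s') + v) (P337.chp N r (UU n c s')) ^ M‖ ≤ Φ ^ M := by
    intro j i hi v hv
    rw [norm_pow]
    refine pow_le_pow_left₀ (norm_nonneg _) ?_ _
    rw [UU, hz.chp (totalDegree_lin _ _ _), ← UU, norm_mul, Complex.norm_natCast]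
    refine le_trans (mul_le_mul_of_nonneg_left ((norm_prod_le_pow _ _ (c := (2 * (c * (n * S' ^ n * A)) +
      (Θ + W * (Θ * 2 ^ E)) * A + 1 : ℕ)) fun k _ => ?_).trans (by simp; rfl)) (Nat.cast_nonneg _))
      (by exact_mod_cast hΦ)
    have a1 := mul_le_mul (norm_yv_le (E := E) hτ hi) (hι j) (norm_nonneg _) (Nat.cast_nonneg _)
    rw [← norm_mul, ← hv] at a1
    refine (norm_sub_le _ _).trans ((add_le_add_left (norm_add_le _ _) _).trans ?_)
    have a2 := hU j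
    have a3 := hU k
    push_cast at a1 a2 a3 ⊢
    linarith
  have h1 : (1 : ℝ) ≤ Φ ^ M := one_le_pow₀ h0
  have hg : ∀ g : ℕ → ℂ, (∀ i < W, ‖g i‖ ≤ Φ ^ M) → ‖∏ i ∈ range W, g i‖ ≤ (Φ ^ M) ^ W :=
    fun g hg => (norm_prod_le_pow _ _ fun i hi => hg i (mem_range.1 hi)).trans (by simp)
  have h2 : ‖(P337.PP N c E Θ W M r s' τ s y : ℂ)‖ ≤
      cfac (N ^ n) * ((W * S ^ W + N ^ n) * Φ ^ (M * (W + 1))) ^ N ^ n := by
    rw [hz.PP, norm_mul, Complex.norm_natCast]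
    refine mul_le_mul_of_nonneg_left ((norm_prod_le_pow _ _ fun j _ => ?_).trans (by simp; rfl))
      (Nat.cast_nonneg _)
    rw [add_mul, pow_mul]
    refine (norm_sub_le _ _).trans (add_le_add ((norm_sum_le _ _).trans ((sum_le_card_nsmul (range W) _
      (S ^ W * (Φ ^ M) ^ (W + 1) : ℝ) fun i hi => ?_).trans (by simp [mul_assoc]))) ?_)
    · rw [norm_mul, norm_mul, pow_succ', ← mul_assoc]
      refine mul_le_mul (mul_le_mul ?_ (hf j i (mem_range.1 hi) _ rfl) (norm_nonneg _)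
        (by positivity)) (hg _ fun k hk => ?_) (norm_nonneg _) (by positivity)
      · rw [norm_pow, Complex.norm_natCast]
        exact_mod_cast (Nat.pow_le_pow_left hs _).trans (Nat.pow_le_pow_right hS (mem_range.1 hi).le)
      · split_ifs
        · simpa using h1
        · rw [sub_eq_add_neg]
          exact hf j k hk _ (norm_neg _)
    · rw [norm_mul, Complex.norm_natCast]
      refine mul_le_mul (by exact_mod_cast hy) ((hg _ fun k hk => ?_).trans
        (pow_le_pow_right₀ h1 (Nat.le_succ _))) (norm_nonneg _) (by positivity)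
      rw [sub_eq_add_neg]
      exact hf j k hk _ (norm_neg _)
  rw [Complex.norm_intCast, ← Int.cast_abs, Int.abs_eq_natAbs] at h2
  exact_mod_cast h2

end Vale.Agent.P337
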