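import Vale.Agent.P337.Trace

/-! Residues of traces and norms are computable in the counting hierarchy. -/

namespace Vale.Agent.P337

open Vale.Agent.Common.TreeTM Enc Finset MvPolynomial

def vtx (D b y i : ℕ) : ℕ := if i = 0 then b else dg D y (i - 1)

theorem pw_paths {K : Type} [CommRing K] (u : ℕ → ℕ → K) (D k : ℕ) : ∀ b a, pw u D k b a =
    ∑ y ∈ range (D ^ k), (∏ i ∈ range k, u (vtx D b y i) (vtx D b y (i + 1))) *
      if vtx D b y k = a then 1 else 0 := by
  induction k with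
  | zero => intro b a; simp [pw, vtx]
  | succ k ih =>
    intro b a
    rw [pw, pow_succ, sum_range_mul, sum_comm]
    refine sum_congr rfl fun c hc => ?_
    have hc := mem_range.1 hc
    rw [ih, mul_sum]
    refine sum_congr rfl fun y _ => ?_
    have h1 : ∀ i, vtx D b (y * D + c) (i + 1) = vtx D c y i := by
      intro i
      cases i with
      | zero =>
        simp only [vtx, dg, zero_add, one_ne_zero, if_false, tsub_self, pow_zero, Nat.div_one, if_true]
        rw [mul_comm, Nat.mul_add_mod, Nat.mod_eq_of_lt hc]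
      | succ i =>
        simp only [vtx, dg, Nat.succ_ne_zero, if_false, Nat.add_sub_cancel]
        rw [pow_succ', ← Nat.div_div_eq_div_mul, mul_comm y, Nat.mul_add_div (by omega),
          Nat.div_eq_of_lt hc, add_zero]
    rw [prod_range_succ']
    simp only [h1]
    rw [show vtx D b (y * D + c) 0 = b from rfl, show vtx D c y 0 = c from rfl]
    ring

theorem ev_mul {n : ℕ} (x : List ℕ) (P Q : MvPolynomial (Fin n) ℤ) :
    ev x (P * Q) = ev x P * ev x Q := map_mul _ _ _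

theorem ev_bm (x : List ℕ) (n N a b : ℕ) : ev x (bm ℤ n N a b) =
    ∏ i ∈ range n, (x.getD i 0 : ℤ) ^ (N - 1 - dg N a i + dg N b i) := by
  rw [ev, bm, eval_monomial, one_mul, Finsupp.prod_fintype _ _ fun _ => pow_zero _,
    ← Fin.prod_univ_eq_prod_range fun i => (x.getD i 0 : ℤ) ^ (N - 1 - dg N a i + dg N b i)]
  rfl

def thr (n N d : ℕ) : ℕ := d + n * (d + 1) * N + N * (d + 2) + (N ^ n) ^ 2 + 3

variable {β γ : Type} [Enc β] [Enc γ]

@[fun_prop] theorem CF.vtx {D b y i : β → ℕ} (hD : CF D) (hb : CF b) (hy : CF y) (hi : CF i) :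
    CF fun a => vtx (D a) (b a) (y a) (i a) := by
  unfold P337.vtx
  fun_prop

/-- A family of systems of equations. -/
structure Sys (π : β → ℕ) (good : β → Prop) (n N : β → ℕ)
    (r : ∀ b, ℕ → MvPolynomial (Fin (n b)) ℤ) : Prop where
  cf : CF π
  hn : Sm n
  hN : Sm N
  zv : ZV (fun q : (β × ℕ) × List ℕ => π q.1.1) (fun q => good q.1.1)
    fun q => ev q.2 (r q.1.1 q.1.2)
  deg : ∀ b, good b → 1 ≤ N b ∧ ∀ i < n b, (r b i).totalDegree ≤ N b

variable {π : β → ℕ} {good : β → Prop} {n N : β → ℕ} {r : ∀ b, ℕ → MvPolynomial (Fin (n b)) ℤ}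

theorem Sys.comp (S : Sys π good n N r) {h : γ → β} {good' : γ → Prop} (hh : CF h)
    (hg : ∀ c, good' c → good (h c)) :
    Sys (fun c => π (h c)) good' (fun c => n (h c)) (fun c => N (h c)) fun c => r (h c) :=
  ⟨S.cf.comp hh, S.hn.comp hh, S.hN.comp hh,
    S.zv.comp (h := fun q : (γ × ℕ) × List ℕ => ((h q.1.1, q.1.2), q.2)) (by fun_prop)
      fun _ h => hg _ h, fun c hc => S.deg _ (hg c hc)⟩

theorem Sys.ell (S : Sys π good n N r) {d : β → ℕ} {H : ∀ b, MvPolynomial (Fin (n b)) ℤ}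
    (hd : CF d) (hH : ZV (fun q : β × List ℕ => π q.1) (fun q => good q.1) fun q => ev q.2 (H q.1))
    (hg : ∀ b, good b → (H b).totalDegree ≤ d b ∧ thr (n b) (N b) (d b) ≤ π b) :
    ZV π good fun b => ell (N b) (r b) (d b) (H b) := by
  have hπ := S.cf
  have hn := S.hn.1
  have hN := S.hN.1
  refine (ZV.sumFun (m := fun b => d b + 1) (z := fun b l => coeff
    (mon fun i : Fin (n b) => N b * (l.getD i 0 + 1) - 1)
    (H b * ∏ i : Fin (n b), r b i ^ l.getD i 0)) hπ S.hn (by fun_prop) ?_).of_eq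
    fun b _ => by simp only [P337.ell, term, getD_ofFn]
  refine ZV.mcoeff (n := fun q : β × List ℕ => n q.1)
    (P := fun q => H q.1 * ∏ i : Fin (n q.1), r q.1 i ^ q.2.getD i 0)
    (e := fun q i => N q.1 * (q.2.getD i 0 + 1) - 1) (by fun_prop) (S.hn.comp (by fun_prop))
    (by fun_prop) ?_ ?_
  · refine (ZV.mul (hH.comp (h := fun q : (β × List ℕ) × List ℕ => (q.1.1, q.2)) (by fun_prop)
      fun _ h => h.1) (ZV.prod (N := fun q => n q.1.1)
        (z := fun q i => ev q.2 (r q.1.1 i) ^ q.1.2.getD i 0) (by fun_prop) (by fun_prop)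
        (ZV.pow (S.zv.comp (h := fun q : ((β × List ℕ) × List ℕ) × ℕ => ((q.1.1.1, q.2), q.1.2))
          (by fun_prop) fun _ h => h.1.1) (by fun_prop)))).of_eq fun q _ => ?_
    rw [ev_mul, ← Fin.prod_univ_eq_prod_range fun i => ev q.2 (r q.1.1 i) ^ q.1.2.getD i 0]
    simp only [ev, map_prod, map_pow]
  · rintro ⟨b, l⟩ ⟨h1, h2⟩
    obtain ⟨h3, h4⟩ := hg b h1
    dsimp only at h2 ⊢
    unfold thr at h4
    constructor
    · have h5 := (totalDegree_mul (H b) _).trans (Nat.add_le_add h3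
        (totalDegree_prod_pow_le (S.deg b h1).2 fun i => l.getD i 0))
      have h6 : ∑ i : Fin (n b), l.getD i 0 ≤ n b * (d b + 1) :=
        (sum_le_card_nsmul univ _ _ fun (i : Fin (n b)) _ => h2 i).trans (by simp)
      have := Nat.mul_le_mul_right (N b) h6
      omega
    · intro i _
      have := Nat.mul_le_mul_left (N b) (show l.getD i 0 + 1 ≤ d b + 2 from Nat.succ_le_succ (h2 i))
      omega

theorem Sys.bm (S : Sys π good n N r) {a c : β → ℕ} (ha : CF a) (hc : CF c) :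
    ZV (fun q : β × List ℕ => π q.1) (fun q => good q.1)
      fun q => ev q.2 (bm ℤ (n q.1) (N q.1) (a q.1) (c q.1)) := by
  have hπ := S.cf
  have hn := S.hn.1
  have hN := S.hN.1
  refine ZV.of_eq ?_ fun q _ => ev_bm _ _ _ _ _
  exact ZV.prod (by fun_prop) (by fun_prop) (ZV.pow (ZV.nat (by fun_prop) (by fun_prop))
    (by fun_prop))

theorem Sys.gu (S : Sys π good n N r) {d a c : β → ℕ} (hd : CF d) (ha : CF a) (hc : CF c)
    (hg : ∀ b, good b → 2 * (n b * N b) ≤ d b ∧ thr (n b) (N b) (d b) ≤ π b) :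
    ZV π good fun b => gu (N b) (r b) (d b) (a b) (c b) :=
  (ZV.ite (by fun_prop) (ZV.const S.cf 1) (ZV.const S.cf 0)).sub (S.ell hd (S.bm ha hc)
    fun b h => ⟨(totalDegree_bm_le' _ (S.deg b h).1 _ _).trans (hg b h).1, (hg b h).2⟩)

theorem Sys.pw (S : Sys π good n N r) {d k a c : β → ℕ} (hd : CF d) (hk : Sm k) (ha : CF a)
    (hc : CF c) (hg : ∀ b, good b → 2 * (n b * N b) ≤ d b ∧ thr (n b) (N b) (d b) ≤ π b) :
    ZV π good fun b => pw (P337.gu (N b) (r b) (d b)) (N b ^ n b) (k b) (a b) (c b) := by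
  have hπ := S.cf
  have hn' := S.hn
  have hN := S.hN.1
  have hD : CF fun b => N b ^ n b := S.hN.1.pow S.hn
  have hk1 := hk.1
  refine (ZV.sum hπ (hD.pow hk) (ZV.mul (ZV.prod (by fun_prop) (by fun_prop) ?_)
    (ZV.ite (by fun_prop) (ZV.const (by fun_prop) 1) (ZV.const (by fun_prop) 0)))).of_eq
    fun b _ => pw_paths _ _ _ _ _
  exact (S.comp (h := fun q : (β × ℕ) × ℕ => q.1.1) (by fun_prop) fun _ h => h.1.1).gu
    (d := fun q => d q.1.1) (by fun_prop) (by fun_prop) (by fun_prop) fun _ h => hg _ h.1.1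

theorem Sys.tr (S : Sys π good n N r) {d : β → ℕ} {H : ∀ b, MvPolynomial (Fin (n b)) ℤ}
    (hd : CF d) (hH : ZV (fun q : β × List ℕ => π q.1) (fun q => good q.1) fun q => ev q.2 (H q.1))
    (hg : ∀ b, good b → (H b).totalDegree + 2 * (n b * N b) ≤ d b ∧ thr (n b) (N b) (d b) ≤ π b) :
    ZV π good fun b => tr (N b) (r b) (d b) (H b) := by
  have hπ := S.cf
  have hn' := S.hn
  have hD : CF fun b => N b ^ n b := S.hN.1.pow S.hn
  have hn := S.hn.1
  have hN := S.hN.1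
  refine ZV.sum hπ hD (ZV.sum (by fun_prop) (by fun_prop) (ZV.mul (ZV.sum (by fun_prop)
    (by fun_prop) ?_) ?_))
  · refine ((S.comp (h := fun q : ((β × ℕ) × ℕ) × ℕ => q.1.1.1) (by fun_prop)
      fun _ h => h.1.1.1).pw (d := fun q => d q.1.1.1)
      (k := fun q => min q.2 (n q.1.1.1 * N q.1.1.1)) (a := fun q => q.1.2) (c := fun q => q.1.1.2)
      (by fun_prop) (Sm.of_le ((S.hn.mul S.hN).comp (by fun_prop)) (by fun_prop)
        fun _ => min_le_right _ _) (by fun_prop) (by fun_prop)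
      fun _ h => ⟨le_of_add_le_right (hg _ h.1.1.1).1, (hg _ h.1.1.1).2⟩).of_eq fun q h => ?_
    rw [min_eq_left (Nat.le_of_lt_succ h.2)]
  · have S' := S.comp (h := fun q : (β × ℕ) × ℕ => q.1.1)
      (good' := fun q => (good q.1.1 ∧ q.1.2 < N q.1.1 ^ n q.1.1) ∧ q.2 < N q.1.1 ^ n q.1.1)
      (by fun_prop) fun _ h => h.1.1
    refine S'.ell (d := fun q => d q.1.1)
      (H := fun q => H q.1.1 * P337.bm ℤ (n q.1.1) (N q.1.1) q.1.2 q.2) (by fun_prop)
      (((hH.comp (h := fun q : ((β × ℕ) × ℕ) × List ℕ => (q.1.1.1, q.2)) (by fun_prop)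
        fun _ h => h.1.1).mul (S'.bm (a := fun q => q.1.2) (c := fun q => q.2) (by fun_prop)
          (by fun_prop))).of_eq fun _ _ => ev_mul _ _ _) fun q h => ⟨?_, (hg _ h.1.1).2⟩
    exact (totalDegree_mul _ _).trans ((Nat.add_le_add_left
      (totalDegree_bm_le' _ (S.deg _ h.1.1).1 _ _) _).trans (hg _ h.1.1).1)

theorem natDegree_expo {K : Type} [CommRing K] (D : ℕ) (p : ℕ → K) :
    (expo D p).natDegree ≤ D ^ 2 := by
  have h1 : (ser D p).natDegree ≤ D := Polynomial.natDegree_sum_le_of_forall_le _ _ fun k hk =>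
    (Polynomial.natDegree_C_mul_X_pow_le _ _).trans (mem_range.1 hk)
  refine Polynomial.natDegree_sum_le_of_forall_le _ _ fun m hm => ?_
  refine (Polynomial.natDegree_C_mul_le _ _).trans (Polynomial.natDegree_pow_le.trans ?_)
  rw [sq]
  exact Nat.mul_le_mul (Nat.le_of_lt_succ (mem_range.1 hm)) h1

theorem ZV.w1 (hπ : CF π) {D k : β → ℕ} (hD : CF D) (hk : CF k) :
    ZV π good fun b => (w1 (D b) (k b) : ℤ) :=
  (ZV.prod (z := fun b l => ((if l = k b then 1 else l + 1 : ℕ) : ℤ)) hπ hD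
    (ZV.nat (by fun_prop) (by fun_prop))).of_eq fun b _ => by rw [P337.w1, Nat.cast_prod]

theorem ZV.w2 (hπ : CF π) {D k : β → ℕ} (hD : CF D) (hk : CF k) :
    ZV π good fun b => (w2 (D b) (k b) : ℤ) :=
  (ZV.prod (z := fun b l => ((if l < k b then 1 else l + 1 : ℕ) : ℤ)) hπ hD
    (ZV.nat (by fun_prop) (by fun_prop))).of_eq fun b _ => by rw [P337.w2, Nat.cast_prod]

theorem ZV.expo (hπ : CF π) {D : β → ℕ} {p : β → ℕ → ℤ} (hD : CF D)
    (hp : ZV (fun q : β × ℕ => π q.1) (fun q => good q.1 ∧ q.2 < D q.1) fun q => p q.1 (q.2 + 1))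
    (hg : ∀ b, good b → D b ^ 2 + 3 ≤ π b) :
    ZV π good fun b => (expo (D b) (p b)).coeff (D b) := by
  refine ZV.coeff hπ hD ?_ fun b h => ?_
  · have h1 : ZV (fun q : β × ℕ => π q.1) (fun q => good q.1) fun q => ∑ k ∈ range (D q.1),
        (-1) ^ k * (P337.w1 (D q.1) k : ℤ) * p q.1 (k + 1) * (q.2 : ℤ) ^ (k + 1) :=
      ZV.sum (by fun_prop) (by fun_prop) (ZV.mul (ZV.mul (ZV.mul
        ((ZV.const (by fun_prop) (-1)).pow (by fun_prop))
        (ZV.w1 (by fun_prop) (by fun_prop) (by fun_prop)))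
        (hp.comp (h := fun q : (β × ℕ) × ℕ => (q.1.1, q.2)) (by fun_prop) fun _ h => h))
        ((ZV.nat (by fun_prop) (by fun_prop)).pow (by fun_prop)))
    refine (ZV.sum (N := fun q => D q.1 + 1)
      (z := fun q m => (P337.w2 (D q.1) 0 : ℤ) ^ (D q.1 - m) * (P337.w2 (D q.1) m : ℤ) *
        (∑ k ∈ range (D q.1), (-1) ^ k * (P337.w1 (D q.1) k : ℤ) * p q.1 (k + 1) *
          (q.2 : ℤ) ^ (k + 1)) ^ m) (by fun_prop) (by fun_prop) (ZV.mul (ZV.mul
        ((ZV.w2 (by fun_prop) (by fun_prop) (by fun_prop)).pow (by fun_prop))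
        (ZV.w2 (by fun_prop) (by fun_prop) (by fun_prop)))
        ((h1.comp (h := fun q : (β × ℕ) × ℕ => q.1) (by fun_prop) fun _ h => h.1).pow
          (by fun_prop)))).of_eq fun q _ => ?_
    simp [P337.expo, ser, Polynomial.eval_finsetSum]
  · have h1 := natDegree_expo (D b) (p b)
    have h2 := hg b h
    have h3 : D b ≤ D b ^ 2 := Nat.le_self_pow (by omega) _
    omega

theorem Sys.nm (S : Sys π good n N r) {dh : β → ℕ} {H : ∀ b, MvPolynomial (Fin (n b)) ℤ}
    (hd : CF dh) (hH : ZV (fun q : β × List ℕ => π q.1) (fun q => good q.1) fun q => ev q.2 (H q.1))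
    (hg : ∀ b, good b → (H b).totalDegree ≤ dh b ∧
      thr (n b) (N b) (N b ^ n b * dh b + 2 * (n b * N b)) ≤ π b) :
    ZV π good fun b => nm (N b) (r b) (dh b) (H b) := by
  have hπ := S.cf
  have hn' := S.hn
  have hD : CF fun b => N b ^ n b := S.hN.1.pow S.hn
  have hn := S.hn.1
  have hN := S.hN.1
  refine ZV.expo hπ hD ?_ fun b h => le_trans (by unfold thr; omega) (hg b h).2
  refine (S.comp (h := fun q : β × ℕ => q.1) (by fun_prop) fun _ h => h.1).tr
    (d := fun q => N q.1 ^ n q.1 * dh q.1 + 2 * (n q.1 * N q.1))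
    (H := fun q => H q.1 ^ (q.2 + 1)) (by fun_prop)
    (((hH.comp (h := fun q : (β × ℕ) × List ℕ => (q.1.1, q.2)) (by fun_prop)
      fun _ h => h.1).pow (k := fun q => q.1.2 + 1) (by fun_prop)).of_eq fun _ _ => map_pow _ _ _)
    fun q h => ⟨?_, (hg _ h.1).2⟩
  exact Nat.add_le_add_right ((totalDegree_pow _ _).trans (Nat.mul_le_mul h.2 (hg _ h.1).1)) _

end Vale.Agent.P337
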