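import Vale.Agent.P337.Trace
import Mathlib.LinearAlgebra.Quotient.Basic

/-! The norm formula over the complex numbers. -/

namespace Vale.Agent.P337

open Finset MvPolynomial

variable {n N : ℕ} {r : ℕ → MvPolynomial (Fin n) ℂ}

theorem term_add (k : Fin n → ℕ) (h h' : MvPolynomial (Fin n) ℂ) :
    term N r k (h + h') = term N r k h + term N r k h' := by
  simp [term, add_mul]

theorem term_smul (k : Fin n → ℕ) (c : ℂ) (h : MvPolynomial (Fin n) ℂ) :
    term N r k (c • h) = c * term N r k h := by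
  simp [term]

section

variable (hN : 1 ≤ N) (hr : ∀ i < n, (r i).totalDegree < N)
include hN hr

theorem term_not_mem {d : ℕ} {h : MvPolynomial (Fin n) ℂ} (hd : h.totalDegree ≤ d) (k : Fin n → ℕ)
    (hk : k ∉ Fintype.piFinset fun _ : Fin n => range (d + 1)) : term N r k h = 0 := by
  refine term_eq_zero hN hr ?_
  simp only [Fintype.mem_piFinset, mem_range, not_forall, not_lt] at hk
  obtain ⟨i, hi⟩ := hk
  have := single_le_sum (f := k) (fun _ _ => Nat.zero_le _) (mem_univ i)
  omega

theorem term_summable (h : MvPolynomial (Fin n) ℂ) : Summable fun k => term N r k h :=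
  summable_of_ne_finset_zero (term_not_mem hN hr le_rfl)

noncomputable def res : MvPolynomial (Fin n) ℂ →ₗ[ℂ] ℂ where
  toFun h := ∑' k, term N r k h
  map_add' h h' := by
    simp only [term_add]
    exact (term_summable hN hr h).tsum_add (term_summable hN hr h')
  map_smul' c h := by
    simp only [term_smul, RingHom.id_apply, smul_eq_mul]
    exact tsum_mul_left

theorem ell_eq {d : ℕ} {h : MvPolynomial (Fin n) ℂ} (hd : h.totalDegree ≤ d) :
    ell N r d h = res hN hr h := by
  show _ = ∑' k, term N r k h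
  rw [tsum_eq_sum (term_not_mem hN hr hd), ell]
  refine sum_bij (fun k _ => fun i => (k i : ℕ)) (fun k _ => ?_) (fun k _ k' _ h => ?_)
    (fun k hk => ?_) fun _ _ => rfl
  · simp [Fintype.mem_piFinset, Fin.is_le]
  · funext i
    exact Fin.ext (congrFun h i)
  · simp only [Fintype.mem_piFinset, mem_range] at hk
    exact ⟨fun i => ⟨k i, hk i⟩, mem_univ _, rfl⟩

theorem res_rel (i : Fin n) (h : MvPolynomial (Fin n) ℂ) :
    res hN hr (h * (X i ^ N - r i)) = 0 := by
  classical
  rw [mul_sub, map_sub, sub_eq_zero]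
  show ∑' k, term N r k _ = ∑' k, term N r k _
  have hinj : Function.Injective fun k : Fin n → ℕ => k + Pi.single i 1 := add_left_injective _
  rw [← hinj.tsum_eq]
  · refine tsum_congr fun k => ?_
    unfold term
    have h1 : (mon fun j => N * ((k + Pi.single i 1 : Fin n → ℕ) j + 1) - 1) =
        (mon fun j => N * (k j + 1) - 1) + Finsupp.single i N := by
      ext j
      by_cases hj : j = i
      · subst hj
        have : 0 < N * (k j + 1) := by positivity
        simp only [mon_apply, Pi.add_apply, Pi.single_eq_same, Finsupp.add_apply,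
          Finsupp.single_eq_same]
        rw [mul_add N (k j + 1)]
        omega
      · simp [hj]
    have h2 : ∏ j : Fin n, r j ^ (k + Pi.single i 1 : Fin n → ℕ) j = r i * ∏ j : Fin n, r j ^ k j := by
      simp only [Pi.add_apply, pow_add, prod_mul_distrib]
      rw [mul_comm, prod_eq_single i]
      · simp
      · intro j _ hj
        simp [hj]
      · simp
    rw [h1, h2, X_pow_eq_monomial, mul_right_comm, coeff_mul_monomial, mul_one, mul_assoc]
  · intro k hk
    by_cases h0 : k i = 0
    · exfalso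
      refine hk ?_
      dsimp only
      unfold term
      rw [X_pow_eq_monomial, mul_right_comm, coeff_mul_monomial', if_neg]
      intro h1
      have := h1 i
      simp only [Finsupp.single_eq_same, mon_apply, h0] at this
      omega
    · refine ⟨k - Pi.single i 1, ?_⟩
      funext j
      by_cases hj : j = i
      · subst hj
        simp only [Pi.add_apply, Pi.sub_apply, Pi.single_eq_same]
        omega
      · simp [hj]

omit hN hr in
theorem dg_inj {a b : ℕ} (ha : a < N ^ n) (hb : b < N ^ n)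
    (h : ∀ i : Fin n, dg N a i = dg N b i) : a = b := by
  have : finFunctionFinEquiv.symm ⟨a, ha⟩ = finFunctionFinEquiv.symm ⟨b, hb⟩ := by
    funext i
    exact Fin.ext (h i)
  simpa using this

theorem res_bm {a b : ℕ} (ha : a < N ^ n) (hb : b < N ^ n)
    (h : ∑ i : Fin n, dg N b i ≤ ∑ i : Fin n, dg N a i) :
    res hN hr (bm ℂ n N a b) = if a = b then 1 else 0 := by
  classical
  show ∑' k, term N r k _ = _
  have hd : ∀ (y : ℕ) (i : Fin n), dg N y i ≤ N - 1 := fun y i => by
    have : dg N y i < N := Nat.mod_lt _ hN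
    omega
  rw [tsum_eq_single 0]
  · simp only [term, bm, Pi.zero_apply, pow_zero, prod_const_one, mul_one, zero_add, coeff_monomial]
    refine if_congr ⟨fun h1 => dg_inj ha hb fun i => ?_, ?_⟩ rfl rfl
    · have h2 := DFunLike.congr_fun h1 i
      have := hd a i
      simp only [mon_apply] at h2
      omega
    · rintro rfl
      ext i
      have := hd a i
      simp only [mon_apply]
      omega
  · intro k hk
    refine term_eq_zero hN hr ((totalDegree_bm_le N a b).trans_lt ?_)
    obtain ⟨i, hi⟩ := Function.ne_iff.1 hk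
    have h1 := single_le_sum (f := k) (fun _ _ => Nat.zero_le _) (mem_univ i)
    have h2 : ∑ i : Fin n, (N - 1 - dg N a i) + ∑ i : Fin n, dg N a i = n * (N - 1) := by
      rw [← sum_add_distrib, sum_congr rfl fun i _ => Nat.sub_add_cancel (hd a i)]
      simp
    rw [sum_add_distrib]
    simp only [Pi.zero_apply] at hi
    omega

theorem span_box {A : Type} [CommRing A] [Algebra ℂ A] (φ : MvPolynomial (Fin n) ℂ →ₐ[ℂ] A)
    (hφ : ∀ i : Fin n, φ (X i ^ N) = φ (r i)) (t : ℕ) : ∀ h : MvPolynomial (Fin n) ℂ,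
      h.totalDegree ≤ t → φ h ∈ Submodule.span ℂ
        (Set.range fun b : Fin (N ^ n) => φ (monomial (mon fun i => dg N b i) 1)) := by
  classical
  induction t using Nat.strong_induction_on with
  | _ t ih =>
    intro h hh
    rw [h.as_sum, map_sum]
    refine Submodule.sum_mem _ fun m hm => ?_
    rw [← mul_one (coeff m h), ← smul_eq_mul, ← smul_monomial, map_smul]
    refine Submodule.smul_mem _ _ ?_
    by_cases h1 : ∀ i, m i < N
    · refine Submodule.subset_span ⟨finFunctionFinEquiv fun i => ⟨m i, h1 i⟩, ?_⟩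
      have : (mon fun i : Fin n => dg N (finFunctionFinEquiv fun i => (⟨m i, h1 i⟩ : Fin N)) i) = m := by
        ext i
        exact congrArg Fin.val (congrFun
          (finFunctionFinEquiv.symm_apply_apply fun i => (⟨m i, h1 i⟩ : Fin N)) i)
      simp only [this]
    · push Not at h1
      obtain ⟨i, hi⟩ := h1
      have h2 : m = (m - Finsupp.single i N) + Finsupp.single i N :=
        (tsub_add_cancel_of_le (Finsupp.single_le_iff.2 hi)).symm
      have h3 : (m - Finsupp.single i N).degree + N ≤ t := by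
        have h4 : m.degree ≤ t := (le_totalDegree hm).trans hh
        rwa [h2, map_add, Finsupp.degree_single] at h4
      rw [h2, monomial_add_single, map_mul, hφ, ← map_mul]
      refine ih (t - 1) (by omega) _ ((totalDegree_mul _ _).trans ?_)
      have h4 : (monomial (m - Finsupp.single i N) (1 : ℂ)).totalDegree ≤
        (m - Finsupp.single i N).degree := totalDegree_monomial_le _ _
      have := hr i i.2
      omega

theorem trace_formula {A : Type} [CommRing A] [Algebra ℂ A] (φ : MvPolynomial (Fin n) ℂ →ₐ[ℂ] A)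
    (hφ : ∀ i : Fin n, φ (X i ^ N) = φ (r i)) (hs : Function.Surjective φ) (L : A →ₗ[ℂ] ℂ)
    (hL : ∀ h, L (φ h) = res hN hr h) : FiniteDimensional ℂ A ∧ Module.finrank ℂ A = N ^ n ∧
      ∀ d h, h.totalDegree + 2 * (n * N) ≤ d →
        tr N r d h = LinearMap.trace ℂ A (Algebra.lmul ℂ A (φ h)) := by
  classical
  obtain ⟨e, he⟩ : ∃ e : Fin (N ^ n) → A, ∀ b, e b = φ (monomial (mon fun i => dg N b i) 1) :=
    ⟨_, fun _ => rfl⟩
  obtain ⟨u, hu⟩ : ∃ u : ℕ → ℕ → ℂ, ∀ a b, u a b =
    (if a = b then 1 else 0) - res hN hr (bm ℂ n N a b) := ⟨_, fun _ _ => rfl⟩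
  obtain ⟨U, hU⟩ : ∃ U : Matrix (Fin (N ^ n)) (Fin (N ^ n)) ℂ,
    U = Matrix.of fun a b : Fin (N ^ n) => u a b := ⟨_, rfl⟩
  have hgu : ∀ d, 2 * (n * N) ≤ d → gu N r d = u := by
    intro d hd
    funext a b
    rw [gu, ell_eq hN hr ((totalDegree_bm_le' N hN a b).trans hd), hu]
  have hnil : U ^ (n * N + 1) = 0 := by
    ext b a
    rw [hU, ← pw_eq]
    refine pw_eq_zero (wt := fun y => ∑ i : Fin n, dg N y i)
      (fun a ha b hb h => by rw [hu, res_bm hN hr ha hb h, sub_self]) _ _ b.2 _ ?_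
    have : ∑ i : Fin n, dg N a i ≤ n * N := by
      refine (sum_le_card_nsmul _ _ N fun i _ => (Nat.mod_lt _ hN).le).trans ?_
      simp
    omega
  obtain ⟨V, hVd⟩ : ∃ V, V = ∑ k ∈ range (n * N + 1), U ^ k := ⟨_, rfl⟩
  have hV : V * (1 - U) = 1 := by rw [hVd, geom_sum_mul_neg, hnil, sub_zero]
  obtain ⟨lam, hlam0⟩ : ∃ lam : Fin (N ^ n) → Module.Dual ℂ A, ∀ b x, lam b x =
      ∑ a : Fin (N ^ n), V b a * L (φ (monomial (mon fun i => N - 1 - dg N a i) 1) * x) :=
    ⟨fun b => ∑ a : Fin (N ^ n), V b a • L ∘ₗ Algebra.lmul ℂ A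
      (φ (monomial (mon fun i => N - 1 - dg N a i) 1)), fun b x => by
        simp only [LinearMap.sum_apply, LinearMap.smul_apply, smul_eq_mul]
        rfl⟩
  have hlam : ∀ (b c : Fin (N ^ n)) h, lam b (φ h * e c) =
      ∑ a : Fin (N ^ n), V b a * res hN hr (h * bm ℂ n N a c) := by
    intro b c h
    rw [hlam0]
    refine sum_congr rfl fun a _ => ?_
    have : (mon fun i : Fin n => N - 1 - dg N a i) + (mon fun i : Fin n => dg N c i) =
        mon fun i : Fin n => N - 1 - dg N a i + dg N c i := by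
      ext i
      simp
    rw [he, ← map_mul, ← map_mul, mul_left_comm, monomial_mul, mul_one, hL, this, bm]
  have hdual : ∀ b c, lam b (e c) = (1 : Matrix _ _ ℂ) b c := by
    intro b c
    have := hlam b c 1
    rw [map_one, one_mul] at this
    rw [this, ← hV, Matrix.mul_apply]
    refine sum_congr rfl fun a _ => ?_
    simp [hU, hu, Matrix.one_apply, Fin.ext_iff]
  have hli : LinearIndependent ℂ e := LinearIndependent.of_pairwise_dual_eq_zero_one e lam
    (fun b c h => (hdual b c).trans (Matrix.one_apply_ne h)) fun b => by rw [hdual, Matrix.one_apply_eq]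
  obtain ⟨B, hB⟩ : ∃ B : Module.Basis (Fin (N ^ n)) ℂ A, ∀ b, B b = e b :=
    ⟨Module.Basis.mk hli fun x _ => by
      obtain ⟨h, rfl⟩ := hs x
      rw [funext he]
      exact span_box hN hr φ hφ _ h le_rfl, fun b => Module.Basis.mk_apply _ _ _⟩
  have hcoord : ∀ b, B.coord b = lam b := fun b => B.ext fun c => by
    rw [Module.Basis.coord_apply, B.repr_self, hB, hdual, Finsupp.single_apply, Matrix.one_apply]
    simp only [eq_comm]
  refine ⟨Module.Finite.of_basis B, by rw [Module.finrank_eq_card_basis B, Fintype.card_fin],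
    fun d h hd => ?_⟩
  rw [LinearMap.trace_eq_matrix_trace ℂ B, Matrix.trace, tr, hgu _ (by omega), sum_comm,
    ← Fin.sum_univ_eq_sum_range (fun b => ∑ a ∈ range (N ^ n), _)]
  refine sum_congr rfl fun b _ => ?_
  rw [Matrix.diag_apply, LinearMap.toMatrix_apply, ← Module.Basis.coord_apply, hcoord, hB,
    ← Fin.sum_univ_eq_sum_range (fun a => _ * ell N r _ (_ * bm ℂ n N a b))]
  refine Eq.trans (sum_congr rfl fun a _ => ?_) (hlam b b _).symm
  rw [ell_eq hN hr ((totalDegree_mul _ _).trans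
    ((Nat.add_le_add_left (totalDegree_bm_le' N hN a b) _).trans hd)), hVd, Matrix.sum_apply, hU]
  congr 1
  exact sum_congr rfl fun k _ => pw_eq _ _ _ _ _

theorem exists_points : ∃ z : Fin (N ^ n) → Fin n → ℂ,
    (∀ x, (∃ j, z j = x) ↔ ∀ i : Fin n, x i ^ N = eval x (r i)) ∧
    ∀ dh h, h.totalDegree ≤ dh →
      nm N r dh h = ((N ^ n).factorial : ℂ) ^ (N ^ n + 1) * ∏ j, eval (z j) h := by
  classical
  obtain ⟨I, hId⟩ : ∃ I : Ideal (MvPolynomial (Fin n) ℂ),
    I = Ideal.span (Set.range fun i : Fin n => X i ^ N - r i) := ⟨_, rfl⟩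
  have hI : ∀ h ∈ I, res hN hr h = 0 := by
    intro h hh
    rw [hId] at hh
    obtain ⟨c, rfl⟩ := Ideal.mem_span_range_iff_exists_fun.1 hh
    rw [map_sum]
    exact sum_eq_zero fun i _ => res_rel hN hr i _
  have hφ : ∀ i : Fin n, Ideal.Quotient.mkₐ ℂ I (X i ^ N) = Ideal.Quotient.mkₐ ℂ I (r i) := fun i =>
    Ideal.Quotient.eq.2 (hId ▸ Ideal.subset_span ⟨i, rfl⟩)
  obtain ⟨_, hrank, htr⟩ := trace_formula hN hr (Ideal.Quotient.mkₐ ℂ I) hφ
    (Ideal.Quotient.mkₐ_surjective ℂ I) ((Submodule.liftQ (I.restrictScalars ℂ) (res hN hr) hI) ∘ₗ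
      (Submodule.Quotient.restrictScalarsEquiv ℂ I).symm.toLinearMap) fun h => rfl
  obtain ⟨z, hz1, hz2, hz3⟩ := spectral (Ideal.Quotient.mkₐ ℂ I)
  refine ⟨fun j => z (Fin.cast hrank.symm j), fun x => ⟨?_, fun hx => ?_⟩, fun dh h hh => ?_⟩
  · rintro ⟨j, rfl⟩ i
    have := hz2 (Fin.cast hrank.symm j) (X i ^ N - r i) (by rw [map_sub, hφ, sub_self])
    simpa [sub_eq_zero] using this
  · obtain ⟨j, hj⟩ := hz3 x fun h hh => by
      have h1 := Ideal.Quotient.eq_zero_iff_mem.1 hh
      rw [hId] at h1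
      obtain ⟨c, rfl⟩ := Ideal.mem_span_range_iff_exists_fun.1 h1
      simp [hx]
    exact ⟨Fin.cast hrank j, hj⟩
  · refine expo_coeff (fun j => eval (z (Fin.cast hrank.symm j)) h) _ fun k hk => ?_
    have h1 : (h ^ (k + 1)).totalDegree ≤ N ^ n * dh :=
      (totalDegree_pow _ _).trans (Nat.mul_le_mul hk hh)
    rw [htr _ _ (by omega), hz1, ← (finCongr hrank.symm).sum_comp]
    simp only [map_pow]
    rfl

end

/-- Norms over an arbitrary coefficient ring, specialised along a homomorphism to `ℂ`. -/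
theorem exists_points' {K : Type} [CommRing K] {n N : ℕ} (hN : 1 ≤ N)
    {r : ℕ → MvPolynomial (Fin n) K} (hr : ∀ i < n, (r i).totalDegree < N) (φ : K →+* ℂ) :
    ∃ z : Fin (N ^ n) → Fin n → ℂ,
      (∀ x, (∃ j, z j = x) ↔ ∀ i : Fin n, x i ^ N = eval₂ φ x (r i)) ∧
      ∀ (K' : Type) [CommRing K'] (ι : K →+* K') (ψ : K' →+* ℂ), ψ.comp ι = φ →
        ∀ dh (h : MvPolynomial (Fin n) K'), h.totalDegree ≤ dh →
        ψ (nm N (fun i => map ι (r i)) dh h) =
          ((N ^ n).factorial : ℂ) ^ (N ^ n + 1) * ∏ j, eval₂ ψ (z j) h := by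
  obtain ⟨z, h1, h2⟩ := exists_points (r := fun i => map φ (r i)) hN
    fun i hi => (totalDegree_map_le φ _).trans_lt (hr i hi)
  refine ⟨z, fun x => by simpa only [eval_map] using h1 x, fun K' _ ι ψ hψ dh h hh => ?_⟩
  rw [map_nm]
  simp only [MvPolynomial.map_map, hψ]
  rw [h2 dh _ ((totalDegree_map_le ψ _).trans hh)]
  congr 1
  exact prod_congr rfl fun j _ => (eval₂_eq_eval_map _ _ _).symm

end Vale.Agent.P337
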