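import Vale.Agent.P337.ZV
import Mathlib.NumberTheory.Chebyshev

/-! The sign of a huge integer from its residues. -/

namespace Vale.Agent.P337

open Vale.Agent.Common.TreeTM Enc Finset

theorem many_primes (k : ℕ) : k ≤ ((range ((2 * k + 4) ^ 2)).filter Nat.Prime).card := by
  set m := 2 * k + 4 with hm
  obtain ⟨n, hn⟩ : ∃ n, m ^ 2 = n + 1 := ⟨m ^ 2 - 1, by have : 0 < m ^ 2 := by positivity
                                                        omega⟩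
  have h1 := Chebyshev.two_pow_le_mul_lcmUpto n
  have hn0 : n ≠ 0 := by nlinarith
  have h2 : Nat.lcmUpto n ≤ (n + 1) ^ (Nat.primesLE n).card := by
    rw [Nat.lcmUpto_eq_prod_pow_log]
    exact prod_le_pow_card _ _ _ fun p _ => (Nat.pow_log_le_self p hn0).trans (by omega)
  have h3 : Nat.primesLE n = (range (n + 1)).filter Nat.Prime := by
    ext p
    simp [Nat.mem_primesLE]
  rw [hn, ← h3]
  set c := (Nat.primesLE n).card
  have h4 : 2 ^ n ≤ 2 ^ (m * 2 * (c + 1)) := by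
    calc 2 ^ n ≤ (n + 1) ^ (c + 1) := by
          rw [pow_succ']
          exact h1.trans (Nat.mul_le_mul_left _ h2)
      _ ≤ ((2 ^ m) ^ 2) ^ (c + 1) := by
          rw [← hn]
          exact Nat.pow_le_pow_left (Nat.pow_le_pow_left Nat.lt_two_pow_self.le _) _
      _ = _ := by rw [← pow_mul, ← pow_mul, mul_assoc]
  have h5 := (Nat.pow_le_pow_iff_right (by norm_num)).1 h4
  by_contra h6
  have h7 : c + 1 ≤ k := by omega
  have h8 : m * 2 * (c + 1) ≤ m * 2 * k := Nat.mul_le_mul_left _ h7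
  nlinarith

theorem crt_approx {S : Finset ℕ} {Y : ℕ} (hS : ∀ p ∈ S, p.Prime) (hY : S.card ≤ Y) (hY0 : 0 < Y)
    (c : ℕ → ℕ) (w : ℤ)
    (hc : ∀ p ∈ S, (c p : ZMod p) * ((∏ q ∈ S.erase p, q : ℕ) : ZMod p) = (w : ZMod p))
    (hw : |(w : ℝ) / (∏ q ∈ S, q : ℕ)| ≤ 3 / 8) :
    (((∑ p ∈ S, c p * (16 * Y) / p + 8 * Y) % (16 * Y) : ℕ) : ℝ) - 8 * Y ≤
        16 * Y * ((w : ℝ) / (∏ q ∈ S, q : ℕ)) ∧
      16 * Y * ((w : ℝ) / (∏ q ∈ S, q : ℕ)) ≤
        (((∑ p ∈ S, c p * (16 * Y) / p + 8 * Y) % (16 * Y) : ℕ) : ℝ) - 7 * Y := by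
  set M : ℕ := ∏ q ∈ S, q with hM
  have hM0 : (0 : ℝ) < M := by
    have : 0 < M := prod_pos fun p hp => (hS p hp).pos
    exact_mod_cast this
  have hdvd : (M : ℤ) ∣ (∑ p ∈ S, (c p : ℤ) * (∏ q ∈ S.erase p, q : ℕ)) - w := by
    rw [hM, Nat.cast_prod]
    refine Finset.prod_dvd_of_coprime (fun p hp q hq hpq => ?_) fun p hp => ?_
    · exact Nat.isCoprime_iff_coprime.2 ((Nat.coprime_primes (hS p hp) (hS q hq)).2 hpq)
    · rw [← ZMod.intCast_zmod_eq_zero_iff_dvd, Int.cast_sub, sub_eq_zero, ← hc p hp, Int.cast_sum,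
        sum_eq_single_of_mem p hp]
      · simp
      · intro q _ hqp
        rw [Int.cast_mul, Int.cast_natCast, Int.cast_natCast,
          (ZMod.natCast_eq_zero_iff _ _).2 (dvd_prod_of_mem _ (mem_erase.2 ⟨hqp.symm, hp⟩)), mul_zero]
  obtain ⟨κ, hκ⟩ := hdvd
  have h1 : ∑ p ∈ S, (c p : ℝ) / p = w / M + κ := by
    have h2 : ∑ p ∈ S, (c p : ℝ) * (∏ q ∈ S.erase p, q : ℕ) = w + M * κ := by
      have := congrArg (Int.cast : ℤ → ℝ) hκ
      push_cast at this ⊢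
      linarith
    rw [eq_comm, div_add' _ _ _ hM0.ne', div_eq_iff hM0.ne', mul_comm (κ : ℝ), ← h2, sum_mul]
    refine sum_congr rfl fun p hp => ?_
    have hp0 : (p : ℝ) ≠ 0 := by exact_mod_cast (hS p hp).ne_zero
    rw [hM, ← mul_prod_erase S (fun q => q) hp]
    push_cast
    field_simp
  set A := ∑ p ∈ S, c p * (16 * Y) / p with hA
  have h3 : (A : ℝ) ≤ 16 * Y * (w / M + κ) := by
    rw [← h1, hA, mul_sum, Nat.cast_sum]
    refine sum_le_sum fun p _ => Nat.cast_div_le.trans (le_of_eq ?_)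
    push_cast
    ring
  have h4 : 16 * Y * (w / M + κ) ≤ (A : ℝ) + Y := by
    have hY' : (S.card : ℝ) ≤ Y := by exact_mod_cast hY
    refine le_trans ?_ (add_le_add_right hY' _)
    rw [← h1, hA, mul_sum, Nat.cast_sum, card_eq_sum_ones, Nat.cast_sum, ← sum_add_distrib]
    refine sum_le_sum fun p hp => ?_
    have hp0 : (0 : ℝ) < p := by exact_mod_cast (hS p hp).pos
    have h5 := Nat.lt_div_mul_add (a := c p * (16 * Y)) (hS p hp).pos
    have h6 : ((c p * (16 * Y) : ℕ) : ℝ) < ((c p * (16 * Y) / p * p + p : ℕ) : ℝ) := by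
      exact_mod_cast h5
    rw [mul_div_assoc', div_le_iff₀ hp0]
    push_cast at h6 ⊢
    linarith
  have hY1 : (0 : ℝ) < Y := by exact_mod_cast hY0
  obtain ⟨hw1, hw2⟩ := abs_le.1 hw
  set t := (w : ℝ) / M
  have h7 : (((A + 8 * Y) % (16 * Y) : ℕ) : ℤ) = A + 8 * Y - 16 * Y * κ := by
    have a1 : (0 : ℝ) ≤ ((A + 8 * Y - 16 * Y * κ : ℤ) : ℝ) := by push_cast; nlinarith
    have a2 : ((A + 8 * Y - 16 * Y * κ : ℤ) : ℝ) < ((16 * Y : ℤ) : ℝ) := by push_cast; nlinarith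
    have b1 : (0 : ℤ) ≤ A + 8 * Y - 16 * Y * κ := by exact_mod_cast a1
    have b2 : (A + 8 * Y - 16 * Y * κ : ℤ) < 16 * Y := by exact_mod_cast a2
    push_cast
    rw [← Int.emod_eq_of_lt b1 b2, Int.sub_mul_emod_self_left]
  have h8 : (((A + 8 * Y) % (16 * Y) : ℕ) : ℝ) = A + 8 * Y - 16 * Y * κ := by
    rw [← Int.cast_natCast, h7]
    push_cast
    ring
  rw [h8]
  constructor <;> linarith

theorem sign_iff {t : ℕ → ℝ} {ρ : ℕ → ℕ} {Y J : ℕ} (hY : 0 < Y) (h0 : |t 0| ≤ 3 / 8)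
    (hs : ∀ j, t (j + 1) = 2 * t j) (hJ : 0 < t 0 → 1 ≤ t J)
    (h : ∀ j, |t j| ≤ 3 / 8 → (ρ j : ℝ) - 8 * Y ≤ 16 * Y * t j ∧ 16 * Y * t j ≤ (ρ j : ℝ) - 7 * Y) :
    0 < t 0 ↔ Bex (J + 1) fun j => (Ball j fun i => 6 * Y ≤ ρ i ∧ ρ i ≤ 10 * Y) ∧ 10 * Y < ρ j := by
  have hY1 : (0 : ℝ) < Y := by exact_mod_cast hY
  have h1 : ∀ j, (∀ i < j, 6 * Y ≤ ρ i ∧ ρ i ≤ 10 * Y) → |t j| ≤ 3 / 8 := by
    intro j
    induction j with
    | zero => exact fun _ => h0
    | succ j ih =>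
      intro hj
      obtain ⟨a1, a2⟩ := h j (ih fun i hi => hj i (by omega))
      obtain ⟨b1, b2⟩ := hj j (by omega)
      have b1' : (6 : ℝ) * Y ≤ ρ j := by exact_mod_cast b1
      have b2' : (ρ j : ℝ) ≤ 10 * Y := by exact_mod_cast b2
      rw [hs, abs_le]
      constructor <;> nlinarith
  have h2 : ∀ j, t j = 2 ^ j * t 0 := by
    intro j
    induction j with
    | zero => simp
    | succ j ih => rw [hs, ih]; ring
  constructor
  · intro ht
    have h3 : ∃ j, ¬ (6 * Y ≤ ρ j ∧ ρ j ≤ 10 * Y) := by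
      by_contra h4
      push Not at h4
      have := abs_le.1 (h1 J fun i _ => h4 i)
      linarith [hJ ht]
    classical
    have h5 : ∀ i < Nat.find h3, 6 * Y ≤ ρ i ∧ ρ i ≤ 10 * Y := fun i hi => by
      simpa using Nat.find_min h3 hi
    refine ⟨Nat.find h3, ?_, h5, ?_⟩
    · by_contra h6
      have := abs_le.1 (h1 J fun i hi => h5 i (by omega))
      linarith [hJ ht]
    · have h6 := Nat.find_spec h3
      have h7 := (h _ (h1 _ h5)).2
      have h8 : 0 < t (Nat.find h3) := by rw [h2]; positivity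
      have h9 : (7 : ℝ) * Y < ρ (Nat.find h3) := by nlinarith
      have h10 : 7 * Y < ρ (Nat.find h3) := by exact_mod_cast h9
      omega
  · rintro ⟨j, -, h3, h4⟩
    have h5 := (h j (h1 j h3)).1
    have h6 : (10 : ℝ) * Y < ρ j := by exact_mod_cast h4
    have h7 : 0 < t j := by nlinarith
    rw [h2] at h7
    exact (mul_pos_iff_of_pos_left (by positivity)).1 h7

theorem sign_math {z : ℤ} {θ E Y : ℕ} (hYd : Y = (2 * (θ + E + 5) + 4) ^ 2) (hz : |z| ≤ 2 ^ E)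
    (g : ℕ → ℕ → ℕ) (ρ : ℕ → ℕ) (hρ : ∀ j, ρ j = (∑ p ∈ range Y,
      (if p.Prime ∧ θ < p then g j p % p * (16 * Y) / p else 0) + 8 * Y) % (16 * Y))
    (h2 : ∀ j p, θ < p → p.Prime → (g j p : ZMod p) = ((z * 2 ^ j *
      (∏ r ∈ range Y, if r.Prime ∧ θ < r ∧ r ≠ p then (r : ℤ) else 1) ^ (p - 2) : ℤ) : ZMod p)) :
    0 < z ↔ Bex (Y * Y + 1) fun j =>
      (Ball j fun i => 6 * Y ≤ ρ i ∧ ρ i ≤ 10 * Y) ∧ 10 * Y < ρ j := by
  obtain ⟨S, hS⟩ : ∃ S, S = (range Y).filter fun p => p.Prime ∧ θ < p := ⟨_, rfl⟩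
  have hSm : ∀ p, p ∈ S ↔ p < Y ∧ p.Prime ∧ θ < p := fun p => by simp [hS]
  have hSp : ∀ p ∈ S, p.Prime := fun p hp => ((hSm p).1 hp).2.1
  have hY0 : 0 < Y := by rw [hYd]; positivity
  have hSY : S.card ≤ Y := by rw [hS]; exact (card_filter_le _ _).trans (by simp)
  have hM1 : 2 ^ (E + 3) ≤ ∏ q ∈ S, q := by
    have a1 := many_primes (θ + E + 5)
    rw [← hYd] at a1
    have a2 : (range Y).filter Nat.Prime ⊆ S ∪ range (θ + 1) := by
      intro p hp
      simp only [hSm, mem_union, mem_filter, mem_range] at hp ⊢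
      by_cases h : θ < p
      · exact Or.inl ⟨hp.1, hp.2, h⟩
      · exact Or.inr (by omega)
    have a3 := (card_le_card a2).trans (card_union_le _ _)
    rw [card_range] at a3
    have a4 : θ + E + 5 ≤ S.card + (θ + 1) := a1.trans a3
    exact (Nat.pow_le_pow_right (by norm_num) (by omega)).trans
      (pow_card_le_prod S _ 2 fun p hp => (hSp p hp).two_le)
  have hM2 : ∏ q ∈ S, q ≤ 2 ^ (Y * Y) := by
    rw [pow_mul]
    refine (prod_le_pow_card S _ (2 ^ Y) fun p hp => ?_).trans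
      (Nat.pow_le_pow_right (by positivity) hSY)
    exact (((hSm p).1 hp).1.trans Nat.lt_two_pow_self).le
  have hM0 : (0 : ℝ) < (∏ q ∈ S, q : ℕ) := by
    have : 0 < ∏ q ∈ S, q := lt_of_lt_of_le (by positivity) hM1
    exact_mod_cast this
  have h4 := sign_iff (t := fun j => ((z * 2 ^ j : ℤ) : ℝ) / (∏ q ∈ S, q : ℕ)) (ρ := ρ)
    (J := Y * Y) hY0
    (by
      have a1 : |(z : ℝ)| ≤ 2 ^ E := by exact_mod_cast hz
      have a2 : (2 : ℝ) ^ (E + 3) ≤ (∏ q ∈ S, q : ℕ) := by exact_mod_cast hM1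
      rw [pow_add] at a2
      rw [pow_zero, mul_one, abs_div, abs_of_pos hM0, div_le_iff₀ hM0]
      linarith)
    (fun j => by simp only [Int.cast_mul, Int.cast_pow, Int.cast_ofNat]; ring)
    (fun ht => by
      rw [pow_zero, mul_one, div_pos_iff_of_pos_right hM0] at ht
      have a1 : (1 : ℝ) ≤ z := by exact_mod_cast (show (0 : ℤ) < z by exact_mod_cast ht)
      have a2 : ((∏ q ∈ S, q : ℕ) : ℝ) ≤ 2 ^ (Y * Y) := by exact_mod_cast hM2
      rw [le_div_iff₀ hM0]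
      simp only [Int.cast_mul, Int.cast_pow, Int.cast_ofNat]
      have a3 : (0 : ℝ) < 2 ^ (Y * Y) := by positivity
      nlinarith)
    (fun j hj => by
      have := crt_approx hSp hSY hY0 (fun p => g j p % p) (z * 2 ^ j) (fun p hp => by
        have hp' := hSp p hp
        have := Fact.mk hp'
        have a1 := h2 j p ((hSm p).1 hp).2.2 hp'
        have a2 : (∏ r ∈ range Y, if r.Prime ∧ θ < r ∧ r ≠ p then (r : ℤ) else 1) =
            ((∏ q ∈ S.erase p, q : ℕ) : ℤ) := by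
          rw [← prod_filter, Nat.cast_prod]
          refine prod_congr ?_ fun _ _ => rfl
          ext r
          simp only [hSm, mem_filter, mem_erase, mem_range]
          tauto
        rw [a2] at a1
        have a3 : ((∏ q ∈ S.erase p, q : ℕ) : ZMod p) ≠ 0 := by
          rw [Nat.cast_prod]
          refine prod_ne_zero_iff.2 fun q hq h0 => (mem_erase.1 hq).1 ?_
          rw [ZMod.natCast_eq_zero_iff] at h0
          exact ((Nat.prime_dvd_prime_iff_eq hp' (hSp q (mem_erase.1 hq).2)).1 h0).symm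
        rw [ZMod.natCast_mod, a1, Int.cast_mul, Int.cast_pow, Int.cast_natCast, mul_assoc, ← pow_succ,
          show p - 2 + 1 = p - 1 by have := hp'.two_le; omega, ZMod.pow_card_sub_one_eq_one a3,
          mul_one]) hj
      rw [hρ, ← sum_filter, ← hS]
      exact this)
  rw [← h4, pow_zero, mul_one, div_pos_iff_of_pos_right hM0]
  exact Int.cast_pos.symm

variable {α : Type} [Enc α]

theorem CH.pos {z : α → ℤ} {θ E : α → ℕ} (hθ : CF θ) (hE : CF E) (hz : ∀ a, |z a| ≤ 2 ^ E a)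
    (h : ZV (fun q : α × ℕ => q.2) (fun q => θ q.1 < q.2) fun q => z q.1) : CH fun a => 0 < z a := by
  classical
  obtain ⟨Y, hYd⟩ : ∃ Y : α → ℕ, ∀ a, Y a = (2 * (θ a + E a + 5) + 4) ^ 2 := ⟨_, fun _ => rfl⟩
  have hY : CF Y := (CF.pow (by fun_prop) (Sm.const 2)).of_eq hYd
  have h0 : ZV (fun q : (α × ℕ) × ℕ => q.2) (fun q => θ q.1.1 < q.2) fun q =>
      ∏ r ∈ range (Y q.1.1), if r.Prime ∧ θ q.1.1 < r ∧ r ≠ q.2 then (r : ℤ) else 1 :=
    ZV.prod (by fun_prop) (by fun_prop)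
      (ZV.ite (by fun_prop) (ZV.nat (by fun_prop) (by fun_prop)) (ZV.const (by fun_prop) 1))
  have h1 : ZV (fun q : (α × ℕ) × ℕ => q.2) (fun q => θ q.1.1 < q.2) fun q => z q.1.1 * 2 ^ q.1.2 *
      (∏ r ∈ range (Y q.1.1), if r.Prime ∧ θ q.1.1 < r ∧ r ≠ q.2 then (r : ℤ) else 1) ^ (q.2 - 2) :=
    ((h.comp (h := fun q : (α × ℕ) × ℕ => (q.1.1, q.2)) (by fun_prop) fun _ h => h).mul
      ((ZV.const (by fun_prop) 2).pow (by fun_prop))).mul (h0.pow (by fun_prop))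
  obtain ⟨-, g, hg, h2⟩ := h1
  obtain ⟨ρ, hρd⟩ : ∃ ρ : α × ℕ → ℕ, ∀ q, ρ q = (∑ p ∈ range (Y q.1),
    (if p.Prime ∧ θ q.1 < p then g (q, p) % p * (16 * Y q.1) / p else 0) + 8 * Y q.1) %
      (16 * Y q.1) := ⟨_, fun _ => rfl⟩
  have hρ : CF ρ := by
    refine CF.of_eq (CF.mod (CF.add (CF.sum (by fun_prop) ?_) (by fun_prop)) (by fun_prop)) hρd
    exact CF.ite (by fun_prop) (by fun_prop) (by fun_prop)
  have h3 : CH fun a => Bex (Y a * Y a + 1) fun j =>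
      (Ball j fun i => 6 * Y a ≤ ρ (a, i) ∧ ρ (a, i) ≤ 10 * Y a) ∧ 10 * Y a < ρ (a, j) := by
    fun_prop
  exact h3.of_iff fun a => sign_math (hYd a) (hz a) (fun j p => g ((a, j), p)) (fun j => ρ (a, j))
    (fun j => hρd _) fun j p h3 h4 => h2 ((a, j), p) h3 h4

end Vale.Agent.P337
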