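import Vale.Agent.P337.Main
import Vale.Agent.P337.NmZV
import Vale.Agent.P337.Sign
import Mathlib.Algebra.MvPolynomial.Polynomial

/-! Residues of the test quantities. -/

namespace Vale.Agent.P337

open Vale.Agent.Common.TreeTM Enc Finset MvPolynomial

variable {β γ : Type} [Enc β] [Enc γ] {π : β → ℕ} {good : β → Prop} {n : β → ℕ}

/-- Families of polynomials with computable values. -/
def PZ (π : β → ℕ) (good : β → Prop) (n : β → ℕ) (P : ∀ b, MvPolynomial (Fin (n b)) ℤ) : Prop :=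
  ZV (fun q : β × List ℕ => π q.1) (fun q => good q.1) fun q => ev q.2 (P q.1)

variable {P Q : ∀ b, MvPolynomial (Fin (n b)) ℤ}

theorem PZ.comp (hP : PZ π good n P) {h : γ → β} {good' : γ → Prop} (hh : CF h)
    (hg : ∀ c, good' c → good (h c)) :
    PZ (fun c => π (h c)) good' (fun c => n (h c)) fun c => P (h c) :=
  ZV.comp hP (h := fun q : γ × List ℕ => (h q.1, q.2)) (by fun_prop) fun _ h => hg _ h

theorem PZ.add (hP : PZ π good n P) (hQ : PZ π good n Q) : PZ π good n fun b => P b + Q b :=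
  (ZV.add hP hQ).of_eq fun _ _ => map_add _ _ _

theorem PZ.sub (hP : PZ π good n P) (hQ : PZ π good n Q) : PZ π good n fun b => P b - Q b :=
  (ZV.sub hP hQ).of_eq fun _ _ => map_sub _ _ _

theorem PZ.neg (hP : PZ π good n P) : PZ π good n fun b => -P b :=
  (ZV.neg hP).of_eq fun _ _ => map_neg _ _

theorem PZ.mul (hP : PZ π good n P) (hQ : PZ π good n Q) : PZ π good n fun b => P b * Q b :=
  (ZV.mul hP hQ).of_eq fun _ _ => map_mul _ _ _

theorem PZ.pow (hP : PZ π good n P) {k : β → ℕ} (hk : CF k) : PZ π good n fun b => P b ^ k b :=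
  (ZV.pow hP (k := fun q => k q.1) (by fun_prop)).of_eq fun _ _ => map_pow _ _ _

theorem PZ.int {z : β → ℤ} (hz : ZV π good z) : PZ π good n fun b => (z b : MvPolynomial _ ℤ) :=
  (hz.comp (h := fun q : β × List ℕ => q.1) (by fun_prop) fun _ h => h).of_eq fun _ _ =>
    map_intCast _ _

theorem PZ.nat {z : β → ℕ} (hz : ZV π good fun b => (z b : ℤ)) :
    PZ π good n fun b => (z b : MvPolynomial _ ℤ) :=
  (hz.comp (h := fun q : β × List ℕ => q.1) (by fun_prop) fun _ h => h).of_eq fun _ _ =>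
    map_natCast _ _

theorem PZ.zero (hπ : CF π) : PZ π good n fun _ => 0 :=
  (ZV.const (by fun_prop) 0).of_eq fun _ _ => map_zero _

theorem PZ.one (hπ : CF π) : PZ π good n fun _ => 1 :=
  (ZV.const (by fun_prop) 1).of_eq fun _ _ => map_one _

theorem PZ.ite {c : β → Prop} [DecidablePred c] (hc : CH c) (hP : PZ π good n P)
    (hQ : PZ π good n Q) : PZ π good n fun b => if c b then P b else Q b :=
  (ZV.ite (P := fun q : β × List ℕ => c q.1) (by fun_prop) hP hQ).of_eq fun _ _ => apply_ite _ _ _ _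

theorem PZ.sum {N : β → ℕ} {R : ∀ b, ℕ → MvPolynomial (Fin (n b)) ℤ} (hπ : CF π) (hN : CF N)
    (hR : PZ (fun q : β × ℕ => π q.1) (fun q => good q.1) (fun q => n q.1) fun q => R q.1 q.2) :
    PZ π good n fun b => ∑ i ∈ range (N b), R b i :=
  (ZV.sum (N := fun q : β × List ℕ => N q.1) (z := fun q i => ev q.2 (R q.1 i)) (by fun_prop)
    (by fun_prop) (ZV.comp hR (h := fun q : (β × List ℕ) × ℕ => ((q.1.1, q.2), q.1.2)) (by fun_prop)
      fun _ h => h.1)).of_eq fun _ _ => map_sum _ _ _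

theorem PZ.prod {N : β → ℕ} {R : ∀ b, ℕ → MvPolynomial (Fin (n b)) ℤ} (hπ : CF π) (hN : CF N)
    (hR : PZ (fun q : β × ℕ => π q.1) (fun q => good q.1) (fun q => n q.1) fun q => R q.1 q.2) :
    PZ π good n fun b => ∏ i ∈ range (N b), R b i :=
  (ZV.prod (N := fun q : β × List ℕ => N q.1) (z := fun q i => ev q.2 (R q.1 i)) (by fun_prop)
    (by fun_prop) (ZV.comp hR (h := fun q : (β × List ℕ) × ℕ => ((q.1.1, q.2), q.1.2)) (by fun_prop)
      fun _ h => h.1)).of_eq fun _ _ => map_prod _ _ _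

theorem PZ.xn (hπ : CF π) (hn : CF n) {i : β → ℕ} (hi : CF i) :
    PZ π good n fun b => xn (n b) (i b) :=
  (ZV.nat (f := fun q : β × List ℕ => if i q.1 < n q.1 then q.2.getD (i q.1) 0 else 0) (by fun_prop)
    (by fun_prop)).of_eq fun q _ => by
      by_cases h : i q.1 < n q.1 <;> simp [ev, P337.xn, h]

theorem PZ.shift (hP : PZ π good n P) : PZ π good (fun b => n b + 2) fun b => rename (sh _) (P b) :=
  (ZV.comp hP (h := fun q : β × List ℕ => (q.1, q.2.tail.tail)) (by fun_prop) fun _ h => h).of_eq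
    fun q _ => by
      rw [ev, ev, eval_rename]
      congr 2
      funext j
      simp [sh]

theorem coeff_aeval_line {m : ℕ} (x : Fin m → ℤ) (i : ℕ) (F : MvPolynomial (Fin m) ℤ) :
    (aeval (fun k : Fin m => Polynomial.C (x k) + if (k : ℕ) = i then Polynomial.X else 0) F).coeff 0 =
      eval x F ∧
    (aeval (fun k : Fin m => Polynomial.C (x k) + if (k : ℕ) = i then Polynomial.X else 0) F).coeff 1 =
      eval x (pd i F) := by
  induction F using MvPolynomial.induction_on with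
  | C c => unfold pd; split_ifs <;> simp [-eq_intCast, Polynomial.coeff_C]
  | add p q hp hq =>
    have : pd i (p + q) = pd i p + pd i q := by unfold pd; split_ifs <;> simp
    simp only [map_add, Polynomial.coeff_add, hp, hq, this, and_self]
  | mul_X p j hp =>
    have : pd i (p * X j) = pd i p * X j + if (j : ℕ) = i then p else 0 := by
      unfold pd
      split_ifs with h1 h2 h2
      · subst h2
        simp [mul_comm, add_comm]
      · have : j ≠ ⟨i, h1⟩ := fun h => h2 (congrArg Fin.val h)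
        simp [pderiv_X, this, mul_comm]
      · omega
      · simp
    rw [map_mul, aeval_X, this]
    split_ifs <;> simp [-eq_intCast, mul_add, hp, Polynomial.coeff_mul_X]

theorem PZ.pd (hP : PZ π good n P) (hn : Sm n) {i : β → ℕ} (hi : CF i)
    (hd : ∀ b, good b → (P b).totalDegree + 3 ≤ π b) : PZ π good n fun b => pd (i b) (P b) := by
  have hπ : CF fun q : β × List ℕ => π q.1 := hP.cf
  refine (ZV.coeff (P := fun q : β × List ℕ => aeval (fun k : Fin (n q.1) =>
    Polynomial.C (q.2.getD k 0 : ℤ) + if (k : ℕ) = i q.1 then Polynomial.X else 0) (P q.1))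
    (j := fun _ => 1) hπ (by fun_prop) ?_ fun q h => ?_).of_eq
    fun q _ => (coeff_aeval_line _ _ _).2.symm
  · refine (ZV.comp hP (h := fun q : (β × List ℕ) × ℕ => (q.1.1, (List.range (n q.1.1)).map
      fun k => q.1.2.getD k 0 + bif neq k (i q.1.1) then q.2 else 0)) (CF.pair (by fun_prop)
      (CF.mapTC (F := fun (p : List ℕ × ℕ × ℕ) (k : ℕ) => p.1.getD k 0 + bif neq k p.2.1 then p.2.2 else 0)
        (g := fun q : (β × List ℕ) × ℕ => (q.1.2, i q.1.1, q.2)) (by fun_prop) (by fun_prop)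
        (by fun_prop))) fun _ h => h).of_eq fun q _ => ?_
    rw [ev, ← Polynomial.coe_evalRingHom, map_aeval, eval₂Hom_congr (Subsingleton.elim _ (RingHom.id ℤ))
      rfl rfl]
    refine congrArg (fun f => eval f (P q.1.1)) (funext fun k => ?_)
    rw [List.getD_eq_getElem (List.map _ _) _ (by simp)]
    by_cases h : (k : ℕ) = i q.1.1 <;> simp [neq, h]
  · have := aeval_natDegree_le (P q.1) le_rfl (fun k : Fin (n q.1) =>
      Polynomial.C (q.2.getD k 0 : ℤ) + if (k : ℕ) = i q.1 then Polynomial.X else 0) (n := 1)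
      fun k => by split_ifs <;> compute_degree!
    have := hd _ h
    omega

theorem PZ.lin (hπ : CF π) (hn : CF n) {s : β → ℕ} (hs : CF s) :
    PZ π good n fun b => lin (n b) (s b) :=
  PZ.sum hπ hn (PZ.ite (by fun_prop) (PZ.zero (by fun_prop))
    (((PZ.nat (ZV.nat (by fun_prop) (by fun_prop))).pow (by fun_prop)).mul
      (PZ.xn (by fun_prop) (by fun_prop) (by fun_prop))))

theorem PZ.sys2 (hP : PZ π good n P) (hπ : CF π) (hn : Sm n) {m B T i : β → ℕ} (hm : CF m)
    (hB : ZV π good fun b => (B b : ℤ)) (hT : ZV π good fun b => (T b : ℤ)) (hi : CF i)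
    (hd : ∀ b, good b → (P b).totalDegree + 3 ≤ π b) :
    PZ π good (fun b => n b + 2) fun b => sys2 (m b) (B b) (T b) (P b) (i b) := by
  have hn1 := hn.1
  have h0 : PZ π good (fun b => n b + 2) fun _ => X 0 :=
    (PZ.xn (n := fun b => n b + 2) hπ (by fun_prop) (CF.const 0)).of_eq
      fun q _ => congrArg (ev q.2) (xn_coe (0 : Fin (n q.1 + 2))).symm
  have h1 : PZ π good (fun b => n b + 2) fun b => ∑ j, X (sh (n b) j) ^ m b :=
    (PZ.sum (R := fun b j => P337.xn (n b + 2) (j + 2) ^ m b) hπ hn1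
      ((PZ.xn (by fun_prop) (by fun_prop) (by fun_prop)).pow (by fun_prop))).of_eq fun q _ => by
      dsimp only
      rw [← Fin.sum_univ_eq_sum_range fun j => P337.xn (n q.1 + 2) (j + 2) ^ m q.1]
      exact congrArg _ (sum_congr rfl fun j _ => congrArg (· ^ m q.1) (xn_coe (sh _ j)).symm)
  exact PZ.ite (by fun_prop) ((h0.pow (by fun_prop)).sub (((h0.pow (CF.const 2)).add (PZ.one hπ)).pow
    (by fun_prop))) (PZ.ite (by fun_prop) ((PZ.nat hB).sub ((((PZ.nat hT).mul
      (PZ.nat (ZV.nat hπ hm))).mul hP.shift).add h1))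
    (((PZ.nat hT).neg.mul ((PZ.xn hπ (by fun_prop) hi).pow (CF.const 3))).mul
      (hP.pd hn (by fun_prop) hd).shift))

theorem aeval_int {alg : Algebra ℤ ℤ} (x : ℤ) (f : Polynomial ℤ) :
    Polynomial.aeval x f = f.eval x := by
  obtain rfl : alg = Algebra.id ℤ := Subsingleton.elim _ _
  exact congrFun (Polynomial.coe_aeval_eq_eval x) f

theorem ZV.eval {f : β → Polynomial ℤ} {w : β → ℤ}
    (hf : ZV (fun q : β × ℕ => π q.1) (fun q => good q.1) fun q => (f q.1).eval (q.2 : ℤ))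
    (hw : ZV π good w) : ZV π good fun b => (f b).eval (w b) :=
  hw.subst (z := fun b y => (f b).eval (y : ℤ)) hf fun b y h => by
    have h1 : ∀ x : ℤ, (((f b).eval x : ℤ) : ZMod (π b)) = Polynomial.aeval (x : ZMod (π b)) (f b) :=
      fun x => by
        rw [← aeval_int (alg := Algebra.id ℤ)]
        exact map_aeval_int' (Int.castRingHom (ZMod (π b))) _ _
    rw [h1, h1, ← h, Int.cast_natCast]

theorem ZV.yv (hπ : CF π) {E Θ τ j : β → ℕ} (hE : CF E) (hΘ : CF Θ) (hτ : CF τ) (hj : CF j) :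
    ZV π good fun b => yv (E b) (Θ b) (τ b) (j b) :=
  ((ZV.ite (P := fun b => j b % 2 = 0) (by fun_prop) (ZV.const hπ 1) (ZV.const hπ (-1))).mul
    ((ZV.nat hπ hτ).add ((ZV.nat (f := fun b => j b / 2 / E b) hπ (by fun_prop)).mul
      ((ZV.nat hπ hΘ).mul ((ZV.const hπ 2).pow (k := fun b => j b / 2 % E b)
        (by fun_prop)))))).of_eq fun b _ => by simp [P337.yv]

section

variable {f : β → Polynomial ℤ} {W M s : β → ℕ} {y : β → ℕ → ℤ} {u ι : β → ℤ} (hπ : CF π)
  (hf : ZV (fun q : β × ℕ => π q.1) (fun q => good q.1) fun q => (f q.1).eval (q.2 : ℤ))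
  (hW : CF W) (hM : CF M)
  (hy : ZV (fun q : β × ℕ => π q.1) (fun q => good q.1) fun q => y q.1 q.2)
  (hu : ZV π good u) (hι : ZV π good ι)

include hπ hf hM hy hu hι in
theorem ZV.fac (c : ℤ) : ZV (fun q : β × ℕ => π q.1) (fun q => good q.1)
    fun q => (f q.1).eval (u q.1 + c * (y q.1 q.2 * ι q.1)) ^ M q.1 :=
  (ZV.eval (f := fun q : β × ℕ => f q.1)
    (hf.comp (h := fun q : (β × ℕ) × ℕ => (q.1.1, q.2)) (by fun_prop) fun _ h => h)
    ((hu.comp (h := fun q : β × ℕ => q.1) (by fun_prop) fun _ h => h).add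
      ((ZV.const (by fun_prop) c).mul (hy.mul
      (hι.comp (h := fun q : β × ℕ => q.1) (by fun_prop) fun _ h => h))))).pow (by fun_prop)

include hπ hf hW hM hy hu hι in
theorem ZV.hden : ZV π good fun b => hden (f b) (W b) (M b) (y b) (u b) (ι b) :=
  (ZV.prod (z := fun b i => (f b).eval (u b + -1 * (y b i * ι b)) ^ M b) hπ hW
    ((ZV.fac hπ hf hM hy hu hι (-1)).comp (h := fun q => q) (by fun_prop)
    fun _ h => h.1)).of_eq fun b _ => by simp [P337.hden, aeval_int, sub_eq_add_neg]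

include hπ hf hW hM hy hu hι in
theorem ZV.hnum (hs : CF s) : ZV π good fun b => hnum (f b) (W b) (M b) (y b) (s b) (u b) (ι b) :=
  (ZV.sum (z := fun b j => (s b : ℤ) ^ j * (f b).eval (u b + 1 * (y b j * ι b)) ^ M b *
    ∏ i ∈ range (W b), if i = j then 1 else (f b).eval (u b + -1 * (y b i * ι b)) ^ M b) hπ hW
    ((((ZV.nat (by fun_prop) (by fun_prop)).pow (by fun_prop)).mul
      ((ZV.fac hπ hf hM hy hu hι 1).comp (h := fun q => q) (by fun_prop) fun _ h => h.1)).mul
      (ZV.prod (by fun_prop) (by fun_prop) (ZV.ite (by fun_prop) (ZV.const (by fun_prop) 1)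
        ((ZV.fac hπ hf hM hy hu hι (-1)).comp (h := fun q : (β × ℕ) × ℕ => (q.1.1, q.2))
          (by fun_prop) fun _ h => h.1.1))))).of_eq
    fun b _ => by simp [P337.hnum, aeval_int, sub_eq_add_neg]

end

variable {N : β → ℕ} {r : ∀ b, ℕ → MvPolynomial (Fin (n b)) ℤ}

theorem eval_chp {m : ℕ} (N : ℕ) (r : ℕ → MvPolynomial (Fin m) ℤ) (U : MvPolynomial (Fin m) ℤ)
    (y : ℕ) : (chp N r U).eval (y : ℤ) = nm N r 1 ((y : MvPolynomial (Fin m) ℤ) - U) := by
  have : (Polynomial.evalRingHom (y : ℤ)).comp Polynomial.C = RingHom.id ℤ := Subsingleton.elim _ _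
  rw [P337.chp, ← Polynomial.coe_evalRingHom, map_nm]
  simp only [MvPolynomial.map_map, this, MvPolynomial.map_id, map_sub, map_C, Polynomial.coe_evalRingHom, Polynomial.eval_X,
    map_natCast]

theorem Sys.nm' (S : Sys π good n N r) {dh : β → ℕ} (hd : CF dh) (hP : PZ π good n P)
    (hg : ∀ b, good b → (P b).totalDegree ≤ dh b ∧
      thr (n b) (N b) (N b ^ n b * dh b + 2 * (n b * N b)) ≤ π b) :
    ZV π good fun b => P337.nm (N b) (r b) (dh b) (P b) := S.nm hd hP hg

theorem Sys.chp (S : Sys π good n N r) (hP : PZ π good n P)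
    (hg : ∀ b, good b → (P b).totalDegree ≤ 1 ∧
      thr (n b) (N b) (N b ^ n b * 1 + 2 * (n b * N b)) ≤ π b) :
    ZV (fun q : β × ℕ => π q.1) (fun q => good q.1)
      fun q => (chp (N q.1) (r q.1) (P q.1)).eval (q.2 : ℤ) := by
  have hπ := S.cf
  have h1 : PZ (fun q : β × ℕ => π q.1) (fun q => good q.1) (fun q => n q.1)
      fun q => (q.2 : MvPolynomial _ ℤ) - P q.1 :=
    (PZ.nat (ZV.nat (by fun_prop) (by fun_prop))).sub
      (hP.comp (h := fun q : β × ℕ => q.1) (by fun_prop) fun _ h => h)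
  have S' := S.comp (h := fun q : β × ℕ => q.1) (good' := fun q => good q.1) (by fun_prop)
    fun _ h => h
  have h2 := S'.nm' (CF.const 1) h1 fun q h =>
    ⟨(totalDegree_sub _ _).trans (max_le (by simp [totalDegree_natCast]) (hg _ h).1), (hg _ h).2⟩
  exact h2.of_eq fun q _ => eval_chp _ _ _ _

theorem ev_HH {m : ℕ} (x : List ℕ) (N c E Θ W M : ℕ) (r : ℕ → MvPolynomial (Fin m) ℤ)
    (s' τ s y : ℕ) : ev x (HH N c E Θ W M r s' τ s y) =
      hnum (chp N r (UU m c s')) W M (yv E Θ τ) s (ev x (UU m c s')) (ev x (xn m 0)) -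
      y * hden (chp N r (UU m c s')) W M (yv E Θ τ) (ev x (UU m c s')) (ev x (xn m 0)) := by
  simp only [ev, HH, map_sub, map_mul, map_natCast, map_hnum, map_hden]

theorem thr_mono (n N : ℕ) {d d' : ℕ} (h : d ≤ d') : thr n N d ≤ thr n N d' := by
  unfold thr
  gcongr

theorem Sys.PP (S : Sys π good n N r) (hr : ∀ b, good b → ∀ i < n b, (r b i).totalDegree < N b)
    {c E Θ W M s' τ s y : β → ℕ} (hc : ZV π good fun b => (c b : ℤ)) (hE : CF E) (hΘ : CF Θ)
    (hW : CF W) (hM : CF M) (hs' : CF s') (hτ : CF τ) (hs : CF s) (hy : CF y)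
    (hg : ∀ b, good b → thr (n b) (N b)
      (N b ^ n b * ((W b + 1) * (M b * N b ^ n b) + 1) + 2 * (n b * N b)) ≤ π b) :
    ZV π good fun b => PP (N b) (c b) (E b) (Θ b) (W b) (M b) (r b) (s' b) (τ b) (s b) (y b) := by
  have hπ := S.cf
  have hn := S.hn
  have hN := S.hN.1
  have hU : PZ π good n fun b => UU (n b) (c b) (s' b) := (PZ.nat hc).mul (PZ.lin hπ hn.1 hs')
  have hf : ZV (fun q : (β × List ℕ) × ℕ => π q.1.1) (fun q => good q.1.1) fun q =>
      ((fun q : β × List ℕ => P337.chp (N q.1) (r q.1) (UU (n q.1) (c q.1) (s' q.1))) q.1).eval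
        (q.2 : ℤ) := (S.chp hU fun b h => ⟨totalDegree_lin _ _ _, (thr_mono _ _ (by gcongr; omega)).trans
    (hg b h)⟩).comp (h := fun q : (β × List ℕ) × ℕ => (q.1.1, q.2)) (good' := fun q => good q.1.1)
    (by fun_prop) fun _ h => h
  have hyv : ZV (fun q : (β × List ℕ) × ℕ => π q.1.1) (fun q => good q.1.1)
      fun q => P337.yv (E q.1.1) (Θ q.1.1) (τ q.1.1) q.2 :=
    ZV.yv (by fun_prop) (by fun_prop) (by fun_prop) (by fun_prop) (by fun_prop)
  have hι : PZ π good n fun b => P337.xn (n b) 0 := PZ.xn hπ hn.1 (CF.const 0)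
  have h1 := ZV.hnum (W := fun q => W q.1) (M := fun q => M q.1) (s := fun q => s q.1)
    (f := fun q : β × List ℕ => P337.chp (N q.1) (r q.1) (UU (n q.1) (c q.1) (s' q.1)))
    (u := fun q => ev q.2 (UU (n q.1) (c q.1) (s' q.1))) (ι := fun q => ev q.2 (P337.xn (n q.1) 0))
    (y := fun q j => P337.yv (E q.1) (Θ q.1) (τ q.1) j) (π := fun q : β × List ℕ => π q.1)
    (good := fun q : β × List ℕ => good q.1) (by fun_prop) hf (by fun_prop) (by fun_prop) hyv hU hι (by fun_prop)
  have h2 := ZV.hden (W := fun q => W q.1) (M := fun q => M q.1)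
    (f := fun q : β × List ℕ => P337.chp (N q.1) (r q.1) (UU (n q.1) (c q.1) (s' q.1)))
    (u := fun q => ev q.2 (UU (n q.1) (c q.1) (s' q.1))) (ι := fun q => ev q.2 (P337.xn (n q.1) 0))
    (y := fun q j => P337.yv (E q.1) (Θ q.1) (τ q.1) j) (π := fun q : β × List ℕ => π q.1)
    (good := fun q : β × List ℕ => good q.1) (by fun_prop) hf (by fun_prop) (by fun_prop) hyv hU hι
  have h3 : PZ π good n fun b =>
      HH (N b) (c b) (E b) (Θ b) (W b) (M b) (r b) (s' b) (τ b) (s b) (y b) :=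
    (h1.sub ((ZV.nat (f := fun q => y q.1) (by fun_prop) (by fun_prop)).mul h2)).of_eq
      fun q _ => ev_HH _ _ _ _ _ _ _ _ _ _ _ _
  refine S.nm' (dh := fun b => (W b + 1) * (M b * N b ^ n b)) (by fun_prop) h3
    fun b h => ⟨?_, (thr_mono _ _ (by gcongr; omega)).trans (hg b h)⟩
  obtain ⟨z, -, hz⟩ := exists_pts (S.deg b h).1 (hr b h)
  exact hz.deg_HH _ _ _ _ _ _ _ _ _

end Vale.Agent.P337
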