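import Mathlib.Analysis.Polynomial.Fourier
import Mathlib.Analysis.Polynomial.CauchyBound
import Mathlib.LinearAlgebra.Lagrange
import Mathlib.Algebra.Polynomial.Reverse

/-! Estimates for complex polynomials. -/

namespace Vale.Agent.P337

open Finset Polynomial

theorem coeff_le_circle (P : ℂ[X]) {C : ℝ} (h : ∀ z : ℂ, ‖z‖ = 1 → ‖P.eval z‖ ≤ C) (k : ℕ) :
    ‖P.coeff k‖ ≤ C := by
  have hC : 0 ≤ C := (norm_nonneg _).trans (h 1 norm_one)
  by_cases hk : k ∈ P.support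
  · refine (pow_le_pow_iff_left₀ (norm_nonneg _) hC two_ne_zero).1 ?_
    refine (single_le_sum (f := fun i => ‖P.coeff i‖ ^ 2) (fun _ _ => by positivity) hk).trans ?_
    rw [sum_sq_norm_coeff_eq_circleAverage]
    refine Real.circleAverage_mono_on_of_le_circle (ContinuousOn.circleIntegrable' (by fun_prop))
      fun z hz => pow_le_pow_left₀ (norm_nonneg _) (h z (by simpa using hz)) _
  · rw [notMem_support_iff.1 hk, norm_zero]
    exact hC

theorem root_le {P : ℂ[X]} {C : ℝ} (h1 : 1 ≤ ‖P.leadingCoeff‖) (h2 : ∀ k, ‖P.coeff k‖ ≤ C) {t : ℂ}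
    (ht : P.eval t = 0) : ‖t‖ ≤ C + 1 := by
  have hC : 0 ≤ C := (norm_nonneg _).trans (h2 0)
  have hP : P ≠ 0 := by rintro rfl; norm_num at h1
  have h3 : ‖t‖₊ < cauchyBound P := IsRoot.norm_lt_cauchyBound hP ht
  have h4 : cauchyBound P ≤ ⟨C, hC⟩ + 1 := by
    unfold cauchyBound
    have h5 : (1 : NNReal) ≤ ‖P.leadingCoeff‖₊ := h1
    have h6 : (range P.natDegree).sup (fun k => ‖P.coeff k‖₊) ≤ ⟨C, hC⟩ :=
      Finset.sup_le fun k _ => h2 k
    exact add_le_add_left ((div_le_self zero_le h5).trans h6) _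
  exact_mod_cast (h3.trans_le h4).le

theorem one_le_norm_int {z : ℤ} (hz : z ≠ 0) : 1 ≤ ‖(z : ℂ)‖ := by
  rw [Complex.norm_intCast]
  exact_mod_cast Int.one_le_abs hz

theorem root_ge {P : ℤ[X]} (hP : P ≠ 0) {C : ℝ}
    (h : ∀ z : ℂ, ‖z‖ = 1 → ‖P.eval₂ (Int.castRingHom ℂ) z‖ ≤ C) {t : ℂ} (ht0 : t ≠ 0)
    (ht : P.eval₂ (Int.castRingHom ℂ) t = 0) : 1 ≤ (C + 1) * ‖t‖ := by
  have hinj : Function.Injective (Int.castRingHom ℂ) := Int.cast_injective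
  have h1 := coeff_le_circle (P.map (Int.castRingHom ℂ)) (C := C)
    fun z hz => by rw [eval_map]; exact h z hz
  have h2 : ‖t⁻¹‖ ≤ C + 1 := by
    refine root_le (P := P.reverse.map (Int.castRingHom ℂ)) ?_ (fun k => ?_) ?_
    · rw [leadingCoeff_map_of_injective hinj, reverse_leadingCoeff]
      exact one_le_norm_int (trailingCoeff_nonzero_iff_nonzero.2 hP)
    · rw [coeff_map, coeff_reverse, ← coeff_map]
      exact h1 _
    · have := invertibleOfNonzero ht0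
      rw [eval_map, ← invOf_eq_inv, eval₂_reverse_eq_zero_iff]
      exact ht
  rwa [norm_inv, inv_le_iff_one_le_mul₀ (norm_pos_iff.2 ht0)] at h2

theorem norm_prod_le_pow {ι : Type} (s : Finset ι) (f : ι → ℂ) {c : ℝ} (h : ∀ i ∈ s, ‖f i‖ ≤ c) :
    ‖∏ i ∈ s, f i‖ ≤ c ^ s.card := by
  rw [norm_prod, ← prod_const]
  exact prod_le_prod (fun _ _ => norm_nonneg _) h

theorem lagrange_le {Q : ℂ[X]} {T : Finset ℕ} {S : ℕ} {ε : ℝ} (hQ : Q.degree < T.card)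
    (hT : ∀ s ∈ T, s ≤ S) (hε : 0 ≤ ε) (h : ∀ s ∈ T, ‖Q.eval (s : ℂ)‖ ≤ ε) (z : ℂ) :
    ‖Q.eval z‖ ≤ T.card * ε * (‖z‖ + S + 1) ^ T.card := by
  have h1 : (1 : ℝ) ≤ ‖z‖ + S + 1 := by
    have : (0 : ℝ) ≤ ‖z‖ + S := by positivity
    linarith
  rw [Lagrange.eq_interpolate (v := fun s : ℕ => (s : ℂ)) Nat.cast_injective.injOn hQ,
    Lagrange.interpolate_apply, eval_finsetSum, mul_assoc, ← nsmul_eq_mul]
  refine (norm_sum_le _ _).trans (sum_le_card_nsmul _ _ _ fun s hs => ?_)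
  rw [eval_mul, eval_C, norm_mul, Lagrange.basis, eval_prod]
  refine mul_le_mul (h s hs) ((norm_prod_le_pow _ _ fun j hj => ?_).trans
    (pow_le_pow_right₀ h1 card_erase_le)) (by positivity) hε
  obtain ⟨hjs, hj⟩ := mem_erase.1 hj
  have h2 : 1 ≤ ‖(s : ℂ) - j‖ := by
    have := one_le_norm_int (z := (s : ℤ) - j) (by omega)
    simpa using this
  have h3 : ‖z - j‖ ≤ ‖z‖ + S + 1 := by
    refine (norm_sub_le _ _).trans ?_
    have : (j : ℝ) ≤ S := by exact_mod_cast hT j hj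
    rw [Complex.norm_natCast]
    linarith
  simp only [Lagrange.basisDivisor, eval_mul, eval_C, eval_sub, eval_X, norm_mul, norm_inv]
  exact (mul_le_of_le_one_left (norm_nonneg _) (inv_le_one_of_one_le₀ h2)).trans h3

theorem norm_pow_sub_pow {z w : ℂ} (hz : ‖z‖ = 1) (hw : ‖w‖ = 1) (k : ℕ) :
    ‖z ^ k - w ^ k‖ ≤ k * ‖z - w‖ := by
  induction k with
  | zero => simp
  | succ k ih =>
    rw [show z ^ (k + 1) - w ^ (k + 1) = z * (z ^ k - w ^ k) + w ^ k * (z - w) by ring]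
    refine (norm_add_le _ _).trans ?_
    rw [norm_mul, norm_mul, norm_pow, hz, hw]
    push_cast
    simp only [one_pow]
    linarith

theorem semicircle {x y ε : ℝ} (hx : |x| ≤ 1) (hy : |y| ≤ 1) (hε : 0 ≤ ε) (h : |x - y| ≤ ε ^ 2) :
    ∃ z w : ℂ, ‖z‖ = 1 ∧ ‖w‖ = 1 ∧ z.re = x ∧ w.re = y ∧ ‖z - w‖ ≤ 2 * ε := by
  have hpt : ∀ x : ℝ, |x| ≤ 1 → ‖(⟨x, √(1 - x ^ 2)⟩ : ℂ)‖ = 1 := by
    intro x hx
    have : 0 ≤ 1 - x ^ 2 := by nlinarith [abs_le.1 hx]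
    rw [Complex.norm_def, Complex.normSq_mk, Real.mul_self_sqrt this]
    simp [sq]
  refine ⟨_, _, hpt x hx, hpt y hy, rfl, rfl, ?_⟩
  refine (pow_le_pow_iff_left₀ (norm_nonneg _) (by positivity) two_ne_zero).1 ?_
  obtain ⟨b1, b2⟩ := abs_le.1 hx
  obtain ⟨b3, b4⟩ := abs_le.1 hy
  obtain ⟨b5, b6⟩ := abs_le.1 h
  have a3 := Real.sq_sqrt (show 0 ≤ 1 - x ^ 2 by nlinarith)
  have a4 := Real.sq_sqrt (show 0 ≤ 1 - y ^ 2 by nlinarith)
  have a5 := Real.sqrt_nonneg (1 - x ^ 2)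
  have a6 := Real.sqrt_nonneg (1 - y ^ 2)
  rw [← Complex.normSq_eq_norm_sq, Complex.normSq_apply]
  simp only [Complex.sub_re, Complex.sub_im]
  generalize √(1 - x ^ 2) = a at *
  generalize √(1 - y ^ 2) = b at *
  have d1 : |x - y| * |x - y| ≤ ε ^ 2 * 2 :=
    mul_le_mul h (abs_le.2 ⟨by linarith, by linarith⟩) (abs_nonneg _) (by positivity)
  have d2 : |(x - y) * (x + y)| ≤ ε ^ 2 * 2 := by
    rw [abs_mul]
    exact mul_le_mul h (abs_le.2 ⟨by linarith, by linarith⟩) (abs_nonneg _) (by positivity)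
  rw [abs_mul_abs_self] at d1
  obtain ⟨d3, d4⟩ := abs_le.1 d2
  have c2 : (a - b) * (a - b) ≤ ε ^ 2 * 2 := by
    rcases le_total a b with hab | hab
    · have := mul_nonneg a5 (sub_nonneg.2 hab)
      linarith
    · have := mul_nonneg a6 (sub_nonneg.2 hab)
      linarith
  linarith

theorem hoelder {q : ℂ[X]} {D : ℕ} (hq : q.natDegree ≤ D) {M : ℝ}
    (hM : ∀ x : ℝ, |x| ≤ 1 → ‖q.eval (x : ℂ)‖ ≤ M) {x y ε : ℝ} (hx : |x| ≤ 1) (hy : |y| ≤ 1)
    (hε : 0 ≤ ε) (h : |x - y| ≤ ε ^ 2) :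
    ‖q.eval (x : ℂ) - q.eval (y : ℂ)‖ ≤ 14 * (D + 1) ^ 2 * ε * M := by
  have hM0 : 0 ≤ M := (norm_nonneg _).trans (hM 0 (by simp))
  obtain ⟨P, hP, hP2⟩ : ∃ P : ℂ[X], P.natDegree ≤ 2 * D ∧
      ∀ z : ℂ, ‖z‖ = 1 → P.eval z = z ^ D * q.eval (z.re : ℂ) := by
    refine ⟨∑ k ∈ range (D + 1), C (q.coeff k) * (X ^ (D - k) * (C (1 / 2) * (X ^ 2 + 1)) ^ k),
      natDegree_sum_le_of_forall_le _ _ fun k hk => ?_, fun z hz => ?_⟩
    · have hk := mem_range.1 hk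
      have h1 : (C (1 / 2 : ℂ) * (X ^ 2 + 1)).natDegree ≤ 2 := by compute_degree
      refine (natDegree_C_mul_le _ _).trans (natDegree_mul_le.trans ?_)
      have h2 := (natDegree_pow_le (p := C (1 / 2 : ℂ) * (X ^ 2 + 1)) (n := k)).trans
        (Nat.mul_le_mul_left k h1)
      rw [natDegree_X_pow]
      omega
    · have h1 : (1 / 2 : ℂ) * (z ^ 2 + 1) = z * z.re := by
        have h2 : z * (starRingEnd ℂ) z = 1 := by
          rw [Complex.mul_conj, Complex.normSq_eq_norm_sq, hz]; simp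
        rw [Complex.re_eq_add_conj]
        linear_combination (-1 / 2 : ℂ) * h2
      rw [eval_eq_sum_range' (Nat.lt_succ_of_le hq), eval_finsetSum, mul_sum]
      refine sum_congr rfl fun k hk => ?_
      have hk := mem_range.1 hk
      simp only [eval_mul, eval_C, eval_pow, eval_X, eval_add, eval_one, h1]
      rw [show z ^ D = z ^ (D - k) * z ^ k by rw [← pow_add, Nat.sub_add_cancel (by omega)]]
      ring
  have hre : ∀ z : ℂ, ‖z‖ = 1 → |z.re| ≤ 1 := fun z hz => hz ▸ Complex.abs_re_le_norm z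
  have hc := coeff_le_circle P (C := M) fun z hz => by
    rw [hP2 z hz, norm_mul, norm_pow, hz, one_pow, one_mul]
    exact hM _ (hre z hz)
  have hlip : ∀ z w : ℂ, ‖z‖ = 1 → ‖w‖ = 1 →
      ‖P.eval z - P.eval w‖ ≤ (2 * D + 1) * (M * (2 * D * ‖z - w‖)) := by
    intro z w hz hw
    rw [eval_eq_sum_range' (Nat.lt_succ_of_le hP), eval_eq_sum_range' (Nat.lt_succ_of_le hP),
      ← sum_sub_distrib]
    refine (norm_sum_le _ _).trans ((sum_le_card_nsmul _ _ (M * (2 * D * ‖z - w‖))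
      fun k hk => ?_).trans (by simp))
    have hk : (k : ℝ) ≤ 2 * D := by exact_mod_cast Nat.le_of_lt_succ (mem_range.1 hk)
    rw [← mul_sub, norm_mul]
    exact mul_le_mul (hc k) ((norm_pow_sub_pow hz hw k).trans (by gcongr)) (norm_nonneg _) hM0
  obtain ⟨z, w, hz, hw, hzx, hwy, hzw⟩ := semicircle hx hy hε h
  have h1 : ‖q.eval (x : ℂ) - q.eval (y : ℂ)‖ = ‖(P.eval z - P.eval w) +
      (w ^ D - z ^ D) * q.eval (y : ℂ)‖ := by
    rw [hP2 z hz, hP2 w hw, show z ^ D * q.eval (z.re : ℂ) - w ^ D * q.eval (w.re : ℂ) +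
      (w ^ D - z ^ D) * q.eval (y : ℂ) = z ^ D * (q.eval (x : ℂ) - q.eval (y : ℂ)) by
        rw [hzx, hwy]; ring, norm_mul, norm_pow, hz, one_pow, one_mul]
  have h2 : ‖(w ^ D - z ^ D) * q.eval (y : ℂ)‖ ≤ D * ‖z - w‖ * M := by
    rw [norm_mul, norm_sub_rev]
    exact mul_le_mul (norm_pow_sub_pow hz hw D) (hM y hy) (norm_nonneg _) (by positivity)
  rw [h1]
  refine (norm_add_le _ _).trans ((add_le_add (hlip z w hz hw) h2).trans ?_)
  have h3 : (0 : ℝ) ≤ D := by positivity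
  calc (2 * D + 1) * (M * (2 * D * ‖z - w‖)) + D * ‖z - w‖ * M
      = ((2 * D + 1) * (2 * D) + D) * M * ‖z - w‖ := by ring
    _ ≤ (7 * (D + 1) ^ 2) * M * (2 * ε) := by gcongr; nlinarith
    _ = _ := by ring

def cC (D : ℕ) : ℕ := 14 * (D + 1) ^ 2
def cL (D : ℕ) : ℕ := 2 * (4 * cC D) ^ 2
def cX (D : ℕ) : ℕ := (24 * cL D * cC D) ^ 2

attribute [irreducible] cC cL cX

theorem one_le_cC (D : ℕ) : 1 ≤ cC D := by unfold cC; nlinarith [Nat.zero_le D]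
theorem two_le_cL (D : ℕ) : 2 ≤ cL D := by unfold cL; nlinarith [one_le_cC D]
theorem cL_le_cX (D : ℕ) : cL D ≤ cX D := by
  unfold cX
  have h1 := one_le_cC D
  have h2 := two_le_cL D
  have : cL D ≤ 24 * cL D * cC D := by nlinarith
  nlinarith

theorem chain_abs {φ : ℝ → ℝ} {M κ σ μ η x₀ : ℝ} {L : ℕ} (hM0 : 0 < M) (hL : 2 ≤ L)
    (hσ : L * σ = 2) (hμ : 24 * L * μ = M) (hη : 8 * L * η = 1) (hκ0 : 0 ≤ κ) (hκ : κ ≤ σ)
    (hM : ∀ x, |x| ≤ 1 → φ x ≤ M) (hx₀ : |x₀| ≤ 1) (hx₁ : φ x₀ = M)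
    (h1 : ∀ x y, |x| ≤ 1 → |y| ≤ 1 → |x - y| ≤ κ → φ x ≤ φ y + μ)
    (h2 : ∀ x y, |x| ≤ 1 → |y| ≤ 1 → |x - y| ≤ σ → φ x ≤ φ y + M / 4) (h3 : φ (-1) = 0)
    (hcon : ∀ x, -1 ≤ x → x ≤ 1 → ∃ x', x ≤ x' ∧ x' ≤ x + κ ∧ φ (x' + σ) ≤ (1 + η) * φ x') :
    False := by
  have hL' : (2 : ℝ) ≤ L := by exact_mod_cast hL
  have hσ0 : 0 < σ := by by_contra h; nlinarith
  have hμ0 : 0 < μ := by by_contra h; nlinarith
  have hη0 : 0 < η := by by_contra h; nlinarith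
  have hημ : η * M = 3 * μ := by
    have : 8 * L * (η * M) = 8 * L * (3 * μ) := by linear_combination M * hη - hμ
    exact mul_left_cancel₀ (by positivity) this
  have key : ∀ k : ℕ, (k : ℝ) + 1 ≤ L → φ (-1 + k * σ) ≤ k * (6 * μ) := by
    intro k
    induction k with
    | zero => intro _; simp [h3]
    | succ k ih =>
      intro hk
      push_cast at hk ⊢
      have ih := ih (by linarith)
      have hk0 : 0 ≤ (k : ℝ) * σ := by positivity
      have hk2 : ((k : ℝ) + 1 + 1) * σ ≤ L * σ := mul_le_mul_of_nonneg_right hk hσ0.le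
      obtain ⟨x', a1, a2, a3⟩ := hcon (-1 + k * σ) (by linarith) (by linarith)
      have b1 : |x'| ≤ 1 := abs_le.2 ⟨by linarith, by linarith⟩
      have b2 := h1 x' (-1 + k * σ) b1 (abs_le.2 ⟨by linarith, by linarith⟩)
        (abs_le.2 ⟨by linarith, by linarith⟩)
      have b3 := h1 (-1 + (k + 1) * σ) (x' + σ) (abs_le.2 ⟨by linarith, by linarith⟩)
        (abs_le.2 ⟨by linarith, by linarith⟩) (abs_le.2 ⟨by linarith, by linarith⟩)
      have b4 : η * φ x' ≤ η * M := mul_le_mul_of_nonneg_left (hM x' b1) hη0.le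
      linarith
  obtain ⟨hx1, hx2⟩ := abs_le.1 hx₀
  obtain ⟨k, hk1, hk2⟩ : ∃ k : ℕ, (k : ℝ) + 1 ≤ L ∧ |x₀ - (-1 + k * σ)| ≤ σ := by
    have h0 : 0 ≤ (x₀ + 1) / σ := div_nonneg (by linarith) hσ0.le
    have a1 := Nat.floor_le h0
    have a2 := Nat.lt_floor_add_one ((x₀ + 1) / σ)
    rw [le_div_iff₀ hσ0] at a1
    rw [div_lt_iff₀ hσ0] at a2
    by_cases h : ⌊(x₀ + 1) / σ⌋₊ + 1 ≤ L
    · exact ⟨_, by exact_mod_cast h, abs_le.2 ⟨by linarith, by linarith⟩⟩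
    · have a4 : (L : ℝ) ≤ ⌊(x₀ + 1) / σ⌋₊ := by exact_mod_cast Nat.le_of_lt_succ (not_le.1 h)
      have a5 : ((L - 1 : ℕ) : ℝ) = L - 1 := by rw [Nat.cast_sub (by omega), Nat.cast_one]
      have a6 := mul_le_mul_of_nonneg_right a4 hσ0.le
      refine ⟨L - 1, by rw [a5]; linarith, ?_⟩
      rw [a5]
      exact abs_le.2 ⟨by linarith, by linarith⟩
  have hk0 : 0 ≤ (k : ℝ) * σ := by positivity
  have hk3 : ((k : ℝ) + 1) * σ ≤ L * σ := mul_le_mul_of_nonneg_right hk1 hσ0.le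
  have c1 := h2 x₀ (-1 + k * σ) hx₀ (abs_le.2 ⟨by linarith, by linarith⟩) hk2
  have c2 := key k hk1
  have c3 : ((k : ℝ) + 1) * μ ≤ L * μ := mul_le_mul_of_nonneg_right hk1 hμ0.le
  linarith

theorem chain {q : ℂ[X]} {D : ℕ} (hq0 : q ≠ 0) (hq : q.natDegree ≤ D) (h1 : q.eval (-1) = 0) :
    ∃ x : ℝ, -1 ≤ x ∧ x ≤ 1 ∧ ∀ x' : ℝ, x ≤ x' → x' ≤ x + 1 / cX D →
      (1 + 1 / (8 * cL D : ℝ)) * ‖q.eval (x' : ℂ)‖ < ‖q.eval ((x' + 2 / cL D : ℝ) : ℂ)‖ := by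
  by_contra hcon
  push Not at hcon
  obtain ⟨x₀, hx₀, hmax⟩ := (isCompact_Icc (a := (-1 : ℝ)) (b := 1)).exists_isMaxOn
    ⟨0, by norm_num⟩ (f := fun x : ℝ => ‖q.eval (x : ℂ)‖) (Continuous.continuousOn (by fun_prop))
  obtain ⟨M, hMd⟩ : ∃ M, ‖q.eval (x₀ : ℂ)‖ = M := ⟨_, rfl⟩
  have hM : ∀ x : ℝ, |x| ≤ 1 → ‖q.eval (x : ℂ)‖ ≤ M := fun x hx => hMd ▸ hmax (abs_le.1 hx)
  have hM0 : 0 < M := by
    refine lt_of_le_of_ne (hMd ▸ norm_nonneg _) fun h0 => hq0 ?_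
    refine eq_zero_of_infinite_isRoot q (Set.Infinite.mono ?_
      ((Set.Icc_infinite (show (-1 : ℝ) < 1 by norm_num)).image Complex.ofReal_injective.injOn))
    rintro _ ⟨x, hx, rfl⟩
    exact norm_le_zero_iff.1 ((hM x (abs_le.2 hx)).trans h0.symm.le)
  have hC : (1 : ℝ) ≤ cC D := by exact_mod_cast one_le_cC D
  have hL : (2 : ℝ) ≤ cL D := by exact_mod_cast two_le_cL D
  have hLX : (cL D : ℝ) ≤ cX D := by exact_mod_cast cL_le_cX D
  have hCd : (cC D : ℝ) = 14 * (D + 1) ^ 2 := by simp [cC]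
  have hLd : (cL D : ℝ) = 2 * (4 * cC D) ^ 2 := by simp [cL]
  have hXd : (cX D : ℝ) = (24 * cL D * cC D) ^ 2 := by simp [cX]
  have hH : ∀ x y ε : ℝ, |x| ≤ 1 → |y| ≤ 1 → 0 ≤ ε → |x - y| ≤ ε ^ 2 →
      ‖q.eval (x : ℂ)‖ ≤ ‖q.eval (y : ℂ)‖ + cC D * ε * M := by
    intro x y ε hx hy hε h
    have := hoelder hq hM hx hy hε h
    rw [← hCd] at this
    linarith [norm_sub_norm_le (q.eval (x : ℂ)) (q.eval (y : ℂ))]
  have e0 : 0 ≤ 1 / (cX D : ℝ) := one_div_nonneg.2 (Nat.cast_nonneg _)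
  have hL0 : (cL D : ℝ) ≠ 0 := by linarith
  have hC0 : (cC D : ℝ) ≠ 0 := by linarith
  refine chain_abs (φ := fun x => ‖q.eval (x : ℂ)‖) (κ := 1 / cX D) (σ := 2 / cL D)
    (μ := M / (24 * cL D)) (η := 1 / (8 * cL D)) hM0 (two_le_cL D) (by field_simp) (by field_simp)
    (by field_simp) e0 ?_ hM (abs_le.2 hx₀) hMd (fun x y hx hy h => ?_)
    (fun x y hx hy h => ?_) (by simp [h1]) hcon
  · rw [div_le_div_iff₀ (by linarith) (by linarith)]
    linarith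
  · refine (hH x y (1 / (24 * cL D * cC D)) hx hy (by positivity)
      (by rw [one_div_pow, ← hXd]; exact h)).trans (le_of_eq ?_)
    field_simp
  · refine (hH x y (1 / (4 * cC D)) hx hy (by positivity) (h.trans (le_of_eq ?_))).trans (le_of_eq ?_)
    · rw [hLd]
      field_simp
    · field_simp

theorem grid {f : ℂ[X]} {D : ℕ} (hf0 : f ≠ 0) (hf : f.natDegree ≤ D) {u ι : ℂ} (hι : ι ≠ 0)
    (hu : f.eval u = 0) {b h τ : ℝ} (hb : 0 < b) (h1 : h * cX D ≤ b * cL D)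
    (h2 : b * cL D ≤ 2 * h * cX D) (hτ0 : 0 ≤ τ) (hτ : τ ≤ h) :
    ∃ k < 8 * cX D + 2, (1 + 1 / (8 * cL D : ℝ)) * ‖f.eval (u + ι * ((τ + k * h - 2 * b : ℝ) : ℂ))‖ <
      ‖f.eval (u + ι * ((τ + k * h : ℝ) : ℂ))‖ := by
  have hL : (2 : ℝ) ≤ cL D := by exact_mod_cast two_le_cL D
  have hLX : (cL D : ℝ) ≤ cX D := by exact_mod_cast cL_le_cX D
  set L : ℝ := (cL D : ℝ)
  have hbL : 0 < b * L := by positivity
  have hh : 0 < h := by
    by_contra h0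
    nlinarith
  have ha : ι * (b * L : ℝ) ≠ 0 := mul_ne_zero hι (by exact_mod_cast hbL.ne')
  have hdeg : (C (ι * (b * L : ℝ)) * X + C (u + ι * (b * L : ℝ))).natDegree = 1 := natDegree_linear ha
  obtain ⟨x, hx1, hx2, hx⟩ := chain (q := f.comp (C (ι * (b * L : ℝ)) * X + C (u + ι * (b * L : ℝ))))
    (D := D) (fun h0 => by
      rcases comp_eq_zero_iff.1 h0 with h | ⟨-, h⟩
      · exact hf0 h
      · rw [h, natDegree_C] at hdeg
        omega)
    (by rw [natDegree_comp, hdeg, mul_one]; exact hf) (by simp [hu])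
  set y := 2 * b + b * L * (1 + x) with hy
  have hy0 : 0 ≤ y := by have : 0 ≤ 1 + x := by linarith
                         positivity
  have a1 : y ≤ τ + ⌈(y - τ) / h⌉₊ * h := by
    have := Nat.le_ceil ((y - τ) / h)
    rw [div_le_iff₀ hh] at this
    linarith
  have a2 : τ + ⌈(y - τ) / h⌉₊ * h ≤ y + h := by
    rcases le_total 0 ((y - τ) / h) with h0 | h0
    · have := (Nat.ceil_lt_add_one h0).le
      rw [div_add_one hh.ne', le_div_iff₀ hh] at this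
      linarith
    · rw [Nat.ceil_eq_zero.2 h0]
      simp only [Nat.cast_zero, zero_mul, add_zero]
      linarith
  refine ⟨⌈(y - τ) / h⌉₊, ?_, ?_⟩
  · have a3 : (⌈(y - τ) / h⌉₊ : ℝ) * h ≤ (8 * cX D + 1) * h := by nlinarith
    have a4 : (⌈(y - τ) / h⌉₊ : ℝ) ≤ 8 * cX D + 1 := le_of_mul_le_mul_right a3 hh
    have a5 : ⌈(y - τ) / h⌉₊ ≤ 8 * cX D + 1 := by exact_mod_cast a4
    omega
  · set y' := τ + ⌈(y - τ) / h⌉₊ * h
    have := hx (-1 + (y' - 2 * b) / (b * L))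
      (by rw [← sub_le_iff_le_add', le_div_iff₀ hbL]; linarith)
      (by
        have : h / (b * L) ≤ 1 / cX D := by
          rw [div_le_div_iff₀ hbL (by linarith)]
          linarith
        have h3 : (y' - 2 * b) / (b * L) ≤ (1 + x) + h / (b * L) := by
          rw [add_div' _ _ _ hbL.ne', div_le_div_iff_of_pos_right hbL]
          linarith
        linarith)
    have hb' : (b : ℂ) ≠ 0 := by exact_mod_cast hb.ne'
    have hL' : (L : ℂ) ≠ 0 := by exact_mod_cast (show L ≠ 0 by linarith)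
    simp only [eval_comp, eval_add, eval_mul, eval_C, eval_X] at this
    have e1 : ι * ((b * L : ℝ) : ℂ) * ((-1 + (y' - 2 * b) / (b * L) : ℝ) : ℂ) +
        (u + ι * ((b * L : ℝ) : ℂ)) = u + ι * ((y' - 2 * b : ℝ) : ℂ) := by
      push_cast
      field_simp
      ring
    have e2 : ι * ((b * L : ℝ) : ℂ) * ((-1 + (y' - 2 * b) / (b * L) + 2 / L : ℝ) : ℂ) +
        (u + ι * ((b * L : ℝ) : ℂ)) = u + ι * ((y' : ℝ) : ℂ) := by
      push_cast
      field_simp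
      ring
    rwa [e1, e2] at this

theorem exists_good {ι : Type} [Fintype ι] (bad : ι → ℕ → Prop) {W S : ℕ}
    (h : ∀ i (T : Finset ℕ), (∀ s ∈ T, s < S ∧ bad i s) → T.card ≤ W)
    (hS : Fintype.card ι * W < S) : ∃ s < S, ∀ i, ¬ bad i s := by
  classical
  by_contra hc
  push Not at hc
  have h1 : range S ⊆ univ.biUnion fun i => (range S).filter (bad i) := by
    intro s hs
    obtain ⟨i, hi⟩ := hc s (mem_range.1 hs)
    exact mem_biUnion.2 ⟨i, mem_univ _, mem_filter.2 ⟨hs, hi⟩⟩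
  have h2 := (card_le_card h1).trans (card_biUnion_le_card_mul _ _ W fun i _ =>
    h i _ fun s hs => ⟨mem_range.1 (mem_filter.1 hs).1, (mem_filter.1 hs).2⟩)
  rw [card_range, card_univ] at h2
  omega

theorem norm_prod_sub_one {ι : Type} (s : Finset ι) (e : ι → ℂ) {δ : ℝ} (hδ : 0 ≤ δ)
    (h : ∀ i ∈ s, ‖e i‖ ≤ δ) (hs : 2 * s.card * δ ≤ 1) :
    ‖∏ i ∈ s, (1 + e i) - 1‖ ≤ 2 * s.card * δ := by
  classical
  induction s using Finset.induction_on with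
  | empty => simp
  | insert i s hi ih =>
    rw [card_insert_of_notMem hi] at hs ⊢
    push_cast at hs ⊢
    have h1 := ih (fun j hj => h j (mem_insert_of_mem hj)) (by linarith)
    have h2 := h i (mem_insert_self _ _)
    rw [prod_insert hi, show (1 + e i) * ∏ j ∈ s, (1 + e j) - 1 =
      (∏ j ∈ s, (1 + e j) - 1) + e i * (∏ j ∈ s, (1 + e j) - 1) + e i by ring]
    refine norm_add₃_le.trans ?_
    rw [norm_mul]
    have h3 : ‖e i‖ * ‖∏ j ∈ s, (1 + e j) - 1‖ ≤ δ * 1 :=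
      mul_le_mul h2 (by linarith) (norm_nonneg _) hδ
    linarith

end Vale.Agent.P337
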