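import Vale.Agent.P337.PZ

/-! Existence of real zeros of nonnegative polynomials is in the counting hierarchy. -/

namespace Vale.Agent.P337

open Vale.Agent.Common.TreeTM Enc Finset MvPolynomial

variable {α β : Type} [Enc α] [Enc β]

/-- Numbers whose length is bounded by a computable number. -/
@[fun_prop] def Ex (f : α → ℕ) : Prop := ∃ e : α → ℕ, CF e ∧ ∀ a, f a ≤ 2 ^ e a

theorem Ex.ofCF {f : α → ℕ} (hf : CF f) : Ex f := ⟨f, hf, fun _ => Nat.lt_two_pow_self.le⟩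

@[fun_prop] theorem Ex.const (c : ℕ) : Ex fun _ : α => c := Ex.ofCF (CF.const c)

@[fun_prop] theorem Ex.comp {f : β → ℕ} {g : α → β} (hf : Ex f) (hg : CF g) :
    Ex fun a => f (g a) := by
  obtain ⟨e, he, h⟩ := hf
  exact ⟨fun a => e (g a), he.comp hg, fun a => h _⟩

@[fun_prop] theorem Ex.add {f g : α → ℕ} (hf : Ex f) (hg : Ex g) : Ex fun a => f a + g a := by
  obtain ⟨e, he, h⟩ := hf
  obtain ⟨e', he', h'⟩ := hg
  refine ⟨fun a => e a + e' a + 1, by fun_prop, fun a => ?_⟩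
  have h1 := (h a).trans (Nat.pow_le_pow_right (by norm_num) (Nat.le_add_right _ (e' a)))
  have h2 := (h' a).trans (Nat.pow_le_pow_right (by norm_num) (Nat.le_add_left _ (e a)))
  rw [pow_succ, mul_two]
  exact add_le_add h1 h2

@[fun_prop] theorem Ex.mul {f g : α → ℕ} (hf : Ex f) (hg : Ex g) : Ex fun a => f a * g a := by
  obtain ⟨e, he, h⟩ := hf
  obtain ⟨e', he', h'⟩ := hg
  exact ⟨fun a => e a + e' a, by fun_prop, fun a => by
    rw [pow_add]; exact Nat.mul_le_mul (h a) (h' a)⟩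

@[fun_prop] theorem Ex.pow {f k : α → ℕ} (hf : Ex f) (hk : CF k) : Ex fun a => f a ^ k a := by
  obtain ⟨e, he, h⟩ := hf
  exact ⟨fun a => e a * k a, by fun_prop, fun a => by
    rw [pow_mul]; exact Nat.pow_le_pow_left (h a) _⟩

@[fun_prop] theorem Ex.cfac {D : α → ℕ} (hD : CF D) : Ex fun a => cfac (D a) := by
  obtain ⟨e, he, h⟩ := ((Ex.ofCF hD).pow hD).pow (hD.add (CF.const 1))
  exact ⟨e, he, fun a => (Nat.pow_le_pow_left (Nat.factorial_le_pow _) _).trans (h a)⟩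

theorem Ex.lt {f : α → ℕ} (hf : Ex f) : ∃ e : α → ℕ, CF e ∧ ∀ a, f a < 2 ^ e a :=
  hf.add (Ex.const 1)

theorem Ex.two {e : α → ℕ} (he : CF e) : Ex fun a => 2 ^ e a := ⟨e, he, fun _ => le_rfl⟩

@[fun_prop] theorem CF.cL {D : α → ℕ} (hD : CF D) : CF fun a => cL (D a) := by
  unfold P337.cL cC
  fun_prop

@[fun_prop] theorem CF.cX {D : α → ℕ} (hD : CF D) : CF fun a => cX (D a) := by
  unfold P337.cX cC
  fun_prop

@[fun_prop] theorem CF.thr {n N d : α → ℕ} (hn : Sm n) (hN : CF N) (hd : CF d) :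
    CF fun a => thr (n a) (N a) (d a) := by
  have := hn.1
  unfold P337.thr
  fun_prop

theorem ZV.two {π : β → ℕ} {good : β → Prop} (hπ : CF π) {e : β → ℕ} (he : CF e) :
    ZV π good fun b => ((2 ^ e b : ℕ) : ℤ) :=
  ((ZV.const hπ 2).pow he).of_eq fun _ _ => by simp

theorem CH.bex' {Q : α × ℕ → Prop} {N : α → ℕ} (hQ : CH Q) (hN : CF N) :
    CH fun a => ∃ y < N a, Q (a, y) := CH.bex (Q := fun a y => Q (a, y)) hN hQ

theorem CH.ball' {Q : α × ℕ → Prop} {N : α → ℕ} (hQ : CH Q) (hN : CF N) :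
    CH fun a => ∀ y < N a, Q (a, y) := CH.ball (Q := fun a y => Q (a, y)) hN hQ

theorem abs_test_le {K P Q : ℤ} {k b e : ℕ} (hK : K = k) (hP : P.natAbs ≤ b) (hQ : Q.natAbs ≤ b)
    (h : b ^ 2 + k ^ 2 * (2 * b) ^ 2 ≤ 2 ^ e) : |Q ^ 2 - K ^ 2 * (P - Q) ^ 2| ≤ 2 ^ e := by
  have h1 : (Q ^ 2 - K ^ 2 * (P - Q) ^ 2).natAbs ≤ 2 ^ e := by
    refine (Int.natAbs_sub_le _ _).trans (le_trans ?_ h)
    have := (Int.natAbs_sub_le P Q).trans (show _ ≤ 2 * b by omega)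
    rw [hK, Int.natAbs_mul, Int.natAbs_pow, Int.natAbs_pow, Int.natAbs_pow, Int.natAbs_natCast]
    gcongr
  rw [Int.abs_eq_natAbs]
  exact_mod_cast h1

theorem CH.real_zero {n A d : α → ℕ} {F : ∀ a, MvPolynomial (Fin (n a)) ℤ} (hn : Sm n) (hd : Sm d)
    (hA : Ex A) (hF : ∀ a, Good2 (A a) (d a) (F a)) (h1 : ∀ a, 1 ≤ d a * A a)
    (hpos : ∀ a (x : Fin (n a) → ℝ), 0 ≤ aeval x (F a))
    (hz : PZ (fun q : α × ℕ => q.2) (fun _ => True) (fun q => n q.1) fun q => F q.1) :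
    CH fun a => ∃ x : Fin (n a) → ℝ, aeval x (F a) = 0 := by
  classical
  obtain ⟨m, hm'⟩ : ∃ m : α → ℕ, ∀ a, m a = 2 * (d a + 1) := ⟨_, fun _ => rfl⟩
  have hm : Sm m := by rw [funext hm']; fun_prop
  have hev : ∀ a, Even (m a) := fun a => hm' a ▸ even_two_mul _
  have hdm : ∀ a, d a + 2 ≤ m a := fun a => by rw [hm']; omega
  have hn1 := hn.1
  have hd1 := hd.1
  have hm1 := hm.1
  have hn2 := Ex.ofCF hn1
  have hd2 := Ex.ofCF hd1
  have hm2 := Ex.ofCF hm1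
  obtain ⟨eV, h_V, hV⟩ : Ex fun a => m a * A a * (d a * A a) ^ d a + n a * (d a * A a) ^ m a := by
    fun_prop
  have hV2 := Ex.two h_V
  obtain ⟨eB, h_B, hB⟩ : Ex fun a => cfac ((m a - 1) ^ n a) * (1 + 2 ^ eV a) ^ (m a - 1) ^ n a + 2 := by
    fun_prop
  obtain ⟨eT, h_T, hT⟩ := Ex.lt (f := fun a => cfac ((m a - 1) ^ n a) *
    (2 ^ eB a + 1 + 2 ^ eV a) ^ (m a - 1) ^ n a + 1) (by fun_prop)
  obtain ⟨D, hD'⟩ : ∃ D : α → ℕ, ∀ a, D a = (m a + 2) ^ (n a + 2) := ⟨_, fun _ => rfl⟩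
  have hD : CF D := by rw [funext hD']; fun_prop
  have hD2 := Ex.ofCF hD
  obtain ⟨eA, h_A, hA₂⟩ : Ex fun a => 2 ^ eB a + 2 ^ eT a * m a * A a + n a +
    2 ^ eT a * (d a * A a) + 1 := by fun_prop
  obtain ⟨S', hS''⟩ : ∃ S' : α → ℕ, ∀ a, S' a = D a * (n a + 2) + 1 := ⟨_, fun _ => rfl⟩
  have hS' : CF S' := by rw [funext hS'']; fun_prop
  have hS'2 := Ex.ofCF hS'
  obtain ⟨eR, h_R, hRu⟩ : Ex fun a => (n a + 2) * S' a ^ (n a + 2) * 2 ^ eA a := by fun_prop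
  obtain ⟨eG, h_G, hG⟩ : Ex fun a =>
    2 * (cfac (D a) * (cfac (D a) * (1 + 2 * 2 ^ eR a) ^ D a) ^ D a + 1) := by fun_prop
  have hL2 := Ex.ofCF hD.cL
  have hX2 := Ex.ofCF hD.cX
  obtain ⟨E, h_E, hE⟩ := Ex.lt (f := fun a => 2 ^ eG a * 2 ^ eR a * cL (D a)) (by fun_prop)
  obtain ⟨W, hW'⟩ : ∃ W : α → ℕ, ∀ a, W a = 2 * (E a * (8 * cX (D a) + 2)) := ⟨_, fun _ => rfl⟩
  have hW : CF W := by rw [funext hW']; fun_prop
  have hW2 := Ex.ofCF hW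
  obtain ⟨Θ, hΘ'⟩ : ∃ Θ : α → ℕ, ∀ a, Θ a = D a * D a * W a + 1 := ⟨_, fun _ => rfl⟩
  have hΘ : CF Θ := by rw [funext hΘ']; fun_prop
  have hΘ2 := Ex.ofCF hΘ
  obtain ⟨S, hSd⟩ : ∃ S : α → ℕ, ∀ a, S a = D a * W a + 1 := ⟨_, fun _ => rfl⟩
  have hS : CF S := by rw [funext hSd]; fun_prop
  have hS2 := Ex.ofCF hS
  obtain ⟨eC, h_C, hKc⟩ := Ex.lt
    (f := fun a => (D a + 1) * (W a * S a ^ W a + D a + 1) ^ (D a + 1)) (by fun_prop)
  obtain ⟨eK, h_K, hK⟩ := Ex.lt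
    (f := fun a => W a * (2 * D a * D a * 2 ^ eC a + 1) * (S a + 2) ^ W a) (by fun_prop)
  obtain ⟨M, hM'⟩ : ∃ M : α → ℕ, ∀ a, M a = 8 * cL (D a) * eK a := ⟨_, fun _ => rfl⟩
  have hM : CF M := by rw [funext hM']; fun_prop
  obtain ⟨c, hc'⟩ : ∃ c : α → ℕ, ∀ a, c a = cX (D a) * Θ a * 2 ^ eG a := ⟨_, fun _ => rfl⟩
  have hc : Ex c := by rw [funext hc']; fun_prop
  obtain ⟨eΦ, h_Φ, hΦ⟩ : Ex fun a => cfac (D a) * (2 * (c a * ((n a + 2) * S' a ^ (n a + 2) *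
    2 ^ eA a)) + (Θ a + W a * (Θ a * 2 ^ E a)) * 2 ^ eA a + 1) ^ D a := by fun_prop
  obtain ⟨eZ, h_Z, hZ⟩ : Ex fun a =>
    (cfac (D a) * ((W a * S a ^ W a + D a) * (2 ^ eΦ a) ^ (M a * (W a + 1))) ^ D a) ^ 2 +
    (2 ^ eC a) ^ 2 * (2 * (cfac (D a) * ((W a * S a ^ W a + D a) *
      (2 ^ eΦ a) ^ (M a * (W a + 1))) ^ D a)) ^ 2 := by fun_prop
  obtain ⟨θ, hθ'⟩ : ∃ θ : α → ℕ, ∀ a, θ a = d a + 3 + P337.thr (n a + 2) (m a + 2)
    (D a * ((W a + 1) * (M a * D a) + 1) + 2 * ((n a + 2) * (m a + 2))) := ⟨_, fun _ => rfl⟩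
  have hθ : CF θ := by rw [funext hθ']; fun_prop
  obtain ⟨P, hP'⟩ : ∃ P : α → ℕ → ℕ → ℕ → ℕ → ℤ, ∀ a s' τ s y, P a s' τ s y = PP (m a + 2) (c a)
    (E a) (Θ a) (W a) (M a) (sys2 (m a) (2 ^ eB a) (2 ^ eT a) (F a)) s' τ s y :=
    ⟨_, fun _ _ _ _ _ => rfl⟩
  have hdeg := fun a => sys2_deg (B := 2 ^ eB a) (T := 2 ^ eT a) (hF a) (hdm a) (hev a)
  have hSys : Sys (fun q : α × ℕ => q.2) (fun q => θ q.1 < q.2) (fun q => n q.1 + 2)
      (fun q => m q.1 + 2) fun q => sys2 (m q.1) (2 ^ eB q.1) (2 ^ eT q.1) (F q.1) := by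
    refine ⟨by fun_prop, by fun_prop, by fun_prop, ?_, fun q _ =>
      ⟨by omega, fun i hi => (hdeg _ i hi).le⟩⟩
    exact (hz.comp (h := fun q : (α × ℕ) × ℕ => q.1) (good' := fun q => θ q.1.1 < q.1.2)
      (by fun_prop) fun _ _ => trivial).sys2 (m := fun q => m q.1.1) (B := fun q => 2 ^ eB q.1.1)
      (T := fun q => 2 ^ eT q.1.1) (i := fun q => q.2) (by fun_prop) (by fun_prop) (by fun_prop)
      (ZV.two (by fun_prop) (by fun_prop)) (ZV.two (by fun_prop) (by fun_prop)) (by fun_prop)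
      fun q h => by
        have := (hF q.1.1).1.deg
        have := hθ' q.1.1
        omega
  have hP : ZV (fun q : ((((α × ℕ) × ℕ) × ℕ) × ℕ) × ℕ => q.2) (fun q => θ q.1.1.1.1.1 < q.2)
      fun q => P q.1.1.1.1.1 q.1.1.1.1.2 q.1.1.1.2 q.1.1.2 q.1.2 := by
    have h2 := hSys.comp (h := fun q : ((((α × ℕ) × ℕ) × ℕ) × ℕ) × ℕ => (q.1.1.1.1.1, q.2))
      (good' := fun q => θ q.1.1.1.1.1 < q.2) (by fun_prop) fun _ h => h
    have h3 := h2.PP (fun q _ => hdeg _) (c := fun q => c q.1.1.1.1.1)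
      (E := fun q => E q.1.1.1.1.1) (Θ := fun q => Θ q.1.1.1.1.1) (W := fun q => W q.1.1.1.1.1)
      (M := fun q => M q.1.1.1.1.1) (s' := fun q => q.1.1.1.1.2) (τ := fun q => q.1.1.1.2)
      (s := fun q => q.1.1.2) (y := fun q => q.1.2)
      (((ZV.nat (f := fun q => cX (D q.1.1.1.1.1) * Θ q.1.1.1.1.1) (by fun_prop) (by fun_prop)).mul
        (ZV.two (e := fun q => eG q.1.1.1.1.1) (by fun_prop) (by fun_prop))).of_eq
        fun q _ => by rw [hc', Nat.cast_mul])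
      (by fun_prop) (by fun_prop) (by fun_prop) (by fun_prop) (by fun_prop) (by fun_prop)
      (by fun_prop) (by fun_prop) fun q h => by
        have := hθ' q.1.1.1.1.1
        dsimp only
        rw [← hD']
        omega
    exact h3.of_eq fun q _ => hP' _ _ _ _ _
  have hP0 := hP.comp (h := fun q : ((((α × ℕ) × ℕ) × ℕ) × ℕ) × ℕ => ((q.1.1, 0), q.2))
    (good' := fun q => θ q.1.1.1.1.1 < q.2) (by fun_prop) fun _ h => h
  have hb : ∀ a s' τ s y, s' < S' a → τ < Θ a → s < S a → y < D a + 1 → (P a s' τ s y).natAbs ≤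
      cfac (D a) * ((W a * S a ^ W a + D a) * (2 ^ eΦ a) ^ (M a * (W a + 1))) ^ D a := by
    intro a s' τ s y a1 a2 a3 a4
    obtain ⟨z, hz1, hz2⟩ := exists_pts (by omega) (hdeg a)
    have := hΦ a
    dsimp only at this
    rw [hD'] at this a4
    rw [hP', hD']
    exact hz2.PP_le (fun j => sys2_le (hF a) (hdm a) (hev a) (hA₂ a) ((hz1 _).1 ⟨j, rfl⟩))
      Nat.one_le_two_pow a1.le (by omega) a2.le a3.le (by omega) (by omega) this
  have h4 := CH.pos (α := (((α × ℕ) × ℕ) × ℕ) × ℕ) (z := fun q =>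
    if q.1.1.1.2 < S' q.1.1.1.1 ∧ q.1.1.2 < Θ q.1.1.1.1 ∧ q.1.2 < S q.1.1.1.1 ∧
      q.2 < D q.1.1.1.1 + 1 then P q.1.1.1.1 q.1.1.1.2 q.1.1.2 q.1.2 0 ^ 2 -
      ((2 ^ eC q.1.1.1.1 : ℕ) : ℤ) ^ 2 * (P q.1.1.1.1 q.1.1.1.2 q.1.1.2 q.1.2 q.2 -
        P q.1.1.1.1 q.1.1.1.2 q.1.1.2 q.1.2 0) ^ 2 else 0)
    (θ := fun q => θ q.1.1.1.1) (E := fun q => eZ q.1.1.1.1) (by fun_prop) (by fun_prop)
    (fun q => by
      split_ifs with h
      · exact abs_test_le rfl (hb _ _ _ _ _ h.1 h.2.1 h.2.2.1 h.2.2.2)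
          (hb _ _ _ _ _ h.1 h.2.1 h.2.2.1 (by omega)) (hZ _)
      · simp)
    (ZV.ite (by fun_prop) ((hP0.pow (CF.const 2)).sub (((ZV.two (by fun_prop) (by fun_prop)).pow
      (CF.const 2)).mul ((hP.sub hP0).pow (CF.const 2)))) (ZV.const (by fun_prop) 0))
  refine ((((h4.ball' (N := fun q => D q.1.1.1 + 1) (by fun_prop)).bex' (N := fun q => S q.1.1)
    (by fun_prop)).bex' (N := fun q => Θ q.1) (by fun_prop)).bex' hS').not.of_iff fun a => ?_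
  rw [main_math (hF a) (hpos a) (hdm a) (hev a) (h1 a) (hV a) (hB a) (hT a) (hD' a) (hA₂ a)
    (hS'' a ▸ Nat.lt_succ_self _ : _ < S' a) (hRu a) (hG a) (hE a) (hW' a)
    (hΘ' a ▸ Nat.lt_succ_self _ : _ < Θ a) (hSd a ▸ Nat.lt_succ_self _ : _ < S a) (hKc a)
    (Nat.lt_succ_self _) (hK a), ← hc', ← hM']
  simp only [← hP']
  refine not_congr (exists_congr fun s' => and_congr_right fun a1 => exists_congr fun τ =>
    and_congr_right fun a2 => exists_congr fun s => and_congr_right fun a3 => forall_congr' fun y =>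
    imp_congr_right fun a4 => ?_)
  rw [if_pos ⟨a1, a2, a3, a4⟩, sub_pos]

end Vale.Agent.P337
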