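import Mathlib.LinearAlgebra.Eigenspace.Pi
import Mathlib.LinearAlgebra.Eigenspace.Triangularizable
import Mathlib.Algebra.DirectSum.LinearMap
import Mathlib.RingTheory.Finiteness.Nilpotent
import Mathlib.Analysis.Complex.Polynomial.Basic
import Mathlib.Algebra.MvPolynomial.CommRing
import Mathlib.Algebra.Module.Torsion.Basic

/-! Traces in finite dimensional commutative algebras are sums of evaluations. -/

namespace Vale.Agent.P337

open MvPolynomial Module Finset

variable {A σ : Type} [CommRing A] [Algebra ℂ A]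

theorem lmul_pow_apply (x : A) (μ : ℂ) (k : ℕ) (a : A) :
    ((Algebra.lmul ℂ A x - μ • (1 : End ℂ A)) ^ k) a = (x - algebraMap ℂ A μ) ^ k * a := by
  rw [show Algebra.lmul ℂ A x - μ • (1 : End ℂ A) = Algebra.lmul ℂ A (x - algebraMap ℂ A μ) by
    rw [map_sub, AlgHom.commutes, Algebra.algebraMap_eq_smul_one], ← map_pow]
  rfl

theorem nil_of_mem (φ : MvPolynomial σ ℂ →ₐ[ℂ] A) (χ : σ → ℂ) (a : A)
    (ha : ∀ i, ∃ k, (φ (X i) - algebraMap ℂ A (χ i)) ^ k * a = 0) (h : MvPolynomial σ ℂ) :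
    ∃ k, (φ h - algebraMap ℂ A (eval χ h)) ^ k * a = 0 := by
  have key : ∀ x : A, x ∈ (Ideal.torsionOf A A a).radical ↔ ∃ k, x ^ k * a = 0 := fun x => by
    simp [Ideal.mem_radical_iff, Ideal.mem_torsionOf_iff]
  rw [← key]
  induction h using MvPolynomial.induction_on with
  | C c => simp [← algebraMap_eq]
  | add p q hp hq =>
    have := Ideal.add_mem _ hp hq
    rw [map_add, map_add, map_add]
    convert this using 1
    ring
  | mul_X p i hp =>
    have := Ideal.add_mem _ (Ideal.mul_mem_right (φ (X i)) _ hp)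
      (Ideal.mul_mem_left _ (algebraMap ℂ A (eval χ p)) ((key _).2 (ha i)))
    rw [map_mul, map_mul, map_mul, eval_X]
    convert this using 1
    ring

theorem spectral [FiniteDimensional ℂ A] (φ : MvPolynomial σ ℂ →ₐ[ℂ] A) :
    ∃ z : Fin (finrank ℂ A) → σ → ℂ,
      (∀ h, LinearMap.trace ℂ A (Algebra.lmul ℂ A (φ h)) = ∑ i, eval (z i) h) ∧
      (∀ i h, φ h = 0 → eval (z i) h = 0) ∧
      ∀ x : σ → ℂ, (∀ h, φ h = 0 → eval x h = 0) → ∃ i, z i = x := by
  classical
  let V : (σ → ℂ) → Submodule ℂ A := fun χ =>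
    ⨅ i, End.maxGenEigenspace (Algebra.lmul ℂ A (φ (X i))) (χ i)
  have hV : ∀ χ a, a ∈ V χ ↔ ∀ i, ∃ k, (φ (X i) - algebraMap ℂ A (χ i)) ^ k * a = 0 := by
    intro χ a
    simp only [V, End.mem_iInf_maxGenEigenspace_iff, lmul_pow_apply]
  have hc : ∀ x y : A, Commute (Algebra.lmul ℂ A x) (Algebra.lmul ℂ A y) := fun x y =>
    (Commute.all x y).map _
  have hind : iSupIndep V := End.independent_iInf_maxGenEigenspace_of_forall_mapsTo _
    fun i j μ => End.mapsTo_maxGenEigenspace_of_comm (hc _ _) μ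
  have htop : ⨆ χ, V χ = ⊤ :=
    End.iSup_iInf_maxGenEigenspace_eq_top_of_iSup_maxGenEigenspace_eq_top_of_commute _
      (fun i j _ => hc _ _) fun i => End.iSup_maxGenEigenspace_eq_top _
  have hint := DirectSum.isInternal_submodule_of_iSupIndep_of_iSup_eq_top hind htop
  have hfin : {χ | V χ ≠ ⊥}.Finite := WellFoundedGT.finite_ne_bot_of_iSupIndep hind
  have hmap : ∀ (x : A) χ, Set.MapsTo (Algebra.lmul ℂ A x) (V χ) (V χ) := by
    intro x χ a ha
    rw [SetLike.mem_coe, hV] at ha ⊢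
    intro i
    obtain ⟨k, hk⟩ := ha i
    refine ⟨k, ?_⟩
    show _ * (x * a) = 0
    rw [mul_left_comm, hk, mul_zero]
  have htr : ∀ h, LinearMap.trace ℂ A (Algebra.lmul ℂ A (φ h)) =
      ∑ χ ∈ hfin.toFinset, (finrank ℂ (V χ) : ℂ) * eval χ h := by
    intro h
    rw [LinearMap.trace_eq_sum_trace_restrict' hint hfin (hmap (φ h))]
    refine sum_congr rfl fun χ _ => ?_
    have h1 : IsNilpotent ((Algebra.lmul ℂ A (φ h - algebraMap ℂ A (eval χ h))).restrict
        (hmap _ χ)) := by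
      rw [End.isNilpotent_iff_of_finite]
      intro a
      obtain ⟨k, hk⟩ := nil_of_mem φ χ a ((hV χ a).1 a.2) h
      refine ⟨k, Subtype.ext ?_⟩
      erw [End.pow_restrict, LinearMap.coe_restrict_apply, ← map_pow]
      exact hk
    have h2 : (Algebra.lmul ℂ A (φ h)).restrict (hmap _ χ) =
        (Algebra.lmul ℂ A (φ h - algebraMap ℂ A (eval χ h))).restrict (hmap _ χ) +
          eval χ h • LinearMap.id := by
      ext a
      simp [Algebra.smul_def]
    rw [h2, map_add, (LinearMap.isNilpotent_trace_of_isNilpotent h1).eq_zero, map_smul,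
      LinearMap.trace_id, zero_add, smul_eq_mul, mul_comm]
  have hcard : Fintype.card (Σ χ : hfin.toFinset, Fin (finrank ℂ (V χ))) = finrank ℂ A := by
    have h1 := htr 1
    simp only [map_one, LinearMap.trace_one, mul_one] at h1
    rw [Fintype.card_sigma]
    simp only [Fintype.card_fin]
    rw [sum_coe_sort hfin.toFinset fun χ => finrank ℂ (V χ)]
    exact_mod_cast h1.symm
  let e := Fintype.equivFinOfCardEq hcard
  have hne : ∀ i, V (e.symm i).1 ≠ ⊥ := fun i => hfin.mem_toFinset.1 (e.symm i).1.2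
  refine ⟨fun i => (e.symm i).1, fun h => ?_, fun i h h0 => ?_, fun x hx => ?_⟩
  · rw [htr, e.symm.sum_comp fun p => eval (p.1 : σ → ℂ) h, Fintype.sum_sigma,
      ← sum_coe_sort hfin.toFinset]
    simp
  · obtain ⟨a, ha, ha0⟩ := Submodule.exists_mem_ne_zero_of_ne_bot (hne i)
    obtain ⟨k, hk⟩ := nil_of_mem φ _ a ((hV _ a).1 ha) h
    rw [h0, zero_sub, ← map_neg, ← map_pow, ← Algebra.smul_def, smul_eq_zero] at hk
    simpa using (pow_eq_zero_iff'.1 (hk.resolve_right ha0)).1
  · by_contra hne'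
    push Not at hne'
    choose j hj using fun i => Function.ne_iff.1 (hne' i)
    let h : MvPolynomial σ ℂ := ∏ i, (X (j i) - C (((e.symm i).1 : σ → ℂ) (j i)))
    have h1 : (⊤ : Submodule ℂ A) ≤ End.maxGenEigenspace (Algebra.lmul ℂ A (φ h)) 0 := by
      rw [← htop]
      refine iSup_le fun χ a ha => ?_
      by_cases hχ : V χ = ⊥
      · rw [hχ, Submodule.mem_bot] at ha
        rw [ha]
        exact Submodule.zero_mem _
      · have hpos : 0 < finrank ℂ (V χ) := Nat.pos_of_ne_zero fun h0 =>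
          hχ (Submodule.finrank_eq_zero.1 h0)
        obtain ⟨k, hk⟩ := nil_of_mem φ χ a ((hV _ a).1 ha) h
        have h2 : eval χ h = 0 := by
          rw [map_prod]
          refine prod_eq_zero (mem_univ (e ⟨⟨χ, hfin.mem_toFinset.2 hχ⟩, ⟨0, hpos⟩⟩)) ?_
          simp
        rw [End.mem_maxGenEigenspace]
        exact ⟨k, by rw [lmul_pow_apply, ← h2]; exact hk⟩
    obtain ⟨k, hk⟩ := (End.mem_maxGenEigenspace _ _ _).1 (h1 (Submodule.mem_top (x := 1)))
    rw [lmul_pow_apply, map_zero, sub_zero, mul_one, ← map_pow] at hk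
    have h3 := hx _ hk
    rw [map_pow, map_prod] at h3
    obtain ⟨i, -, hi⟩ := prod_eq_zero_iff.1 (pow_eq_zero_iff'.1 h3).1
    simp only [map_sub, eval_X, eval_C, sub_eq_zero] at hi
    exact hj i hi.symm

end Vale.Agent.P337
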