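import Vale.Agent.P337.Poly
import Vale.Agent.P337.Norm
import Mathlib.Algebra.MvPolynomial.PDeriv
import Mathlib.Analysis.Calculus.LocalExtr.Basic
import Mathlib.Topology.Algebra.MvPolynomial

/-! Effective reduction of real feasibility to a bounded minimisation problem. -/

namespace Vale.Agent.P337

open Finset MvPolynomial

structure Good {n : ℕ} (A d : ℕ) (P : MvPolynomial (Fin n) ℤ) : Prop where
  deg : P.totalDegree ≤ d
  bd : ∀ (z : Fin n → ℂ) (R : ℝ), 1 ≤ R → (∀ i, ‖z i‖ ≤ R) → ‖aeval z P‖ ≤ A * R ^ d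

def Good2 {n : ℕ} (A d : ℕ) (P : MvPolynomial (Fin n) ℤ) : Prop :=
  Good A d P ∧ ∀ i, Good (d * A) d (pderiv i P)

variable {n : ℕ}

theorem Good.mono {A A' d d' : ℕ} {P : MvPolynomial (Fin n) ℤ} (h : Good A d P) (hA : A ≤ A')
    (hd : d ≤ d') : Good A' d' P :=
  ⟨h.deg.trans hd, fun z R hR hz => (h.bd z R hR hz).trans
    (mul_le_mul (by exact_mod_cast hA) (pow_le_pow_right₀ hR hd) (by positivity) (by positivity))⟩

theorem Good.add {A A' d : ℕ} {P Q : MvPolynomial (Fin n) ℤ} (h : Good A d P) (h' : Good A' d Q) :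
    Good (A + A') d (P + Q) :=
  ⟨(totalDegree_add _ _).trans (max_le h.deg h'.deg), fun z R hR hz => by
    rw [map_add, Nat.cast_add, add_mul]
    exact (norm_add_le _ _).trans (add_le_add (h.bd z R hR hz) (h'.bd z R hR hz))⟩

theorem Good.mul {A A' d d' : ℕ} {P Q : MvPolynomial (Fin n) ℤ} (h : Good A d P)
    (h' : Good A' d' Q) : Good (A * A') (d + d') (P * Q) :=
  ⟨(totalDegree_mul _ _).trans (add_le_add h.deg h'.deg), fun z R hR hz => by
    rw [map_mul, norm_mul, Nat.cast_mul, pow_add, mul_mul_mul_comm]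
    exact mul_le_mul (h.bd z R hR hz) (h'.bd z R hR hz) (norm_nonneg _) (by positivity)⟩

theorem Good.C (c : ℤ) : Good c.natAbs 0 (C c : MvPolynomial (Fin n) ℤ) :=
  ⟨(totalDegree_C _).le, fun z R _ _ => by simp⟩

theorem Good.X (i : Fin n) : Good 1 1 (X i : MvPolynomial (Fin n) ℤ) :=
  ⟨(totalDegree_X _).le, fun z R _ hz => by simpa using hz i⟩

theorem Good2.mono {A A' d d' : ℕ} {P : MvPolynomial (Fin n) ℤ} (h : Good2 A d P) (hA : A ≤ A')
    (hd : d ≤ d') : Good2 A' d' P :=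
  ⟨h.1.mono hA hd, fun i => (h.2 i).mono (Nat.mul_le_mul hd hA) hd⟩

theorem Good2.add {A A' d : ℕ} {P Q : MvPolynomial (Fin n) ℤ} (h : Good2 A d P)
    (h' : Good2 A' d Q) : Good2 (A + A') d (P + Q) :=
  ⟨h.1.add h'.1, fun i => by rw [map_add, mul_add]; exact (h.2 i).add (h'.2 i)⟩

theorem Good2.mul {A A' d d' : ℕ} {P Q : MvPolynomial (Fin n) ℤ} (h : Good2 A d P)
    (h' : Good2 A' d' Q) : Good2 (A * A') (d + d') (P * Q) :=
  ⟨h.1.mul h'.1, fun i => by
    rw [pderiv_mul]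
    exact (((h.2 i).mul h'.1).add (h.1.mul (h'.2 i))).mono (le_of_eq (by ring)) le_rfl⟩

theorem Good2.C (c : ℤ) : Good2 c.natAbs 0 (C c : MvPolynomial (Fin n) ℤ) :=
  ⟨Good.C c, fun i => by simpa using Good.C (n := n) 0⟩

theorem Good2.X (i : Fin n) : Good2 1 1 (X i : MvPolynomial (Fin n) ℤ) :=
  ⟨Good.X i, fun j => by
    classical
    rw [pderiv_X, Pi.single_apply]
    split_ifs
    · simpa using (Good.C (n := n) 1).mono le_rfl (Nat.zero_le 1)
    · simpa using (Good.C (n := n) 0).mono (Nat.zero_le 1) (Nat.zero_le 1)⟩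

theorem Good2.pow {A d : ℕ} {P : MvPolynomial (Fin n) ℤ} (h : Good2 A d P) (k : ℕ) :
    Good2 (A ^ k) (k * d) (P ^ k) := by
  induction k with
  | zero => simpa using Good2.C (n := n) 1
  | succ k ih => rw [pow_succ, pow_succ, Nat.succ_mul]; exact ih.mul h

theorem sol_le {z : Fin n → ℂ} {N : ℕ} {A : ℝ} (hN : 1 ≤ N) (hA : 1 ≤ A)
    (h : ∀ R : ℝ, 1 ≤ R → (∀ j, ‖z j‖ ≤ R) → ∀ i, ‖z i‖ ^ N ≤ A * R ^ (N - 1)) (i : Fin n) :
    ‖z i‖ ≤ A := by
  obtain ⟨j, -, hj⟩ := exists_max_image univ (fun j => ‖z j‖) ⟨i, mem_univ i⟩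
  refine (hj i (mem_univ i)).trans (not_lt.1 fun hlt => ?_)
  have h1 := h ‖z j‖ (by linarith) (fun k => hj k (mem_univ k)) j
  obtain ⟨M, rfl⟩ : ∃ M, N = M + 1 := ⟨N - 1, by omega⟩
  rw [pow_succ', Nat.add_sub_cancel] at h1
  have h2 : 0 < ‖z j‖ ^ M := pow_pos (by linarith) _
  nlinarith

theorem aeval_ofReal (x : Fin n → ℝ) (P : MvPolynomial (Fin n) ℤ) :
    aeval (fun i => (x i : ℂ)) P = ((aeval x P : ℝ) : ℂ) :=
  (comp_aeval_apply x Complex.ofRealHom.toIntAlgHom P).symm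

theorem hasDerivAt_aeval (x : Fin n → ℝ) (i : Fin n) (P : MvPolynomial (Fin n) ℤ) :
    HasDerivAt (fun s : ℝ => aeval (x + s • (Pi.single i 1 : Fin n → ℝ)) P)
      (aeval x (pderiv i P)) 0 := by
  classical
  induction P using MvPolynomial.induction_on with
  | C c => simpa using hasDerivAt_const (0 : ℝ) (c : ℝ)
  | add p q hp hq =>
    simp only [map_add]
    exact hp.add hq
  | mul_X p j hp =>
    have h1 : HasDerivAt (fun s : ℝ => x j + s * (Pi.single i 1 : Fin n → ℝ) j)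
        ((Pi.single i 1 : Fin n → ℝ) j) 0 := by
      simpa using ((hasDerivAt_id (0 : ℝ)).mul_const ((Pi.single i 1 : Fin n → ℝ) j)).const_add (x j)
    have h2 := hp.mul h1
    have h3 : aeval x (pderiv i (p * X j)) = aeval x (pderiv i p) *
        (x j + 0 * (Pi.single i 1 : Fin n → ℝ) j) +
        aeval (x + (0 : ℝ) • (Pi.single i 1 : Fin n → ℝ)) p * (Pi.single i 1 : Fin n → ℝ) j := by
      rw [pderiv_mul, pderiv_X]
      by_cases h : j = i <;> simp [h, Pi.single_apply, eq_comm]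
    rw [h3]
    simp only [map_mul, aeval_X]
    exact h2

theorem continuous_aeval (P : MvPolynomial (Fin n) ℤ) :
    Continuous fun x : Fin n → ℝ => aeval x P := by
  simp only [aeval_def, eval₂_eq_eval_map]
  exact continuous_eval _

/-- The objective function. -/
noncomputable def obj {S : Type} [CommRing S] (m : ℕ) (F : MvPolynomial (Fin n) ℤ) (t : S)
    (x : Fin n → S) : S := t * m * aeval x F + ∑ i, x i ^ m

theorem obj_ofReal (m : ℕ) (F : MvPolynomial (Fin n) ℤ) (t : ℝ) (x : Fin n → ℝ) :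
    obj m F (t : ℂ) (fun i => (x i : ℂ)) = ((obj m F t x : ℝ) : ℂ) := by
  simp [obj, aeval_ofReal]

theorem norm_le_of_sum {m : ℕ} (hm : 1 ≤ m) (hev : Even m) {x : Fin n → ℝ} {c : ℝ} (hc : 0 ≤ c)
    (h : ∑ i, x i ^ m ≤ c) : ‖x‖ ≤ c + 1 := by
  refine (pi_norm_le_iff_of_nonneg (by linarith)).2 fun i => ?_
  have h1 := (single_le_sum (f := fun i => x i ^ m) (fun j _ => hev.pow_nonneg _) (mem_univ i)).trans h
  rw [← hev.pow_abs] at h1
  rw [Real.norm_eq_abs]
  by_contra h2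
  have := le_self_pow₀ (show 1 ≤ |x i| by linarith) (show m ≠ 0 by omega)
  linarith

theorem exists_min {m : ℕ} (hm : 1 ≤ m) (hev : Even m) {F : MvPolynomial (Fin n) ℤ}
    (hpos : ∀ x : Fin n → ℝ, 0 ≤ aeval x F) {t : ℝ} (ht : 0 ≤ t) :
    ∃ x : Fin n → ℝ, (∀ y, obj m F t x ≤ obj m F t y) ∧
      ∀ i, x i ^ (m - 1) = -t * aeval x (pderiv i F) := by
  classical
  have h0 : ∀ y, ∑ i, y i ^ m ≤ obj m F t y := fun y =>
    le_add_of_nonneg_left (mul_nonneg (by positivity) (hpos y))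
  have h1 : 0 ≤ obj m F t 0 := (sum_nonneg fun _ _ => hev.pow_nonneg _).trans (h0 0)
  have hc : Continuous fun x : Fin n → ℝ => obj m F t x := by
    have := continuous_aeval F
    unfold obj
    fun_prop
  obtain ⟨x, -, hx⟩ := (isCompact_closedBall (0 : Fin n → ℝ) (obj m F t 0 + 1)).exists_isMinOn
    ⟨0, Metric.mem_closedBall_self (by linarith)⟩ hc.continuousOn
  have h2 : ∀ y, obj m F t x ≤ obj m F t y := by
    intro y
    by_contra h3
    have h4 : obj m F t x ≤ obj m F t 0 := hx (Metric.mem_closedBall_self (by linarith))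
    exact h3 (hx (mem_closedBall_zero_iff.2 (norm_le_of_sum hm hev h1 (by linarith [h0 y]))))
  refine ⟨x, h2, fun i => ?_⟩
  have h3 := hasDerivAt_aeval x i (∑ j, X j ^ m)
  have h4 := ((hasDerivAt_aeval x i F).const_mul (t * m)).add h3
  have h5 := IsLocalMin.hasDerivAt_eq_zero (Filter.Eventually.of_forall fun s => by
    simpa [obj] using h2 (x + s • (Pi.single i 1 : Fin n → ℝ))) h4
  have h6 : aeval x (pderiv i (∑ j, X j ^ m : MvPolynomial (Fin n) ℤ)) = m * x i ^ (m - 1) := by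
    rw [map_sum, map_sum, sum_eq_single i]
    · simp
    · intro j _ hj
      simp [pderiv_X, hj]
    · simp
  rw [h6] at h5
  have h7 : (m : ℝ) ≠ 0 := by exact_mod_cast (show m ≠ 0 by omega)
  exact mul_left_cancel₀ h7 (by linarith)

theorem int_poly_ge_one {P : Polynomial ℤ} (hP : P ≠ 0) {H : ℝ}
    (h : ∀ z : ℂ, ‖z‖ = 1 → ‖P.eval₂ (algebraMap ℤ ℂ) z‖ ≤ H) {y : ℂ} (hy : H + 2 < ‖y‖) :
    1 ≤ ‖P.eval₂ (algebraMap ℤ ℂ) y‖ := by
  have hinj : Function.Injective (algebraMap ℤ ℂ) := Int.cast_injective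
  by_cases h0 : P.natDegree = 0
  · rw [Polynomial.eq_C_of_natDegree_eq_zero h0] at hP ⊢
    rw [Polynomial.eval₂_C]
    exact one_le_norm_int fun h1 => hP (by rw [h1, map_zero])
  by_contra h1
  have h2 := coeff_le_circle (P.map (algebraMap ℤ ℂ)) (C := H)
    fun z hz => by rw [Polynomial.eval_map]; exact h z hz
  have h3 := root_le (P := P.map (algebraMap ℤ ℂ) - Polynomial.C (P.eval₂ (algebraMap ℤ ℂ) y))
    (C := H + 1) (t := y) (by
      rw [Polynomial.leadingCoeff_sub_of_degree_lt, Polynomial.leadingCoeff_map_of_injective hinj]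
      · exact one_le_norm_int (Polynomial.leadingCoeff_ne_zero.2 hP)
      · rw [Polynomial.degree_map_eq_of_injective hinj]
        exact Polynomial.degree_C_le.trans_lt
          (Polynomial.natDegree_pos_iff_degree_pos.1 (Nat.pos_of_ne_zero h0)))
    (fun k => by
      rw [Polynomial.coeff_sub]
      refine (norm_sub_le _ _).trans (add_le_add (h2 k) ?_)
      rw [Polynomial.coeff_C]
      split_ifs
      · exact (not_le.1 h1).le
      · simp) (by rw [Polynomial.eval_sub, Polynomial.eval_map, Polynomial.eval_C, sub_self])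
  linarith

/-- The partial derivative with respect to a variable given by its number. -/
noncomputable def pd (i : ℕ) (F : MvPolynomial (Fin n) ℤ) : MvPolynomial (Fin n) ℤ :=
  if h : i < n then pderiv ⟨i, h⟩ F else 0

theorem pd_coe (i : Fin n) (F : MvPolynomial (Fin n) ℤ) : pd i F = pderiv i F := dif_pos i.2

def cfac (D : ℕ) : ℕ := D.factorial ^ (D + 1)

theorem one_le_cfac (D : ℕ) : 1 ≤ cfac D := Nat.one_le_pow _ _ D.factorial_pos

theorem root_param {A d m V : ℕ} {F : MvPolynomial (Fin n) ℤ} (hF : Good2 A d F) (hm : d + 2 ≤ m)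
    (hA : 1 ≤ d * A) (hV : m * A * (d * A) ^ d + n * (d * A) ^ m ≤ V) {t y : ℝ} {x : Fin n → ℝ}
    (hx : ∀ i, x i ^ (m - 1) = -t * aeval x (pderiv i F)) (hy : obj m F t x = y)
    (hy1 : cfac ((m - 1) ^ n) * (1 + V) ^ (m - 1) ^ n + 2 < y) :
    t ≤ cfac ((m - 1) ^ n) * (y + V) ^ (m - 1) ^ n + 1 := by
  classical
  obtain ⟨χ, hχ⟩ : ∃ χ : Polynomial (Polynomial ℤ), ∀ t y : ℂ, ∃ z : Fin ((m - 1) ^ n) → Fin n → ℂ,
      (∀ x, (∃ j, z j = x) ↔ ∀ i : Fin n, x i ^ (m - 1) = -t * aeval x (pderiv i F)) ∧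
      (χ.map (Polynomial.eval₂RingHom (algebraMap ℤ ℂ) y)).eval t =
        cfac ((m - 1) ^ n) * ∏ j, (y - obj m F t (z j)) := by
    let r : ℕ → MvPolynomial (Fin n) (Polynomial (Polynomial ℤ)) := fun i =>
      C (-Polynomial.X) * map (algebraMap ℤ _) (pd i F)
    have hr : ∀ i < n, (r i).totalDegree < m - 1 := fun i hi => by
      have h1 := (totalDegree_map_le (algebraMap ℤ (Polynomial (Polynomial ℤ))) (pd i F)).trans
        (show _ ≤ d by rw [pd, dif_pos hi]; exact (hF.2 _).deg)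
      have h2 := totalDegree_mul (C (-Polynomial.X : Polynomial (Polynomial ℤ))) (map (algebraMap ℤ (Polynomial (Polynomial ℤ)))
        (pd i F))
      rw [totalDegree_C] at h2
      dsimp only [r]
      omega
    refine ⟨nm (m - 1) (fun i => map (RingHom.id _) (r i)) m (C (Polynomial.C (Polynomial.X : Polynomial ℤ)) -
      (C (Polynomial.X * m) * map (algebraMap ℤ _) F + ∑ i, X i ^ m)), fun t y => ?_⟩
    let ψ : Polynomial (Polynomial ℤ) →+* ℂ :=
      Polynomial.eval₂RingHom (Polynomial.eval₂RingHom (algebraMap ℤ ℂ) y) t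
    have hψ : ∀ (x : Fin n → ℂ) (P : MvPolynomial (Fin n) ℤ),
        eval₂ ψ x (map (algebraMap ℤ _) P) = aeval x P := fun x P => by
      rw [eval₂_map, aeval_def, Subsingleton.elim (ψ.comp _) (algebraMap ℤ ℂ)]
    obtain ⟨z, h1, h2⟩ := exists_points' (by omega) hr ψ
    refine ⟨z, fun x => ?_, ?_⟩
    · rw [h1]
      refine forall_congr' fun i => ?_
      simp only [r, eval₂_mul, eval₂_C, hψ, pd_coe]
      simp [ψ]
    · rw [Polynomial.eval_map]
      refine (h2 _ (RingHom.id _) ψ rfl m _ ?_).trans ?_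
      · refine (totalDegree_sub _ _).trans (max_le (by simp) ((totalDegree_add _ _).trans
          (max_le ((totalDegree_mul _ _).trans ?_) (totalDegree_finsetSum_le fun i _ => ?_))))
        · have := (totalDegree_map_le (algebraMap ℤ (Polynomial (Polynomial ℤ))) F).trans hF.1.deg
          rw [totalDegree_C]
          omega
        · exact (totalDegree_X_pow _ _).le
      · simp only [cfac, eval₂_sub, eval₂_add, eval₂_mul, eval₂_C, hψ, eval₂_sum, eval₂_pow, eval₂_X,
          obj]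
        simp [ψ]
  have hA' : (1 : ℝ) ≤ (d * A : ℕ) := by exact_mod_cast hA
  have hz : ∀ t : ℂ, ‖t‖ = 1 → ∀ z : Fin n → ℂ,
      (∀ i : Fin n, z i ^ (m - 1) = -t * aeval z (pderiv i F)) → ‖obj m F t z‖ ≤ V := by
    intro t ht z h
    have h1 := sol_le (z := z) (N := m - 1) (by omega) hA' fun R hR hz i => by
      rw [← norm_pow, h, norm_mul, norm_neg, ht, one_mul]
      exact ((hF.2 i).mono le_rfl (by omega)).bd z R hR hz
    have h2 : ‖∑ i, z i ^ m‖ ≤ n * ((d * A : ℕ) : ℝ) ^ m := by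
      refine (norm_sum_le _ _).trans ((sum_le_card_nsmul _ _ (((d * A : ℕ) : ℝ) ^ m) fun i _ => ?_).trans
        (by simp))
      rw [norm_pow]
      exact pow_le_pow_left₀ (norm_nonneg _) (h1 i) _
    have h3 := mul_le_mul_of_nonneg_left (hF.1.bd z _ hA' h1) (Nat.cast_nonneg m)
    have h4 : ((m * A * (d * A) ^ d + n * (d * A) ^ m : ℕ) : ℝ) ≤ V := by exact_mod_cast hV
    refine (norm_add_le _ _).trans ?_
    rw [norm_mul, norm_mul, ht, one_mul, Complex.norm_natCast]
    push_cast at h2 h3 h4 ⊢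
    linarith
  have hco : ∀ (y : ℂ) k, ‖(χ.map (Polynomial.eval₂RingHom (algebraMap ℤ ℂ) y)).coeff k‖ ≤
      cfac ((m - 1) ^ n) * (‖y‖ + V) ^ (m - 1) ^ n := fun y => coeff_le_circle _ fun t ht => by
    obtain ⟨z, h1, h2⟩ := hχ t y
    rw [h2, norm_mul, Complex.norm_natCast]
    refine mul_le_mul_of_nonneg_left ((norm_prod_le_pow _ _ fun j _ => ?_).trans (by simp; rfl))
      (Nat.cast_nonneg _)
    exact (norm_sub_le _ _).trans (add_le_add_right (hz t ht _ ((h1 _).1 ⟨j, rfl⟩)) _)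
  have hχ0 : χ ≠ 0 := by
    rintro rfl
    obtain ⟨z, h1, h2⟩ := hχ 1 (V + 1 : ℕ)
    rw [Polynomial.map_zero, Polynomial.eval_zero, eq_comm, mul_eq_zero, prod_eq_zero_iff] at h2
    rcases h2 with h2 | ⟨j, -, h2⟩
    · have := one_le_cfac ((m - 1) ^ n)
      rw [Nat.cast_eq_zero] at h2
      omega
    · have := hz 1 norm_one _ ((h1 _).1 ⟨j, rfl⟩)
      rw [← sub_eq_zero.1 h2, Complex.norm_natCast] at this
      push_cast at this
      linarith
  have hy0 : 0 ≤ y := le_trans (by positivity) hy1.le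
  have hyn : ‖(y : ℂ)‖ = y := by rw [Complex.norm_real, Real.norm_of_nonneg hy0]
  have h1 := int_poly_ge_one (Polynomial.leadingCoeff_ne_zero.2 hχ0)
    (H := cfac ((m - 1) ^ n) * (1 + V) ^ (m - 1) ^ n) (y := y) (fun z hz => by
      have := hco z χ.natDegree
      rwa [Polynomial.coeff_map, hz] at this) (by rwa [hyn])
  have h2 := root_le (P := χ.map (Polynomial.eval₂RingHom (algebraMap ℤ ℂ) y)) (t := t) (by
    rw [Polynomial.leadingCoeff_map_of_leadingCoeff_ne_zero]
    · exact h1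
    · intro h0
      rw [Polynomial.coe_eval₂RingHom] at h0
      rw [h0, norm_zero] at h1
      linarith) (hco y) (by
    obtain ⟨z, h3, h4⟩ := hχ t y
    obtain ⟨j, hj⟩ := (h3 fun i => x i).2 fun i => by
      rw [aeval_ofReal]
      exact_mod_cast hx i
    rw [h4, prod_eq_zero (mem_univ j), mul_zero]
    rw [hj, obj_ofReal, hy, sub_self])
  rw [hyn, Complex.norm_real] at h2
  exact (le_abs_self t).trans h2

theorem stage1 {A d m V B T : ℕ} {F : MvPolynomial (Fin n) ℤ} (hF : Good2 A d F)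
    (hpos : ∀ x : Fin n → ℝ, 0 ≤ aeval x F) (hm : d + 2 ≤ m) (hev : Even m) (hA : 1 ≤ d * A)
    (hV : m * A * (d * A) ^ d + n * (d * A) ^ m ≤ V)
    (hB : cfac ((m - 1) ^ n) * (1 + V) ^ (m - 1) ^ n + 2 ≤ B)
    (hT : cfac ((m - 1) ^ n) * (B + 1 + V) ^ (m - 1) ^ n + 1 < T) :
    ((∃ x : Fin n → ℝ, aeval x F = 0) → ∃ x : Fin n → ℝ, obj m F (T : ℝ) x ≤ B ∧
      ∀ i, x i ^ (m - 1) = -T * aeval x (pderiv i F)) ∧
    ((∀ x : Fin n → ℝ, aeval x F ≠ 0) → ∀ x : Fin n → ℝ, B < obj m F (T : ℝ) x) := by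
  have hm1 : 1 ≤ m := by omega
  choose X hX1 hX2 using fun t : NNReal => exists_min hm1 hev hpos t.2
  have hB' : (cfac ((m - 1) ^ n) * (1 + V) ^ (m - 1) ^ n + 2 : ℝ) ≤ B := by exact_mod_cast hB
  have hT' : (cfac ((m - 1) ^ n) * (B + 1 + V) ^ (m - 1) ^ n + 1 : ℝ) < T := by exact_mod_cast hT
  have hroot : ∀ (t : NNReal) (c : ℝ), B < obj m F (t : ℝ) (X t) → obj m F (t : ℝ) (X t) ≤ c →
      (t : ℝ) ≤ cfac ((m - 1) ^ n) * (c + V) ^ (m - 1) ^ n + 1 := by
    intro t c h1 h2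
    refine (root_param hF hm hA hV (hX2 t) rfl (hB'.trans_lt h1)).trans ?_
    have : (0 : ℝ) ≤ obj m F (t : ℝ) (X t) := le_trans (by positivity) h1.le
    gcongr
    exact h2
  have hsum : ∀ x : Fin n → ℝ, 0 ≤ ∑ i, x i ^ m := fun x => sum_nonneg fun _ _ => hev.pow_nonneg _
  constructor
  · rintro ⟨x₀, hx₀⟩
    refine ⟨X T, not_lt.1 fun h => ?_, hX2 T⟩
    let t : NNReal := T + ⟨cfac ((m - 1) ^ n) * (∑ i, x₀ i ^ m + V) ^ (m - 1) ^ n + 2, by
      have := hsum x₀
      positivity⟩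
    have h1 : obj m F (T : ℝ) (X t) ≤ obj m F (t : ℝ) (X t) := by
      unfold obj
      have := hpos (X t)
      gcongr
      exact_mod_cast (le_self_add : (T : NNReal) ≤ t)
    have h2 := hroot t (∑ i, x₀ i ^ m) (h.trans_le ((hX1 T _).trans h1))
      ((hX1 t x₀).trans (by simp [obj, hx₀]))
    have h3 : (t : ℝ) = T + (cfac ((m - 1) ^ n) * (∑ i, x₀ i ^ m + V) ^ (m - 1) ^ n + 2) := rfl
    have h4 : (0 : ℝ) ≤ T := by positivity
    linarith
  · intro hne x
    refine lt_of_lt_of_le (not_le.1 fun h => ?_) (hX1 T x)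
    have hB0 : (0 : ℝ) < B := lt_of_lt_of_le (by positivity) hB'
    have hT0 : (0 : ℝ) < T := lt_trans (by positivity) hT'
    let q : NNReal := ⟨1 + 1 / B, by positivity⟩
    have hq : (1 : ℝ) < q := by
      show (1 : ℝ) < 1 + 1 / B
      have : (0 : ℝ) < 1 / B := by positivity
      linarith
    have key : ∀ k : ℕ, obj m F ((T * q ^ k : NNReal) : ℝ) (X (T * q ^ k)) ≤ B := by
      intro k
      induction k with
      | zero => simpa using h
      | succ k ih =>
        by_contra h1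
        have h2 : obj m F ((T * q ^ (k + 1) : NNReal) : ℝ) (X (T * q ^ k)) ≤
            q * obj m F ((T * q ^ k : NNReal) : ℝ) (X (T * q ^ k)) := by
          have := hsum (X (T * q ^ k))
          unfold obj
          push_cast
          rw [pow_succ]
          nlinarith
        have h3 : (q : ℝ) * B = B + 1 := by
          show (1 + 1 / (B : ℝ)) * B = B + 1
          field_simp
        have h4 := hroot _ (B + 1) (not_le.1 h1) ((hX1 _ _).trans (h2.trans (by
          rw [← h3]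
          exact mul_le_mul_of_nonneg_left ih q.2)))
        have h5 : (T : ℝ) ≤ ((T * q ^ (k + 1) : NNReal) : ℝ) := by
          push_cast
          exact le_mul_of_one_le_right hT0.le (one_le_pow₀ hq.le)
        linarith
    obtain ⟨x₁, -, hx₁⟩ := (isCompact_closedBall (0 : Fin n → ℝ) (B + 1)).exists_isMinOn
      ⟨0, Metric.mem_closedBall_self (by linarith)⟩ (continuous_aeval F).continuousOn
    have h1 : 0 < aeval x₁ F := lt_of_le_of_ne (hpos _) (hne _).symm
    obtain ⟨k, hk⟩ := pow_unbounded_of_one_lt (B / (T * m * aeval x₁ F)) hq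
    have hm' : (0 : ℝ) < m := by exact_mod_cast hm1
    rw [div_lt_iff₀ (by positivity)] at hk
    have h2 := key k
    have h3 := hsum (X (T * q ^ k))
    have h4 := hpos (X (T * q ^ k))
    unfold obj at h2
    have h5 : aeval x₁ F ≤ aeval (X (T * q ^ k)) F := hx₁ (mem_closedBall_zero_iff.2
      (norm_le_of_sum hm1 hev hB0.le (le_trans (le_add_of_nonneg_left (by positivity)) h2)))
    push_cast at h2
    have h6 : (T : ℝ) * q ^ k * m * aeval x₁ F ≤ T * q ^ k * m * aeval (X (T * q ^ k)) F := by gcongr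
    linarith

end Vale.Agent.P337
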