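import Vale.Agent.P337.Poly

/-! An algebraic test for the existence of a real root. -/

namespace Vale.Agent.P337

open Finset Polynomial

section

variable {S : Type} [CommRing S] (f : ℤ[X]) (W M : ℕ) (y : ℕ → ℤ)

noncomputable def hnum (s : ℕ) (u ι : S) : S :=
  ∑ j ∈ range W, (s : S) ^ j * aeval (u + y j * ι) f ^ M *
    ∏ i ∈ range W, if i = j then 1 else aeval (u - y i * ι) f ^ M

noncomputable def hden (u ι : S) : S := ∏ j ∈ range W, aeval (u - y j * ι) f ^ M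

variable {S' : Type} [CommRing S'] (φ : S →+* S')

theorem map_aeval_int (x : S) : φ (aeval x f) = aeval (φ x) f :=
  (aeval_algHom_apply φ.toIntAlgHom x f).symm

theorem map_hnum (s : ℕ) (u ι : S) : φ (hnum f W M y s u ι) = hnum f W M y s (φ u) (φ ι) := by
  simp [hnum, map_aeval_int, apply_ite φ]

theorem map_hden (u ι : S) : φ (hden f W M y u ι) = hden f W M y (φ u) (φ ι) := by
  simp [hden, map_aeval_int]

end

theorem sq_lt_iff (K : ℕ) (a b : ℤ) : (K : ℤ) ^ 2 * a ^ 2 < b ^ 2 ↔ K * ‖(a : ℂ)‖ < ‖(b : ℂ)‖ := by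
  rw [← mul_pow, sq_lt_sq, Complex.norm_intCast, Complex.norm_intCast, abs_mul, Nat.abs_cast]
  norm_cast

theorem final_yes {D R Kc : ℕ} {c : ℂ} {num den : Fin D → ℂ} {P : ℕ → ℤ}
    (hP : ∀ y : ℕ, (P y : ℂ) = c * ∏ j, (num j - y * den j)) {j : Fin D}
    (hj : ‖num j‖ ≤ R * ‖den j‖) (hK : (D + 1) * (R + D + 1) ^ (D + 1) < Kc) :
    ¬ ∀ y < D + 1, (Kc : ℤ) ^ 2 * (P y - P 0) ^ 2 < P 0 ^ 2 := by
  intro h
  simp only [sq_lt_iff] at h
  have h0 : 0 < ‖(P 0 : ℂ)‖ := by simpa using h 0 (by omega)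
  have hden : den j ≠ 0 := by
    intro h1
    rw [h1, norm_zero, mul_zero, norm_le_zero_iff] at hj
    rw [hP, prod_eq_zero (mem_univ j) (by simp [hj])] at h0
    simp at h0
  have hK' : ((D + 1) * (R + D + 1) ^ (D + 1) : ℝ) < Kc := by exact_mod_cast hK
  have hK0 : (0 : ℝ) < Kc := lt_of_le_of_lt (by positivity) hK'
  let Q : ℂ[X] := C c * ∏ j, (C (num j) - C (den j) * X) - C (P 0 : ℂ)
  have hQ : Q.natDegree ≤ D := by
    refine (natDegree_sub_le _ _).trans (max_le ((natDegree_C_mul_le _ _).trans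
      ((natDegree_prod_le _ _).trans ((sum_le_card_nsmul _ _ 1 fun i _ => ?_).trans ?_))) (by simp))
    · compute_degree
    · simp
  have hQe : ∀ z, Q.eval z = c * ∏ j, (num j - z * den j) - P 0 := fun z => by
    simp [Q, eval_prod, mul_comm z]
  have h1 := lagrange_le (Q := Q) (T := range (D + 1)) (S := D) (ε := ‖(P 0 : ℂ)‖ / Kc)
    (by rw [card_range]; exact degree_le_natDegree.trans_lt (by exact_mod_cast Nat.lt_succ_of_le hQ))
    (fun s hs => Nat.le_of_lt_succ (mem_range.1 hs)) (by positivity) (fun s hs => by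
      rw [hQe, ← hP, le_div_iff₀ hK0, mul_comm]
      simpa using (h s (mem_range.1 hs)).le) (num j / den j)
  rw [hQe, prod_eq_zero (mem_univ j) (by rw [div_mul_cancel₀ _ hden, sub_self]), card_range,
    mul_zero, zero_sub, norm_neg] at h1
  have h2 : ‖num j / den j‖ ≤ R := by
    rwa [norm_div, div_le_iff₀ (norm_pos_iff.2 hden)]
  have h3 : ‖(P 0 : ℂ)‖ ≤ ((D + 1) * (R + D + 1) ^ (D + 1) : ℝ) / Kc * ‖(P 0 : ℂ)‖ := by
    refine h1.trans ?_
    push_cast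
    rw [show ((D + 1) * (R + D + 1) ^ (D + 1) : ℝ) / Kc * ‖(P 0 : ℂ)‖ =
      (D + 1) * (‖(P 0 : ℂ)‖ / Kc) * (R + D + 1) ^ (D + 1) by ring]
    gcongr
  have h4 := (div_lt_one hK0).2 hK'
  nlinarith

theorem final_no {D Kc K : ℕ} {c : ℂ} (hc : c ≠ 0) {num den : Fin D → ℂ} {P : ℕ → ℤ}
    (hP : ∀ y : ℕ, (P y : ℂ) = c * ∏ j, (num j - y * den j)) (hden : ∀ j, den j ≠ 0)
    (h : ∀ j, K * ‖den j‖ ≤ ‖num j‖) (hKc : 1 ≤ Kc) (hK : 2 * D * D * Kc < K) :
    ∀ y < D + 1, (Kc : ℤ) ^ 2 * (P y - P 0) ^ 2 < P 0 ^ 2 := by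
  intro y hy
  have hK' : (2 * D * D * Kc : ℝ) < K := by exact_mod_cast hK
  have hKc' : (1 : ℝ) ≤ Kc := by exact_mod_cast hKc
  have hK0 : (0 : ℝ) < K := lt_of_le_of_lt (by positivity) hK'
  have hnum : ∀ j, num j ≠ 0 := fun j =>
    norm_pos_iff.1 (lt_of_lt_of_le (mul_pos hK0 (norm_pos_iff.2 (hden j))) (h j))
  have h0 : 0 < ‖(P 0 : ℂ)‖ := by
    rw [norm_pos_iff, hP]
    exact mul_ne_zero hc (prod_ne_zero_iff.2 fun j _ => by simpa using hnum j)
  have h1 : (P y : ℂ) - P 0 = P 0 * (∏ j, (1 + -(y * den j / num j)) - 1) := by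
    rw [mul_sub, mul_one, hP y, hP 0, mul_assoc, ← prod_mul_distrib]
    congr 2
    refine prod_congr rfl fun j _ => ?_
    have := hnum j
    field_simp
    ring
  have h3 : 2 * D * ((D : ℝ) / K) * Kc < 1 := by
    rw [mul_div_assoc', div_mul_eq_mul_div, div_lt_one hK0]
    exact hK'
  have h4 : 0 ≤ 2 * D * ((D : ℝ) / K) := by positivity
  have h2 := norm_prod_sub_one univ (fun j => -(y * den j / num j)) (δ := D / K) (by positivity)
    (fun j _ => by
      have hy' : (y : ℝ) ≤ D := by exact_mod_cast Nat.le_of_lt_succ hy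
      rw [norm_neg, norm_div, norm_mul, Complex.norm_natCast,
        div_le_div_iff₀ (norm_pos_iff.2 (hnum j)) hK0, mul_assoc, mul_comm _ (K : ℝ)]
      exact mul_le_mul hy' (h j) (by positivity) (by positivity))
    (by rw [card_univ, Fintype.card_fin]; nlinarith)
  rw [card_univ, Fintype.card_fin] at h2
  rw [sq_lt_iff, Int.cast_sub, h1, norm_mul]
  have h5 := mul_le_mul_of_nonneg_left h2 (show (0 : ℝ) ≤ Kc by positivity)
  nlinarith

theorem norm_aeval_conj (f : ℤ[X]) (z : ℂ) : ‖aeval ((starRingEnd ℂ) z) f‖ = ‖aeval z f‖ := by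
  rw [← map_aeval_int, Complex.norm_conj]

theorem conj_eq_neg {ι : ℂ} (h : ι ^ 2 = -1) : ι.re = 0 ∧ (ι.im = 1 ∨ ι.im = -1) := by
  have : (ι - Complex.I) * (ι + Complex.I) = 0 := by
    linear_combination h - Complex.I_sq
  rcases mul_eq_zero.1 this with h | h
  · rw [sub_eq_zero.1 h]; simp
  · rw [eq_neg_of_add_eq_zero_left h]; simp

theorem hnum_le {f : ℤ[X]} {W M s S : ℕ} {y : ℕ → ℤ} {u ι : ℂ} (hu : u.im = 0) (hι : ι ^ 2 = -1)
    (hs : s ≤ S) (hS : 1 ≤ S) :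
    ‖hnum f W M y s u ι‖ ≤ (W * S ^ W : ℕ) * ‖hden f W M y u ι‖ := by
  unfold hnum
  refine (norm_sum_le _ _).trans ((sum_le_card_nsmul _ _ (S ^ W * ‖hden f W M y u ι‖)
    fun j hj => ?_).trans (by simp [mul_assoc]))
  have h1 : ‖aeval (u + y j * ι) f‖ = ‖aeval (u - y j * ι) f‖ := by
    rw [← norm_aeval_conj, show (starRingEnd ℂ) (u + y j * ι) = u - y j * ι by
      apply Complex.ext <;> simp [hu, (conj_eq_neg hι).1]]
  rw [norm_mul, norm_mul, mul_assoc, norm_pow, norm_pow, h1, ← norm_pow, ← norm_pow, ← norm_mul,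
    hden, ← mul_prod_erase _ _ hj, ← mul_prod_erase _ _ hj, if_pos rfl, one_mul,
    prod_congr rfl fun i hi => if_neg (mem_erase.1 hi).1]
  refine mul_le_mul_of_nonneg_right ?_ (norm_nonneg _)
  rw [norm_pow, Complex.norm_natCast]
  exact_mod_cast (Nat.pow_le_pow_left hs j).trans (Nat.pow_le_pow_right hS (mem_range.1 hj).le)

def yv (E Θ τ j : ℕ) : ℤ :=
  (if j % 2 = 0 then 1 else -1) * ((τ + j / 2 / E * (Θ * 2 ^ (j / 2 % E)) : ℕ) : ℤ)

theorem exists_ratio {f : ℤ[X]} {D E Θ τ e : ℕ} (hf0 : f ≠ 0) (hf : f.natDegree ≤ D) {u ι : ℂ}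
    (hu : aeval u f = 0) (hι : ι ^ 2 = -1) (he : e < E) (hτ : τ < Θ)
    (h1 : (Θ * 2 ^ e * cX D : ℝ) ≤ |u.im| * cL D) (h2 : |u.im| * cL D ≤ 2 * (Θ * 2 ^ e) * cX D) :
    ∃ j < 2 * (E * (8 * cX D + 2)), (1 + 1 / (8 * cL D : ℝ)) * ‖aeval (u - yv E Θ τ j * ι) f‖ <
      ‖aeval (u + yv E Θ τ j * ι) f‖ := by
  have hinj : Function.Injective (algebraMap ℤ ℂ) := Int.cast_injective
  obtain ⟨h3, h4⟩ := conj_eq_neg hι
  have hb : 0 < |u.im| := by
    have a1 : (0 : ℝ) < Θ := by exact_mod_cast Nat.zero_lt_of_lt hτ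
    have a2 : (0 : ℝ) < cX D := by
      exact_mod_cast lt_of_lt_of_le (by omega) ((two_le_cL D).trans (cL_le_cX D))
    have a3 : (0 : ℝ) < Θ * 2 ^ e * cX D := by positivity
    exact pos_of_mul_pos_left (a3.trans_le h1) (Nat.cast_nonneg _)
  obtain ⟨g, hg, hg'⟩ : ∃ g < 2, (if g = 0 then (1 : ℝ) else -1) * ι.im * |u.im| = u.im := by
    rcases h4 with h4 | h4 <;> rcases abs_cases u.im with h5 | h5
    · exact ⟨0, by omega, by simp [h4, h5.1]⟩
    · exact ⟨1, by omega, by simp [h4, h5.1]⟩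
    · exact ⟨1, by omega, by simp [h4, h5.1]⟩
    · exact ⟨0, by omega, by simp [h4, h5.1]⟩
  obtain ⟨k, hk, h5⟩ := grid (f := f.map (algebraMap ℤ ℂ)) (D := D)
    ((Polynomial.map_ne_zero_iff hinj).2 hf0) (natDegree_map_le.trans hf)
    (u := u) (ι := (if g = 0 then (1 : ℝ) else -1 : ℝ) * ι) (τ := τ)
    (mul_ne_zero (by split_ifs <;> simp) (by rintro rfl; simp at hι))
    (by rw [eval_map_algebraMap]; exact hu) hb h1 h2 (Nat.cast_nonneg _) (by
      have : τ ≤ Θ * 2 ^ e := hτ.le.trans (Nat.le_mul_of_pos_right _ (by positivity))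
      exact_mod_cast this)
  have a1 : (g + 2 * (e + E * k)) % 2 = g := by omega
  have a2 : (g + 2 * (e + E * k)) / 2 = e + E * k := by omega
  have a3 : (e + E * k) / E = k := by
    rw [Nat.add_mul_div_left _ _ (by omega), Nat.div_eq_of_lt he, zero_add]
  have a4 : (e + E * k) % E = e := by rw [Nat.add_mul_mod_self_left, Nat.mod_eq_of_lt he]
  refine ⟨g + 2 * (e + E * k), ?_, ?_⟩
  · have := Nat.mul_le_mul_left E (Nat.succ_le_of_lt hk)
    rw [Nat.mul_succ] at this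
    omega
  · simp only [eval_map_algebraMap] at h5
    have hy : (yv E Θ τ (g + 2 * (e + E * k)) : ℂ) =
        ((if g = 0 then (1 : ℝ) else -1 : ℝ) : ℂ) * ((τ + k * (Θ * 2 ^ e) : ℝ) : ℂ) := by
      rw [yv, a1, a2, a3, a4]
      split_ifs <;> simp
    rw [hy, ← norm_aeval_conj]
    generalize (if g = 0 then (1 : ℝ) else -1) = σ at *
    generalize (τ + k * (Θ * 2 ^ e) : ℝ) = t at *
    have e1 : (starRingEnd ℂ) (u - σ * t * ι) = u + σ * ι * ((t - 2 * |u.im| : ℝ) : ℂ) := by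
      apply Complex.ext
      · simp [h3]
      · simp [h3]
        linarith
    rw [e1, mul_right_comm (σ : ℂ) (t : ℂ) ι]
    exact h5

theorem few_bad {W S K Kb : ℕ} {ψ : ℕ → ℂ} {j : ℕ} (hj : j < W) (h : (Kb : ℝ) ≤ ‖ψ j‖)
    (hK : W * K * (S + 2) ^ W < Kb) (T : Finset ℕ)
    (hT : ∀ s ∈ T, s < S ∧ ‖∑ i ∈ range W, (s : ℂ) ^ i * ψ i‖ < K) : T.card ≤ W := by
  by_contra hc
  obtain ⟨T', h1, h2⟩ := exists_subset_card_eq (not_le.1 hc).le
  let Q : ℂ[X] := ∑ i ∈ range W, C (ψ i) * X ^ i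
  have h3 := coeff_le_circle Q (C := W * K * (S + 2) ^ W) (fun z hz => by
    have := lagrange_le (Q := Q) (T := T') (S := S) (ε := K) (by
      rw [h2]
      refine (degree_sum_le _ _).trans_lt ((Finset.sup_lt_iff (WithBot.bot_lt_coe _)).2
        fun i hi => ?_)
      exact (degree_C_mul_X_pow_le _ _).trans_lt (by exact_mod_cast mem_range.1 hi))
      (fun s hs => (hT s (h1 hs)).1.le) (Nat.cast_nonneg _) (fun s hs => by
        have := (hT s (h1 hs)).2.le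
        simp only [Q, eval_finsetSum, eval_mul, eval_C, eval_pow, eval_X, mul_comm (ψ _)]
        exact this) z
    rw [h2, hz] at this
    convert this using 2
    ring) j
  have h4 : Q.coeff j = ψ j := by
    simp [Q, finsetSum_coeff, hj]
  have h5 : (W * K * (S + 2) ^ W : ℝ) < Kb := by exact_mod_cast hK
  rw [h4] at h3
  linarith

theorem test_no {D E Θ S K Kb eK : ℕ} {c : ℂ} (hc : c ≠ 0) {f : ℤ[X]} {u ι : Fin D → ℂ}
    (hf : ∀ z : ℂ, aeval z f = c * ∏ j, (z - u j)) (hfd : f.natDegree ≤ D) (hι : ∀ j, ι j ^ 2 = -1)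
    (hu : ∀ j, ∃ e < E, (Θ * 2 ^ e * cX D : ℝ) ≤ |(u j).im| * cL D ∧
      |(u j).im| * cL D ≤ 2 * (Θ * 2 ^ e) * cX D)
    {W : ℕ} (hW : W = 2 * (E * (8 * cX D + 2))) (hΘ : D * D * W < Θ) (hS : D * W < S)
    (hK : W * K * (S + 2) ^ W < Kb) (hKb : Kb ≤ 2 ^ eK) :
    ∃ τ < Θ, ∃ s < S, ∀ j, hden f W (8 * cL D * eK) (yv E Θ τ) (u j) (ι j) ≠ 0 ∧
      K * ‖hden f W (8 * cL D * eK) (yv E Θ τ) (u j) (ι j)‖ ≤
        ‖hnum f W (8 * cL D * eK) (yv E Θ τ) s (u j) (ι j)‖ := by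
  have hf0 : f ≠ 0 := by
    rintro rfl
    obtain ⟨z, hz⟩ := Infinite.exists_notMem_finset (univ.image u)
    have := hf z
    rw [map_zero, eq_comm, mul_eq_zero, prod_eq_zero_iff] at this
    rcases this with h | ⟨j, -, h⟩
    · exact hc h
    · exact hz (mem_image.2 ⟨j, mem_univ _, (sub_eq_zero.1 h).symm⟩)
  obtain ⟨τ, hτ, h1⟩ := exists_good (ι := Fin D × Fin D × Fin W) (W := 1) (S := Θ)
    (fun p τ => u p.1 - yv E Θ τ p.2.2 * ι p.1 = u p.2.1) (fun p T hT => by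
      refine card_le_one.2 fun a ha b hb => ?_
      have h2 : (yv E Θ a p.2.2 : ℂ) * ι p.1 = yv E Θ b p.2.2 * ι p.1 := by
        linear_combination (hT b hb).2 - (hT a ha).2
      have h3 := mul_right_cancel₀ (show ι p.1 ≠ 0 by
        intro h0
        have := hι p.1
        rw [h0] at this
        simp at this) h2
      rw [Int.cast_inj, yv, yv] at h3
      have h4 := mul_left_cancel₀ (by split_ifs <;> simp) h3
      omega) (by simpa [mul_assoc] using hΘ)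
  have h2 : ∀ j, ∀ i < W, aeval (u j - yv E Θ τ i * ι j) f ≠ 0 := fun j i hi => by
    rw [hf]
    exact mul_ne_zero hc (prod_ne_zero_iff.2 fun k _ => sub_ne_zero.2 (h1 (j, k, ⟨i, hi⟩)))
  let ψ : Fin D → ℕ → ℂ := fun j i =>
    (aeval (u j + yv E Θ τ i * ι j) f / aeval (u j - yv E Θ τ i * ι j) f) ^ (8 * cL D * eK)
  obtain ⟨s, hs, h3⟩ := exists_good (ι := Fin D) (W := W) (S := S)
    (fun j s => ‖∑ i ∈ range W, (s : ℂ) ^ i * ψ j i‖ < K) (fun j T hT => by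
      obtain ⟨e, he, a1, a2⟩ := hu j
      obtain ⟨i, hi, a3⟩ := exists_ratio hf0 hfd (u := u j)
        (by rw [hf, prod_eq_zero (mem_univ j) (sub_self _), mul_zero]) (hι j) he hτ a1 a2
      rw [← hW] at hi
      refine few_bad hi ?_ hK T hT
      have hL : (2 : ℝ) ≤ cL D := by exact_mod_cast two_le_cL D
      have a4 := one_add_mul_le_pow (a := 1 / (8 * cL D : ℝ))
        (le_trans (by norm_num) (by positivity : (0 : ℝ) ≤ _)) (8 * cL D)
      rw [show (1 : ℝ) + (8 * cL D : ℕ) * (1 / (8 * cL D : ℝ)) = 2 by push_cast; field_simp; ring] at a4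
      rw [← lt_div_iff₀ (norm_pos_iff.2 (h2 j i hi)), ← norm_div] at a3
      calc (Kb : ℝ) ≤ 2 ^ eK := by exact_mod_cast hKb
        _ ≤ ((1 + 1 / (8 * cL D : ℝ)) ^ (8 * cL D)) ^ eK := pow_le_pow_left₀ (by norm_num) a4 _
        _ ≤ _ := by
          rw [← pow_mul, norm_pow]
          exact pow_le_pow_left₀ (by positivity) a3.le _) (by simpa using hS)
  refine ⟨τ, hτ, s, hs, fun j => ⟨prod_ne_zero_iff.2 fun i hi =>
    pow_ne_zero _ (h2 j i (mem_range.1 hi)), ?_⟩⟩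
  have h4 : hnum f W (8 * cL D * eK) (yv E Θ τ) s (u j) (ι j) =
      (∑ i ∈ range W, (s : ℂ) ^ i * ψ j i) * hden f W (8 * cL D * eK) (yv E Θ τ) (u j) (ι j) := by
    rw [hnum, sum_mul]
    refine sum_congr rfl fun i hi => ?_
    rw [hden, ← mul_prod_erase _ _ hi, ← mul_prod_erase _ _ hi, if_pos rfl, one_mul,
      prod_congr rfl fun i hi => if_neg (mem_erase.1 hi).1, ← mul_assoc, mul_assoc _ (ψ j i),
      ← mul_pow, div_mul_cancel₀ _ (h2 j i (mem_range.1 hi))]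
  rw [h4, norm_mul]
  exact mul_le_mul_of_nonneg_right (not_lt.1 (h3 j)) (norm_nonneg _)

end Vale.Agent.P337
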