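import Vale.Agent.P337.Stage1
import Vale.Agent.P337.Test

/-! The test applied to a zero dimensional system. -/

namespace Vale.Agent.P337

open Finset MvPolynomial

variable {n : ℕ}

theorem totalDegree_intCast {K : Type} [CommRing K] (c : ℤ) :
    (c : MvPolynomial (Fin n) K).totalDegree = 0 := by
  rw [← map_intCast (C : K →+* MvPolynomial (Fin n) K), totalDegree_C]

theorem totalDegree_natCast {K : Type} [CommRing K] (c : ℕ) :
    (c : MvPolynomial (Fin n) K).totalDegree = 0 := by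
  rw [← map_natCast (C : K →+* MvPolynomial (Fin n) K), totalDegree_C]

theorem totalDegree_aeval_le {K : Type} [CommRing K] {alg : Algebra ℤ (MvPolynomial (Fin n) K)}
    {q : MvPolynomial (Fin n) K} (hq : q.totalDegree ≤ 1) {f : Polynomial ℤ} {D : ℕ}
    (hf : f.natDegree ≤ D) : (Polynomial.aeval q f).totalDegree ≤ D := by
  rw [Polynomial.aeval_eq_sum_range]
  refine totalDegree_finsetSum_le fun i hi => ?_
  rw [Algebra.smul_def, eq_intCast]
  refine (totalDegree_mul _ _).trans ?_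
  have := (totalDegree_pow q i).trans (Nat.mul_le_mul_left i hq)
  have := mem_range.1 hi
  rw [totalDegree_intCast]
  omega

theorem map_aeval_int' {S S' : Type} [CommRing S] [CommRing S'] {alg : Algebra ℤ S} (φ : S →+* S')
    (x : S) (f : Polynomial ℤ) : φ (Polynomial.aeval x f) = Polynomial.aeval (φ x) f := by
  obtain rfl : alg = Ring.toIntAlgebra S := Subsingleton.elim _ _
  exact map_aeval_int f φ x

theorem totalDegree_test {f : Polynomial ℤ} {D W M s y : ℕ} (hf : f.natDegree ≤ D) (yy : ℕ → ℤ)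
    {U ι : MvPolynomial (Fin n) ℤ} (hU : U.totalDegree ≤ 1) (hι : ι.totalDegree ≤ 1) :
    (hnum f W M yy s U ι - y * hden f W M yy U ι).totalDegree ≤ (W + 1) * (M * D) := by
  have h0 : ∀ c : ℤ, (c * ι).totalDegree ≤ 1 := fun c =>
    (totalDegree_mul _ _).trans (by rw [totalDegree_intCast]; omega)
  have h1 : ∀ (alg : Algebra ℤ (MvPolynomial (Fin n) ℤ)) (c : ℤ),
      (Polynomial.aeval (U + c * ι) f ^ M).totalDegree ≤ M * D := fun _ c =>
    (totalDegree_pow _ _).trans (Nat.mul_le_mul_left _ (totalDegree_aeval_le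
      ((totalDegree_add _ _).trans (max_le hU (h0 c))) hf))
  have h2 : ∀ (alg : Algebra ℤ (MvPolynomial (Fin n) ℤ)) (c : ℤ),
      (Polynomial.aeval (U - c * ι) f ^ M).totalDegree ≤ M * D := fun _ c =>
    (totalDegree_pow _ _).trans (Nat.mul_le_mul_left _ (totalDegree_aeval_le
      ((totalDegree_sub _ _).trans (max_le hU (h0 c))) hf))
  have h3 : ∀ g : ℕ → MvPolynomial (Fin n) ℤ, (∀ i, (g i).totalDegree ≤ M * D) →
      (∏ i ∈ range W, g i).totalDegree ≤ W * (M * D) := fun g hg =>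
    (totalDegree_finsetProd _ _).trans ((sum_le_card_nsmul _ _ _ fun i _ => hg i).trans (by simp))
  rw [add_mul, one_mul]
  refine (totalDegree_sub _ _).trans (max_le (totalDegree_finsetSum_le fun j _ => ?_) ?_)
  · have a2 : ((s : MvPolynomial (Fin n) ℤ) ^ j).totalDegree = 0 := by
      rw [← Nat.cast_pow, totalDegree_natCast]
    refine (totalDegree_mul _ _).trans ((add_le_add ((totalDegree_mul _ _).trans
      (add_le_add a2.le (h1 _ (yy j)))) (h3 _ fun i => ?_)).trans (by omega))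
    split_ifs
    · simp
    · exact h2 _ _
  · refine (totalDegree_mul _ _).trans ((add_le_add (totalDegree_natCast _).le
      (h3 _ fun i => h2 _ (yy i))).trans (by omega))

/-- The polynomial whose roots are the values of `U` at the solutions. -/
noncomputable def chp (N : ℕ) (r : ℕ → MvPolynomial (Fin n) ℤ) (U : MvPolynomial (Fin n) ℤ) :
    Polynomial ℤ :=
  nm N (fun i => map Polynomial.C (r i)) 1 (C Polynomial.X - map Polynomial.C U)

/-- The solutions of a system, with the norm formula. -/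
def Pts (N : ℕ) (r : ℕ → MvPolynomial (Fin n) ℤ) (z : Fin (N ^ n) → Fin n → ℂ) : Prop :=
  ∀ (K' : Type) [CommRing K'] (ι : ℤ →+* K') (ψ : K' →+* ℂ) (dh : ℕ) (h : MvPolynomial (Fin n) K'),
    h.totalDegree ≤ dh → ψ (nm N (fun i => map ι (r i)) dh h) = cfac (N ^ n) * ∏ j, eval₂ ψ (z j) h

theorem exists_pts {N : ℕ} (hN : 1 ≤ N) {r : ℕ → MvPolynomial (Fin n) ℤ}
    (hr : ∀ i < n, (r i).totalDegree < N) : ∃ z : Fin (N ^ n) → Fin n → ℂ,
      (∀ x, (∃ j, z j = x) ↔ ∀ i : Fin n, x i ^ N = aeval x (r i)) ∧ Pts N r z := by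
  obtain ⟨z, h1, h2⟩ := exists_points' hN hr (algebraMap ℤ ℂ)
  refine ⟨z, h1, fun K' _ ι ψ dh h hh => ?_⟩
  rw [h2 K' ι ψ (Subsingleton.elim _ _) dh h hh, cfac]
  simp

variable {N : ℕ} {r : ℕ → MvPolynomial (Fin n) ℤ} {z : Fin (N ^ n) → Fin n → ℂ}

theorem eval₂_map_int {K : Type} [CommRing K] (ι : ℤ →+* K) (ψ : K →+* ℂ) (x : Fin n → ℂ)
    (P : MvPolynomial (Fin n) ℤ) : eval₂ ψ x (map ι P) = aeval x P := by
  rw [eval₂_map, aeval_def, Subsingleton.elim (ψ.comp _) (algebraMap ℤ ℂ)]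

theorem Pts.int (hz : Pts N r z) {dh : ℕ} {h : MvPolynomial (Fin n) ℤ} (hh : h.totalDegree ≤ dh) :
    ((nm N r dh h : ℤ) : ℂ) = cfac (N ^ n) * ∏ j, aeval (z j) h := by
  have := hz ℤ (RingHom.id ℤ) (algebraMap ℤ ℂ) dh h hh
  simp only [map_id] at this
  exact this

theorem Pts.chp (hz : Pts N r z) {U : MvPolynomial (Fin n) ℤ} (hU : U.totalDegree ≤ 1) (y : ℂ) :
    Polynomial.aeval y (chp N r U) = cfac (N ^ n) * ∏ j, (y - aeval (z j) U) := by
  have := hz _ Polynomial.C (Polynomial.eval₂RingHom (algebraMap ℤ ℂ) y) 1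
    (C Polynomial.X - map Polynomial.C U) ((totalDegree_sub _ _).trans
      (max_le (by simp) ((totalDegree_map_le _ _).trans hU)))
  simp only [eval₂_sub, eval₂_C, eval₂_map_int, Polynomial.coe_eval₂RingHom,
    Polynomial.eval₂_X] at this
  exact this

theorem Pts.chp_deg (hz : Pts N r z) {U : MvPolynomial (Fin n) ℤ} (hU : U.totalDegree ≤ 1) :
    (P337.chp N r U).natDegree ≤ N ^ n := by
  have hinj : Function.Injective (algebraMap ℤ ℂ) := Int.cast_injective
  have h := hz.chp hU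
  generalize P337.chp N r U = f at h ⊢
  obtain ⟨u, hu⟩ : ∃ u : Fin (N ^ n) → ℂ, ∀ j, aeval (z j) U = u j := ⟨_, fun _ => rfl⟩
  simp only [hu] at h
  have : f.map (algebraMap ℤ ℂ) = Polynomial.C (cfac (N ^ n) : ℂ) *
      ∏ j, (Polynomial.X - Polynomial.C (u j)) := Polynomial.funext fun y => by
    rw [Polynomial.eval_map_algebraMap, h]
    simp [Polynomial.eval_prod]
  rw [← Polynomial.natDegree_map_eq_of_injective hinj, this]
  refine (Polynomial.natDegree_C_mul_le _ _).trans ((Polynomial.natDegree_prod_le _ _).trans ?_)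
  simp

theorem cfac_ne (D : ℕ) : (cfac D : ℂ) ≠ 0 := by
  have := one_le_cfac D
  exact_mod_cast (show cfac D ≠ 0 by omega)

theorem Pts.sep (hz : Pts N r z) {U : MvPolynomial (Fin n) ℤ} (hU : U.totalDegree ≤ 1) {R : ℝ}
    (hR : ∀ j, ‖aeval (z j) U‖ ≤ R) (j : Fin (N ^ n)) (hj : (aeval (z j) U).im ≠ 0) :
    1 ≤ (cfac (N ^ n) * (cfac (N ^ n) * (1 + 2 * R) ^ N ^ n) ^ N ^ n + 1) *
      (2 * |(aeval (z j) U).im|) := by
  have h1 : ∀ y : ℂ, Polynomial.eval₂ (Int.castRingHom ℂ) y (nm N (fun i => map Polynomial.C (r i))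
      (N ^ n) (Polynomial.aeval (C Polynomial.X + map Polynomial.C U) (P337.chp N r U))) =
      cfac (N ^ n) * ∏ i, (cfac (N ^ n) * ∏ k, (y + aeval (z i) U - aeval (z k) U)) := by
    intro y
    have := hz _ Polynomial.C (Polynomial.eval₂RingHom (Int.castRingHom ℂ) y) (N ^ n)
      (Polynomial.aeval (C Polynomial.X + map Polynomial.C U) (P337.chp N r U))
      (totalDegree_aeval_le ((totalDegree_add _ _).trans
        (max_le (by simp) ((totalDegree_map_le _ _).trans hU))) (hz.chp_deg hU))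
    refine this.trans ?_
    congr 1
    refine prod_congr rfl fun i _ => ?_
    rw [← coe_eval₂Hom, map_aeval_int', hz.chp hU]
    simp only [coe_eval₂Hom, eval₂_add, eval₂_C, eval₂_map_int, Polynomial.coe_eval₂RingHom,
      Polynomial.eval₂_X]
  obtain ⟨i, hi⟩ : ∃ i, aeval (z i) U = (starRingEnd ℂ) (aeval (z j) U) := by
    have h2 := norm_aeval_conj (P337.chp N r U) (aeval (z j) U)
    rw [hz.chp hU (aeval (z j) U), prod_eq_zero (mem_univ j) (sub_self _), mul_zero, norm_zero,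
      norm_eq_zero, hz.chp hU, mul_eq_zero, prod_eq_zero_iff] at h2
    obtain ⟨i, -, h3⟩ := h2.resolve_left (cfac_ne _)
    exact ⟨i, (sub_eq_zero.1 h3).symm⟩
  have h2 : ‖aeval (z j) U - aeval (z i) U‖ = 2 * |(aeval (z j) U).im| := by
    rw [hi, Complex.sub_conj]
    simp
  rw [← h2]
  refine root_ge (fun h0 => ?_) (fun y hy => ?_) (fun h0 => ?_)
    ((h1 _).trans (by
      rw [prod_eq_zero (mem_univ i), mul_zero]
      rw [prod_eq_zero (mem_univ j), mul_zero]
      ring))
  · obtain ⟨y, hy⟩ := Infinite.exists_notMem_finset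
      (univ.image fun p : Fin (N ^ n) × Fin (N ^ n) => aeval (z p.2) U - aeval (z p.1) U)
    have h3 := h1 y
    rw [h0, Polynomial.eval₂_zero, eq_comm, mul_eq_zero, prod_eq_zero_iff] at h3
    obtain ⟨a, -, h4⟩ := h3.resolve_left (cfac_ne _)
    rw [mul_eq_zero, prod_eq_zero_iff] at h4
    obtain ⟨b, -, h5⟩ := h4.resolve_left (cfac_ne _)
    exact hy (mem_image.2 ⟨(a, b), mem_univ _, by linear_combination -h5⟩)
  · rw [h1, norm_mul, Complex.norm_natCast]
    refine mul_le_mul_of_nonneg_left ((norm_prod_le_pow _ _ fun a _ => ?_).trans (by simp; rfl))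
      (Nat.cast_nonneg _)
    rw [norm_mul, Complex.norm_natCast]
    refine mul_le_mul_of_nonneg_left ((norm_prod_le_pow _ _ fun b _ => ?_).trans (by simp; rfl))
      (Nat.cast_nonneg _)
    refine (norm_sub_le _ _).trans ((add_le_add_left (norm_add_le _ _) _).trans ?_)
    linarith [hR a, hR b]
  · rw [h0, norm_zero] at h2
    exact hj (abs_eq_zero.1 (by linarith))

/-! ### The system -/

noncomputable def xn (n i : ℕ) : MvPolynomial (Fin n) ℤ := if h : i < n then X ⟨i, h⟩ else 0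

theorem xn_coe (i : Fin n) : xn n i = X i := dif_pos i.2

theorem good2_xn (n i : ℕ) : Good2 1 1 (xn n i) := by
  unfold xn
  split_ifs
  · exact Good2.X _
  · simpa using (Good2.C (n := n) 0).mono (Nat.zero_le 1) (Nat.zero_le 1)

def sh (n : ℕ) (j : Fin n) : Fin (n + 2) := j.succ.succ

noncomputable def sys2 (m B T : ℕ) (F : MvPolynomial (Fin n) ℤ) (i : ℕ) :
    MvPolynomial (Fin (n + 2)) ℤ :=
  if i = 0 then X 0 ^ (m + 2) - (X 0 ^ 2 + 1) ^ ((m + 2) / 2)
  else if i = 1 then
    (B : MvPolynomial (Fin (n + 2)) ℤ) - ((T : MvPolynomial (Fin (n + 2)) ℤ) *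
      (m : MvPolynomial (Fin (n + 2)) ℤ) * (rename (sh n) F : MvPolynomial (Fin (n + 2)) ℤ) +
      ∑ j, X (sh n j) ^ m)
  else -(T : MvPolynomial (Fin (n + 2)) ℤ) * xn (n + 2) i ^ 3 * rename (sh n) (pd (i - 2) F)

noncomputable def lin (n s : ℕ) : MvPolynomial (Fin n) ℤ :=
  ∑ i ∈ range n, if i = 0 then 0 else (s : MvPolynomial (Fin n) ℤ) ^ i * xn n i

theorem totalDegree_lin (n c s : ℕ) : ((c : MvPolynomial (Fin n) ℤ) * lin n s).totalDegree ≤ 1 := by
  refine (totalDegree_mul _ _).trans ?_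
  rw [totalDegree_natCast, zero_add]
  refine totalDegree_finsetSum_le fun i _ => ?_
  split_ifs
  · simp
  · refine (totalDegree_mul _ _).trans ?_
    rw [← Nat.cast_pow, totalDegree_natCast, zero_add]
    exact (good2_xn n i).1.deg

theorem aeval_lin (s : ℕ) (x : Fin n → ℂ) :
    aeval x (lin n s) = ∑ i : Fin n, if (i : ℕ) = 0 then 0 else (s : ℂ) ^ (i : ℕ) * x i := by
  rw [lin, ← Fin.sum_univ_eq_sum_range
    fun i => if i = 0 then 0 else (s : MvPolynomial (Fin n) ℤ) ^ i * xn n i, map_sum]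
  refine sum_congr rfl fun i _ => ?_
  split_ifs <;> simp [xn_coe]

theorem norm_lin_le {s S : ℕ} (hs : s ≤ S) (hS : 1 ≤ S) {x : Fin n → ℂ} {A : ℕ}
    (hx : ∀ i, ‖x i‖ ≤ A) : ‖aeval x (lin n s)‖ ≤ (n * S ^ n * A : ℕ) := by
  rw [aeval_lin]
  refine (norm_sum_le _ _).trans ((sum_le_card_nsmul _ _ (S ^ n * A : ℝ) fun i _ => ?_).trans
    (by simp [mul_assoc]))
  split_ifs
  · simp only [norm_zero]
    positivity
  · rw [norm_mul, norm_pow, Complex.norm_natCast]
    refine mul_le_mul ?_ (hx i) (norm_nonneg _) (by positivity)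
    exact_mod_cast (Nat.pow_le_pow_left hs _).trans (Nat.pow_le_pow_right hS i.2.le)

theorem aeval_shift (x : Fin (n + 2) → ℂ) (P : MvPolynomial (Fin n) ℤ) :
    aeval x (rename (sh n) P) = aeval (fun j : Fin n => x j.succ.succ) P := aeval_rename _ _ _

variable {A d m B T : ℕ} {F : MvPolynomial (Fin n) ℤ}

theorem sys2_deg (hF : Good2 A d F) (hm : d + 2 ≤ m) (hev : Even m) :
    ∀ i < n + 2, (sys2 m B T F i).totalDegree < m + 2 := by
  intro i hi
  unfold sys2
  split_ifs with h0 h1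
  · obtain ⟨k, rfl⟩ := hev
    rw [show (k + k + 2) / 2 = k + 1 by omega, add_pow, sum_range_succ, ← pow_mul,
      show 2 * (k + 1) = k + k + 2 by ring]
    simp only [tsub_self, pow_zero, mul_one, Nat.choose_self, Nat.cast_one, sub_add_cancel_right,
      totalDegree_neg, one_pow]
    refine Nat.lt_succ_of_le (totalDegree_finsetSum_le fun j hj => (totalDegree_mul _ _).trans ?_)
    rw [totalDegree_natCast, ← pow_mul, totalDegree_X_pow]
    have := mem_range.1 hj
    omega
  · refine Nat.lt_succ_of_le ((totalDegree_sub _ _).trans (max_le (by simp [totalDegree_natCast])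
      ((totalDegree_add _ _).trans (max_le ((totalDegree_mul _ _).trans ?_)
        (totalDegree_finsetSum_le fun j _ => by rw [totalDegree_X_pow]; omega)))))
    have := (totalDegree_rename_le (sh n) F).trans hF.1.deg
    rw [← Nat.cast_mul, totalDegree_natCast]
    omega
  · have a1 := (totalDegree_rename_le (sh n) (pd (i - 2) F)).trans
      (show _ ≤ d by rw [pd, dif_pos (show i - 2 < n by omega)]; exact (hF.2 _).deg)
    have a2 := (totalDegree_pow (xn (n + 2) i) 3).trans (Nat.mul_le_mul_left 3 (good2_xn _ i).1.deg)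
    have a3 := totalDegree_mul (-T : MvPolynomial (Fin (n + 2)) ℤ) (xn (n + 2) i ^ 3)
    rw [totalDegree_neg, totalDegree_natCast] at a3
    refine (totalDegree_mul _ _).trans_lt ?_
    omega

theorem sys2_iff (hev : Even m) (x : Fin (n + 2) → ℂ) :
    (∀ i : Fin (n + 2), x i ^ (m + 2) = aeval x (sys2 m B T F i)) ↔ x 0 ^ 2 = -1 ∧
      x 1 ^ (m + 2) = B - obj m F (T : ℂ) (fun j => x j.succ.succ) ∧
      ∀ j : Fin n, x j.succ.succ ^ (m + 2) =
        -T * x j.succ.succ ^ 3 * aeval (fun j : Fin n => x j.succ.succ) (pderiv j F) := by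
  rw [Fin.forall_fin_succ, Fin.forall_fin_succ]
  refine and_congr ?_ (and_congr ?_ (forall_congr' fun j => ?_))
  · obtain ⟨k, rfl⟩ := hev
    simp [sys2, eq_sub_iff_add_eq, show (k + k + 2) / 2 = k + 1 by omega, add_eq_zero_iff_eq_neg]
  · simp [sys2, obj, aeval_shift, sh]
  · have : sys2 m B T F j.succ.succ = -(T : MvPolynomial (Fin (n + 2)) ℤ) * X j.succ.succ ^ 3 *
        rename (sh n) (pderiv j F) := by
      rw [sys2, if_neg (by simp), if_neg (by simp), xn_coe, ← pd_coe]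
      rfl
    rw [this, map_mul, aeval_shift]
    simp

theorem sys2_le (hF : Good2 A d F) (hm : d + 2 ≤ m) (hev : Even m) {A₂ : ℕ}
    (hA : B + T * m * A + n + T * (d * A) + 1 ≤ A₂) {x : Fin (n + 2) → ℂ}
    (hx : ∀ i : Fin (n + 2), x i ^ (m + 2) = aeval x (sys2 m B T F i)) (i : Fin (n + 2)) :
    ‖x i‖ ≤ A₂ := by
  obtain ⟨h0, h1, h2⟩ := (sys2_iff hev x).1 hx
  have hA' : (B + T * m * A + n + T * (d * A) + 1 : ℝ) ≤ A₂ := by exact_mod_cast hA
  have b0 : (0 : ℝ) ≤ B := by positivity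
  have b1 : (0 : ℝ) ≤ T * m * A := by positivity
  have b2 : (0 : ℝ) ≤ n := by positivity
  have b3 : (0 : ℝ) ≤ T * (d * A) := by positivity
  refine sol_le (N := m + 2) (by omega) (by linarith) (fun R hR hz => ?_) i
  have hp : ∀ k ≤ m + 1, R ^ k ≤ R ^ (m + 1) := fun k hk => pow_le_pow_right₀ hR hk
  have hp0 : 0 ≤ R ^ (m + 1) := by positivity
  rw [Fin.forall_fin_succ, Fin.forall_fin_succ]
  refine ⟨?_, ?_, fun j => ?_⟩
  · have : ‖x 0‖ = 1 := by
      have := congrArg norm h0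
      rw [norm_pow, norm_neg, norm_one] at this
      exact (pow_eq_one_iff_of_nonneg (norm_nonneg _) two_ne_zero).1 this
    have h3 := hp 0 (by omega)
    rw [this, one_pow]
    show 1 ≤ A₂ * R ^ (m + 1)
    nlinarith
  · show ‖x 1‖ ^ (m + 2) ≤ A₂ * R ^ (m + 1)
    rw [← norm_pow, h1]
    have a1 := (hF.1.mono le_rfl (show d ≤ m + 1 by omega)).bd (fun j => x j.succ.succ) R hR
      fun j => hz _
    have a2 : ‖∑ j : Fin n, x j.succ.succ ^ m‖ ≤ n * R ^ (m + 1) := by
      refine (norm_sum_le _ _).trans ((sum_le_card_nsmul _ _ (R ^ (m + 1)) fun j _ => ?_).trans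
        (by simp))
      rw [norm_pow]
      exact (pow_le_pow_left₀ (norm_nonneg _) (hz _) _).trans (hp m (by omega))
    have a3 := mul_le_mul_of_nonneg_left a1 (show (0 : ℝ) ≤ T * m by positivity)
    have a4 := mul_le_mul_of_nonneg_left (hp 0 (by omega)) b0
    have a5 := mul_le_mul_of_nonneg_right hA' hp0
    have a6 := mul_nonneg b3 hp0
    refine (norm_sub_le _ _).trans ((add_le_add_right (norm_add_le _ _) _).trans ?_)
    rw [norm_mul, norm_mul, Complex.norm_natCast, Complex.norm_natCast, Complex.norm_natCast]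
    linarith
  · show ‖x j.succ.succ‖ ^ (m + 2) ≤ A₂ * R ^ (m + 1)
    rw [← norm_pow, h2, norm_mul, norm_mul, norm_neg, norm_pow, Complex.norm_natCast]
    have a1 := (hF.2 j).bd (fun j => x j.succ.succ) R hR fun j => hz _
    have a2 := pow_le_pow_left₀ (norm_nonneg _) (hz j.succ.succ) 3
    calc _ ≤ T * R ^ 3 * ((d * A : ℕ) * R ^ d) := by gcongr
      _ = T * (d * A) * R ^ (d + 3) := by push_cast; ring
      _ ≤ A₂ * R ^ (m + 1) := mul_le_mul (by linarith) (hp _ (by omega)) (by positivity) (by positivity)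

end Vale.Agent.P337
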