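import Vale.Agent.P337.CH
import Mathlib.FieldTheory.Finite.Basic
import Mathlib.Algebra.MvPolynomial.Degrees
import Mathlib.Algebra.MvPolynomial.CommRing

/-! Integer families whose residues modulo a prime are computable in the counting hierarchy. -/

namespace Vale.Agent.P337

open Vale.Agent.Common.TreeTM Enc Finset

variable {α β γ : Type} [Enc α] [Enc β] [Enc γ]

def ZV (π : β → ℕ) (good : β → Prop) (z : β → ℤ) : Prop :=
  CF π ∧ ∃ g : β → ℕ, CF g ∧ ∀ b, good b → (π b).Prime → (g b : ZMod (π b)) = (z b : ZMod (π b))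

variable {π : β → ℕ} {good : β → Prop}

theorem ZV.cf {z : β → ℤ} (h : ZV π good z) : CF π := h.1

theorem ZV.of_cong {z z' : β → ℤ} (h : ZV π good z)
    (hz : ∀ b, good b → (π b).Prime → (z' b : ZMod (π b)) = (z b : ZMod (π b))) : ZV π good z' := by
  obtain ⟨hπ, g, hg, h⟩ := h
  exact ⟨hπ, g, hg, fun b h1 h2 => (h b h1 h2).trans (hz b h1 h2).symm⟩

theorem ZV.of_eq {z z' : β → ℤ} (h : ZV π good z) (hz : ∀ b, good b → z' b = z b) :
    ZV π good z' := h.of_cong fun b h1 _ => by rw [hz b h1]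

theorem ZV.comp {z : β → ℤ} {h : γ → β} {good' : γ → Prop} (hz : ZV π good z) (hh : CF h)
    (hg : ∀ c, good' c → good (h c)) : ZV (fun c => π (h c)) good' fun c => z (h c) := by
  obtain ⟨hπ, g, hg', h1⟩ := hz
  exact ⟨hπ.comp hh, fun c => g (h c), hg'.comp hh, fun c h2 h3 => h1 _ (hg c h2) h3⟩

theorem ZV.nat {f : β → ℕ} (hπ : CF π) (hf : CF f) : ZV π good fun b => (f b : ℤ) :=
  ⟨hπ, f, hf, fun _ _ _ => by simp⟩

theorem ZV.add {z w : β → ℤ} (hz : ZV π good z) (hw : ZV π good w) :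
    ZV π good fun b => z b + w b := by
  obtain ⟨hπ, g, hg, h⟩ := hz
  obtain ⟨-, g', hg', h'⟩ := hw
  exact ⟨hπ, fun b => g b + g' b, hg.add hg', fun b h1 h2 => by
    push_cast; rw [h b h1 h2, h' b h1 h2]⟩

theorem ZV.mul {z w : β → ℤ} (hz : ZV π good z) (hw : ZV π good w) :
    ZV π good fun b => z b * w b := by
  obtain ⟨hπ, g, hg, h⟩ := hz
  obtain ⟨-, g', hg', h'⟩ := hw
  exact ⟨hπ, fun b => g b * g' b, hg.mul hg', fun b h1 h2 => by
    push_cast; rw [h b h1 h2, h' b h1 h2]⟩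

theorem ZV.neg {z : β → ℤ} (hz : ZV π good z) : ZV π good fun b => -z b := by
  obtain ⟨hπ, g, hg, h⟩ := hz
  refine ⟨hπ, fun b => (π b - 1) * g b, by fun_prop, fun b h1 h2 => ?_⟩
  push_cast [Nat.cast_sub h2.one_le]
  rw [h b h1 h2]
  simp

theorem ZV.sub {z w : β → ℤ} (hz : ZV π good z) (hw : ZV π good w) :
    ZV π good fun b => z b - w b := (hz.add hw.neg).of_eq fun _ _ => sub_eq_add_neg _ _

theorem ZV.int {z : β → ℤ} (hπ : CF π) (hz : CF z) : ZV π good z :=
  ((ZV.nat hπ hz.toNat).sub (ZV.nat hπ hz.neg.toNat)).of_eq fun b _ => by omega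

theorem ZV.const (hπ : CF π) (c : ℤ) : ZV π good fun _ => c := ZV.int hπ (CF.const c)

theorem ZV.ite {P : β → Prop} [DecidablePred P] {z w : β → ℤ} (hP : CH P) (hz : ZV π good z)
    (hw : ZV π good w) : ZV π good fun b => if P b then z b else w b := by
  obtain ⟨hπ, g, hg, h⟩ := hz
  obtain ⟨-, g', hg', h'⟩ := hw
  refine ⟨hπ, fun b => if P b then g b else g' b, CF.ite hP hg hg', fun b h1 h2 => ?_⟩
  by_cases hb : P b <;> simp [hb, h b h1 h2, h' b h1 h2]

theorem ZV.sum {N : β → ℕ} {z : β → ℕ → ℤ} (hπ : CF π) (hN : CF N)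
    (hz : ZV (fun q : β × ℕ => π q.1) (fun q => good q.1 ∧ q.2 < N q.1) fun q => z q.1 q.2) :
    ZV π good fun b => ∑ i ∈ range (N b), z b i := by
  obtain ⟨-, g, hg, h⟩ := hz
  refine ⟨hπ, fun b => ∑ i ∈ range (N b), g (b, i), CF.sum hN hg, fun b h1 h2 => ?_⟩
  push_cast
  exact sum_congr rfl fun i hi => h (b, i) ⟨h1, mem_range.1 hi⟩ h2

theorem exists_gen {p : ℕ} (hp : p.Prime) :
    ∃ g < p, Ball p fun r => r = 0 ∨ Bex p fun e => g ^ e % (p - 1 + 1) = r := by
  have := Fact.mk hp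
  obtain ⟨x, hx⟩ := IsCyclic.exists_generator (α := (ZMod p)ˣ)
  refine ⟨(x : ZMod p).val, ZMod.val_lt _, fun r hr => ?_⟩
  by_cases h0 : r = 0
  · exact Or.inl h0
  right
  have hr0 : (r : ZMod p) ≠ 0 := by
    rw [Ne, ZMod.natCast_eq_zero_iff]
    exact fun h => h0 (Nat.eq_zero_of_dvd_of_lt h hr)
  obtain ⟨e, he⟩ := (mem_powers_iff_mem_zpowers.2 (hx (Units.mk0 _ hr0)))
  have h1 : x ^ (e % (p - 1)) = Units.mk0 _ hr0 := by
    have h2 : x ^ (p - 1) = 1 := by rw [← ZMod.card_units p]; exact pow_card_eq_one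
    rw [← he]
    conv_rhs => dsimp only; rw [← Nat.div_add_mod e (p - 1), pow_add, pow_mul, h2, one_pow, one_mul]
  have hp1 := hp.two_le
  refine ⟨e % (p - 1), (Nat.mod_lt _ (by omega)).trans (by omega), ?_⟩
  rw [Nat.sub_add_cancel hp.one_le]
  have h3 : (((x : ZMod p).val ^ (e % (p - 1)) : ℕ) : ZMod p) = r := by
    have := congrArg Units.val h1
    simpa using this
  rw [← Nat.mod_eq_of_lt hr]
  exact (ZMod.natCast_eq_natCast_iff' _ _ _).1 h3

theorem ZV.prod {N : β → ℕ} {z : β → ℕ → ℤ} (hπ : CF π) (hN : CF N)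
    (hz : ZV (fun q : β × ℕ => π q.1) (fun q => good q.1 ∧ q.2 < N q.1) fun q => z q.1 q.2) :
    ZV π good fun b => ∏ i ∈ range (N b), z b i := by
  classical
  obtain ⟨-, g, hg, h⟩ := hz
  let G : β → ℕ := fun b => lst (π b) fun x => Ball (π b) fun r => r = 0 ∨
    Bex (π b) fun e => x ^ e % (π b - 1 + 1) = r
  have hG : CF G := by
    refine CF.lst hπ (CH.ball (by fun_prop) (CH.or (by fun_prop) (CH.bex (by fun_prop) ?_)))
    exact CH.eq (CF.powMod (by fun_prop) (by fun_prop) (by fun_prop)) (by fun_prop)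
  let L : β → ℕ → ℕ := fun b i => lst (π b) fun e => G b ^ e % (π b - 1 + 1) = g (b, i) % π b
  have hL : CF fun q : β × ℕ => L q.1 q.2 := by
    refine CF.lst (by fun_prop) ?_
    exact CH.eq (CF.powMod (by fun_prop) (by fun_prop) (by fun_prop)) (by fun_prop)
  refine ⟨hπ, fun b => if Bex (N b) (fun i => g (b, i) % π b = 0) then 0 else
    G b ^ (∑ i ∈ range (N b), L b i) % (π b - 1 + 1),
    CF.ite (by fun_prop) (by fun_prop) (CF.powMod hG (CF.sum hN hL) (by fun_prop)), fun b h1 h2 => ?_⟩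
  have := Fact.mk h2
  have h3 : ((∏ i ∈ range (N b), z b i : ℤ) : ZMod (π b)) =
      ∏ i ∈ range (N b), (g (b, i) : ZMod (π b)) := by
    push_cast
    exact prod_congr rfl fun i hi => (h (b, i) ⟨h1, mem_range.1 hi⟩ h2).symm
  rw [h3]
  dsimp only
  split_ifs with h4
  · obtain ⟨i, hi, h5⟩ := h4
    rw [prod_eq_zero (mem_range.2 hi)
      ((ZMod.natCast_eq_zero_iff _ _).2 (Nat.dvd_of_mod_eq_zero h5)), Nat.cast_zero]
  · have h6 := lst_spec (exists_gen h2)
    rw [Nat.sub_add_cancel h2.one_le, ZMod.natCast_mod, Nat.cast_pow, ← prod_pow_eq_pow_sum]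
    refine prod_congr rfl fun i hi => ?_
    have h7 := (h6 (g (b, i) % π b) (Nat.mod_lt _ h2.pos)).resolve_left
      fun h0 => h4 ⟨i, mem_range.1 hi, h0⟩
    have h8 : G b ^ L b i % (π b - 1 + 1) = g (b, i) % π b := lst_spec h7
    rw [Nat.sub_add_cancel h2.one_le] at h8
    rw [← Nat.cast_pow]
    exact (ZMod.natCast_eq_natCast_iff' _ _ _).2 h8

theorem ZV.pow {z : β → ℤ} {k : β → ℕ} (hz : ZV π good z) (hk : CF k) :
    ZV π good fun b => z b ^ k b :=
  (ZV.prod (z := fun b _ => z b) hz.cf hk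
    (hz.comp (h := fun q : β × ℕ => q.1) (by fun_prop) fun _ h => h.1)).of_eq fun b _ => by simp

theorem ZV.subst {w z' : β → ℤ} {z : β → ℕ → ℤ} (hw : ZV π good w)
    (hz : ZV (fun q : β × ℕ => π q.1) (fun q => good q.1) fun q => z q.1 q.2)
    (h : ∀ b (y : ℕ), (y : ZMod (π b)) = (w b : ZMod (π b)) →
      (z b y : ZMod (π b)) = (z' b : ZMod (π b))) : ZV π good z' := by
  obtain ⟨hπ, g, hg, h1⟩ := hw
  exact (hz.comp (h := fun b => (b, g b)) (by fun_prop) fun _ h => h).of_cong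
    fun b h2 h3 => (h b _ (h1 b h2 h3)).symm

theorem sum_fun_eq {M : Type} [AddCommMonoid M] (n m : ℕ) (z : List ℕ → M) :
    ∑ k : Fin n → Fin m, z (List.ofFn fun i => (k i : ℕ)) =
      ∑ y ∈ range (m ^ n), z ((List.range n).map (dg m y)) := by
  rw [← Fin.sum_univ_eq_sum_range (fun y => z ((List.range n).map (dg m y))),
    ← finFunctionFinEquiv.symm.sum_comp]
  refine sum_congr rfl fun y _ => ?_
  congr 1
  refine List.ext_getElem (by simp) fun i h1 h2 => ?_
  simp [dg]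

theorem cf_digits {n m y : β → ℕ} (hn : Sm n) (hm : CF m) (hy : CF y) :
    CF fun b => (List.range (n b)).map (dg (m b) (y b)) :=
  CF.mapTC (F := fun (p : ℕ × ℕ) (i : ℕ) => dg p.1 p.2 i) (by fun_prop) (hm.pair hy) (CF.range hn)

theorem ZV.sumFun {n m : β → ℕ} {z : β → List ℕ → ℤ} (hπ : CF π) (hn : Sm n) (hm : CF m)
    (hz : ZV (fun q : β × List ℕ => π q.1) (fun q => good q.1 ∧ ∀ i, q.2.getD i 0 ≤ m q.1)
      fun q => z q.1 q.2) :
    ZV π good fun b => ∑ k : Fin (n b) → Fin (m b), z b (List.ofFn fun i => (k i : ℕ)) := by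
  refine (ZV.sum (N := fun b => m b ^ n b)
    (z := fun b y => z b ((List.range (n b)).map (dg (m b) y))) hπ (hm.pow hn) ?_).of_eq
    fun b _ => sum_fun_eq _ _ _
  refine hz.comp (h := fun q : β × ℕ => (q.1, (List.range (n q.1)).map (dg (m q.1) q.2)))
    (CF.pair (by fun_prop) (cf_digits (hn.comp (by fun_prop)) (by fun_prop) (by fun_prop)))
    fun q h => ⟨h.1, fun i => ?_⟩
  dsimp only
  by_cases hi : i < n q.1
  · rw [List.getD_eq_getElem _ _ (by simpa using hi)]
    simp only [List.getElem_map, List.getElem_range, dg]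
    rcases Nat.eq_zero_or_pos (m q.1) with h0 | h0
    · have := h.2
      rw [h0, zero_pow (by omega)] at this
      omega
    · exact (Nat.mod_lt _ h0).le
  · rw [List.getD_eq_default _ _ (by simpa using hi)]
    exact Nat.zero_le _

/-! ### Coefficients -/

theorem sum_pow_zmod {p : ℕ} (hp : p.Prime) {i j : ℕ} (hi : i + 1 < p) (hj : j + 1 < p) :
    ∑ x : Fin p, ((x : ℕ) : ZMod p) ^ (p - 1 - j + i) = if i = j then -1 else 0 := by
  classical
  have := Fact.mk hp
  have h1 : ∑ x : Fin p, ((x : ℕ) : ZMod p) ^ (p - 1 - j + i) = ∑ x : ZMod p, x ^ (p - 1 - j + i) := by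
    refine Fintype.sum_bijective (fun x : Fin p => ((x : ℕ) : ZMod p)) ?_ _ _ fun _ => rfl
    rw [Fintype.bijective_iff_injective_and_card]
    refine ⟨fun x y h => Fin.ext ?_, by simp⟩
    have := (ZMod.natCast_eq_natCast_iff' _ _ _).1 h
    rwa [Nat.mod_eq_of_lt x.2, Nat.mod_eq_of_lt y.2] at this
  have h2 : ∑ x : ZMod p, x ^ (p - 1 - j + i) = ∑ x : (ZMod p)ˣ, (x : ZMod p) ^ (p - 1 - j + i) := by
    let φ : (ZMod p)ˣ ↪ ZMod p := ⟨fun x ↦ x, Units.val_injective⟩
    have : univ.map φ = univ \ {0} := by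
      ext x
      simpa only [mem_map, mem_univ, Function.Embedding.coeFn_mk, true_and, mem_sdiff,
        mem_singleton, φ] using! isUnit_iff_ne_zero
    rw [← sum_sdiff ({0} : Finset (ZMod p)).subset_univ, sum_singleton, zero_pow (by omega), add_zero,
      ← this, univ.sum_map φ]
    rfl
  rw [h1, h2, FiniteField.sum_pow_units, ZMod.card]
  refine if_congr ⟨fun h => ?_, fun h => ?_⟩ rfl rfl
  · obtain ⟨c, hc⟩ := h
    have h3 : c < 2 := by
      by_contra h4
      have := Nat.mul_le_mul_left (p - 1) (not_lt.1 h4)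
      omega
    interval_cases c <;> omega
  · subst h
    rw [Nat.sub_add_cancel (by omega)]

theorem coeff_zmod {p : ℕ} (hp : p.Prime) (P : Polynomial ℤ) {j : ℕ} (hP : P.natDegree + 1 < p)
    (hj : j + 1 < p) : (P.coeff j : ZMod p) =
      ((-∑ x ∈ range p, (x : ℤ) ^ (p - 1 - j) * P.eval (x : ℤ) : ℤ) : ZMod p) := by
  simp only [Polynomial.eval_eq_sum_range' (show P.natDegree < p - 1 by omega), mul_sum]
  rw [sum_comm]
  push_cast
  rw [eq_neg_iff_add_eq_zero, sum_congr rfl (g := fun i => if i = j then -(P.coeff j : ZMod p) else 0),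
    sum_ite_eq', if_pos (mem_range.2 (by omega)), add_neg_cancel]
  intro i hi
  have := sum_pow_zmod hp (i := i) (j := j) (by have := mem_range.1 hi; omega) hj
  rw [Fin.sum_univ_eq_sum_range (fun x => (x : ZMod p) ^ (p - 1 - j + i))] at this
  trans (P.coeff i : ZMod p) * ∑ x ∈ range p, (x : ZMod p) ^ (p - 1 - j + i)
  · rw [mul_sum]
    exact sum_congr rfl fun x _ => by ring
  · rw [this]
    split_ifs with h
    · simp [h]
    · simp

theorem ZV.coeff {P : β → Polynomial ℤ} {j : β → ℕ} (hπ : CF π) (hj : CF j)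
    (hP : ZV (fun q : β × ℕ => π q.1) (fun q => good q.1) fun q => (P q.1).eval (q.2 : ℤ))
    (hd : ∀ b, good b → (P b).natDegree + 1 < π b ∧ j b + 1 < π b) :
    ZV π good fun b => (P b).coeff (j b) := by
  refine (ZV.sum (N := π) (z := fun b x => (x : ℤ) ^ (π b - 1 - j b) * (P b).eval (x : ℤ)) hπ hπ
    (ZV.mul (ZV.pow (ZV.nat (by fun_prop) (by fun_prop)) (by fun_prop))
      (hP.comp (h := fun q => q) (by fun_prop) fun _ h => h.1))).neg.of_cong fun b h1 h2 => ?_
  exact coeff_zmod h2 _ (hd b h1).1 (hd b h1).2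

open MvPolynomial

/-- Exponent vectors. -/
noncomputable def mon {n : ℕ} (e : Fin n → ℕ) : Fin n →₀ ℕ := Finsupp.equivFunOnFinite.symm e

@[simp] theorem mon_apply {n : ℕ} (e : Fin n → ℕ) (i : Fin n) : mon e i = e i := rfl

/-- Evaluation at a list of numbers. -/
noncomputable def ev {n : ℕ} (x : List ℕ) (P : MvPolynomial (Fin n) ℤ) : ℤ :=
  eval (fun i : Fin n => (x.getD i 0 : ℤ)) P

theorem getD_ofFn {n : ℕ} (k : Fin n → ℕ) (i : Fin n) : (List.ofFn k).getD i 0 = k i := by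
  rw [List.getD_eq_getElem _ _ (by simp)]
  simp

theorem mcoeff_zmod {p n : ℕ} (hp : p.Prime) (P : MvPolynomial (Fin n) ℤ) (e : ℕ → ℕ)
    (hP : P.totalDegree + 1 < p) (he : ∀ i < n, e i + 1 < p) :
    ((coeff (mon fun i : Fin n => e i) P : ℤ) : ZMod p) = (((-1) ^ n * ∑ x : Fin n → Fin p,
      (∏ i ∈ range n, ((List.ofFn fun i => (x i : ℕ)).getD i 0 : ℤ) ^ (p - 1 - e i)) *
        ev (List.ofFn fun i => (x i : ℕ)) P : ℤ) : ZMod p) := by
  classical
  simp only [ev, getD_ofFn, eval_eq', mul_sum,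
    ← Fin.prod_univ_eq_prod_range (fun i => ((List.ofFn fun i => (_ : ℕ)).getD i 0 : ℤ) ^ (p - 1 - e i))]
  rw [sum_comm]
  push_cast
  rw [sum_congr rfl (g := fun d => if d = mon (fun i : Fin n => e i) then ((coeff d P : ℤ) : ZMod p) else 0),
    sum_ite_eq']
  · split_ifs with h
    · rfl
    · rw [notMem_support_iff.1 h, Int.cast_zero]
  intro d hd
  trans ((coeff d P : ℤ) : ZMod p) * ((-1) ^ n *
    ∏ i : Fin n, ∑ x : Fin p, ((x : ℕ) : ZMod p) ^ (p - 1 - e i + d i))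
  · rw [Fintype.prod_sum, mul_sum, mul_sum]
    refine sum_congr rfl fun x _ => ?_
    simp only [pow_add, prod_mul_distrib]
    ring
  · have h1 : ∀ i : Fin n, ∑ x : Fin p, ((x : ℕ) : ZMod p) ^ (p - 1 - e i + d i) =
        if d i = e i then -1 else 0 := fun i =>
      sum_pow_zmod hp (by
        have := (monomial_le_degreeOf i hd).trans (degreeOf_le_totalDegree P i)
        omega) (he i i.2)
    simp only [h1]
    split_ifs with h
    · subst h
      simp [← mul_pow]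
    · obtain ⟨i, hi⟩ : ∃ i, d i ≠ e i := by
        by_contra h2
        push Not at h2
        exact h (Finsupp.ext h2)
      rw [prod_eq_zero (mem_univ i) (if_neg hi)]
      simp

theorem ZV.mcoeff {n : β → ℕ} {P : ∀ b, MvPolynomial (Fin (n b)) ℤ} {e : β → ℕ → ℕ} (hπ : CF π)
    (hn : Sm n) (he : CF fun q : β × ℕ => e q.1 q.2)
    (hP : ZV (fun q : β × List ℕ => π q.1) (fun q => good q.1) fun q => ev q.2 (P q.1))
    (hd : ∀ b, good b → (P b).totalDegree + 1 < π b ∧ ∀ i < n b, e b i + 1 < π b) :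
    ZV π good fun b => MvPolynomial.coeff (mon fun i : Fin (n b) => e b i) (P b) := by
  have hn1 := hn.1
  refine (ZV.mul (ZV.pow (ZV.const hπ (-1)) hn1) (ZV.sumFun (m := π)
    (z := fun b x => (∏ i ∈ range (n b), (x.getD i 0 : ℤ) ^ (π b - 1 - e b i)) * ev x (P b)) hπ hn hπ
    (ZV.mul (ZV.prod (by fun_prop) (by fun_prop)
      (ZV.pow (ZV.nat (by fun_prop) (by fun_prop)) (by fun_prop)))
      (hP.comp (h := fun q => q) (by fun_prop) fun _ h => h.1)))).of_cong fun b h1 h2 => ?_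
  exact mcoeff_zmod h2 _ _ (hd b h1).1 (hd b h1).2

end Vale.Agent.P337
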