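import Vale.Agent.P337.Spec
import Vale.Agent.P337.ZV
import Mathlib.Topology.Algebra.InfiniteSum.Ring
import Mathlib.RingTheory.Ideal.Quotient.Operations

/-! Explicit formulas for traces and norms over the solutions of `x_i ^ N = r_i`. -/

namespace Vale.Agent.P337

open Finset

section defs

open MvPolynomial

variable {K : Type} [CommRing K] {n : ℕ} (N : ℕ) (r : ℕ → MvPolynomial (Fin n) K)

noncomputable def term (k : Fin n → ℕ) (h : MvPolynomial (Fin n) K) : K :=
  coeff (mon fun i => N * (k i + 1) - 1) (h * ∏ i : Fin n, r i ^ k i)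

noncomputable def ell (d : ℕ) (h : MvPolynomial (Fin n) K) : K :=
  ∑ k : Fin n → Fin (d + 1), term N r (fun i => k i) h

noncomputable def bm (K : Type) [CommRing K] (n N a b : ℕ) : MvPolynomial (Fin n) K :=
  monomial (mon fun i : Fin n => N - 1 - dg N a i + dg N b i) 1

noncomputable def gu (d a b : ℕ) : K := (if a = b then 1 else 0) - ell N r d (bm K n N a b)

def pw (u : ℕ → ℕ → K) (D : ℕ) : ℕ → ℕ → ℕ → K
  | 0, b, a => if b = a then 1 else 0
  | k + 1, b, a => ∑ c ∈ range D, u b c * pw u D k c a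

noncomputable def tr (d : ℕ) (h : MvPolynomial (Fin n) K) : K :=
  ∑ a ∈ range (N ^ n), ∑ b ∈ range (N ^ n),
    (∑ k ∈ range (n * N + 1), pw (gu N r d) (N ^ n) k b a) * ell N r d (h * bm K n N a b)

def w1 (D k : ℕ) : ℕ := ∏ l ∈ range D, if l = k then 1 else l + 1
def w2 (D m : ℕ) : ℕ := ∏ l ∈ range D, if l < m then 1 else l + 1

noncomputable def ser (D : ℕ) (p : ℕ → K) : Polynomial K :=
  ∑ k ∈ range D, Polynomial.C ((-1) ^ k * (w1 D k : K) * p (k + 1)) * Polynomial.X ^ (k + 1)

noncomputable def expo (D : ℕ) (p : ℕ → K) : Polynomial K :=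
  ∑ m ∈ range (D + 1), Polynomial.C ((w2 D 0 : K) ^ (D - m) * (w2 D m : K)) * ser D p ^ m

noncomputable def nm (dh : ℕ) (h : MvPolynomial (Fin n) K) : K :=
  (expo (N ^ n) fun k => tr N r (N ^ n * dh + 2 * (n * N)) (h ^ k)).coeff (N ^ n)

variable {K' : Type} [CommRing K'] (φ : K →+* K')

theorem map_ell (d : ℕ) (h : MvPolynomial (Fin n) K) :
    φ (ell N r d h) = ell N (fun i => map φ (r i)) d (map φ h) := by
  simp only [ell, term, map_sum, ← coeff_map, map_mul, map_prod, map_pow]

theorem map_bm (a b : ℕ) : map φ (bm K n N a b) = bm K' n N a b := by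
  simp [bm]

theorem map_pw (u : ℕ → ℕ → K) (D k : ℕ) : ∀ b a, φ (pw u D k b a) =
    pw (fun x y => φ (u x y)) D k b a := by
  induction k with
  | zero => intro b a; simp [pw, apply_ite φ]
  | succ k ih => intro b a; simp [pw, ih]

theorem map_tr (d : ℕ) (h : MvPolynomial (Fin n) K) :
    φ (tr N r d h) = tr N (fun i => map φ (r i)) d (map φ h) := by
  have : (fun x y => φ (gu N r d x y)) = gu N (fun i => map φ (r i)) d := by
    funext x y
    simp [gu, map_ell, map_bm, apply_ite φ]
  simp only [tr, map_sum, map_mul, map_pw, map_ell, map_bm, this]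

theorem map_expo (D : ℕ) (p : ℕ → K) : (expo D p).map φ = expo D fun k => φ (p k) := by
  simp [expo, ser, Polynomial.map_sum]

theorem map_nm (dh : ℕ) (h : MvPolynomial (Fin n) K) :
    φ (nm N r dh h) = nm N (fun i => map φ (r i)) dh (map φ h) := by
  simp only [nm, ← Polynomial.coeff_map, map_expo, map_tr, map_pow]

theorem totalDegree_map_le (h : MvPolynomial (Fin n) K) : (map φ h).totalDegree ≤ h.totalDegree :=
  sup_mono (support_map_subset _ _)

theorem totalDegree_bm_le (a b : ℕ) :
    (bm K n N a b).totalDegree ≤ ∑ i : Fin n, (N - 1 - dg N a i + dg N b i) := by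
  refine (totalDegree_monomial_le _ _).trans (le_of_eq ?_)
  rw [Finsupp.sum_fintype _ _ fun _ => rfl]
  rfl

theorem totalDegree_bm_le' (hN : 1 ≤ N) (a b : ℕ) : (bm K n N a b).totalDegree ≤ 2 * (n * N) := by
  refine (totalDegree_bm_le N a b).trans ((sum_le_card_nsmul _ _ (2 * N) fun i _ => ?_).trans ?_)
  · have : dg N b i < N := Nat.mod_lt _ hN
    omega
  · simp only [card_univ, Fintype.card_fin, smul_eq_mul]
    exact le_of_eq (by ring)

variable {N r}

theorem totalDegree_prod_pow_le {c : ℕ} (hr : ∀ i < n, (r i).totalDegree ≤ c) (k : Fin n → ℕ) :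
    (∏ i : Fin n, r i ^ k i).totalDegree ≤ (∑ i, k i) * c := by
  rw [sum_mul]
  exact (totalDegree_finsetProd _ _).trans (sum_le_sum fun i _ =>
    (totalDegree_pow _ _).trans (Nat.mul_le_mul_left _ (hr i i.2)))

theorem term_eq_zero (hN : 1 ≤ N) (hr : ∀ i < n, (r i).totalDegree < N) {k : Fin n → ℕ}
    {h : MvPolynomial (Fin n) K} (hk : h.totalDegree < ∑ i, k i + n * (N - 1)) :
    term N r k h = 0 := by
  obtain ⟨M, rfl⟩ : ∃ M, N = M + 1 := ⟨N - 1, by omega⟩
  refine coeff_eq_zero_of_totalDegree_lt ?_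
  have h1 := (totalDegree_mul h (∏ i : Fin n, r i ^ k i)).trans (Nat.add_le_add_left
    (totalDegree_prod_pow_le (c := M) (fun i hi => Nat.le_of_lt_succ (hr i hi)) k) _)
  have h2 : ∑ i ∈ (mon fun i => (M + 1) * (k i + 1) - 1).support,
      (mon fun i => (M + 1) * (k i + 1) - 1) i = ∑ i, (k i * M + k i + M) := by
    rw [sum_subset (subset_univ _) fun i _ hi => Finsupp.notMem_support_iff.1 hi]
    refine sum_congr rfl fun i _ => ?_
    rw [mon_apply, show (M + 1) * (k i + 1) = k i * M + k i + M + 1 by ring, Nat.add_sub_cancel]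
  rw [h2, sum_add_distrib, sum_add_distrib, ← sum_mul]
  simp only [sum_const, card_univ, Fintype.card_fin, smul_eq_mul, Nat.add_sub_cancel] at hk ⊢
  omega

theorem pw_eq (u : ℕ → ℕ → K) (D k : ℕ) : ∀ b a : Fin D,
    pw u D k b a = ((Matrix.of fun x y : Fin D => u x y) ^ k) b a := by
  induction k with
  | zero => intro b a; simp [pw, Matrix.one_apply, Fin.ext_iff]
  | succ k ih =>
    intro b a
    rw [pow_succ', Matrix.mul_apply, pw, ← Fin.sum_univ_eq_sum_range fun c => u b c * pw u D k c a]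
    simp [ih]

theorem pw_eq_zero {u : ℕ → ℕ → K} {wt : ℕ → ℕ} {D : ℕ}
    (hu : ∀ a < D, ∀ b < D, wt b ≤ wt a → u a b = 0) (k : ℕ) :
    ∀ b < D, ∀ a, wt a < wt b + k → pw u D k b a = 0 := by
  induction k with
  | zero =>
    intro b _ a h
    exact if_neg (by rintro rfl; omega)
  | succ k ih =>
    intro b hb a h
    refine sum_eq_zero fun c hc => ?_
    by_cases h1 : wt c ≤ wt b
    · rw [hu b hb c (mem_range.1 hc) h1, zero_mul]
    · rw [ih c (mem_range.1 hc) a (by omega), mul_zero]

end defs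

/-! ### Newton identities -/

section newton

open Polynomial

theorem w1_mul {D k : ℕ} (hk : k < D) : w1 D k * (k + 1) = D.factorial := by
  rw [← prod_range_add_one_eq_factorial, w1, ← mul_prod_erase _ _ (mem_range.2 hk),
    ← mul_prod_erase _ (fun l => l + 1) (mem_range.2 hk), if_pos rfl, one_mul, mul_comm]
  congr 1
  exact prod_congr rfl fun l hl => if_neg (mem_erase.1 hl).1

theorem w2_mul {D m : ℕ} (hm : m ≤ D) : w2 D m * m.factorial = D.factorial := by
  obtain ⟨c, rfl⟩ := Nat.exists_eq_add_of_le hm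
  rw [← prod_range_add_one_eq_factorial, ← prod_range_add_one_eq_factorial, w2, prod_range_add,
    prod_range_add, prod_eq_one fun l hl => if_pos (mem_range.1 hl), one_mul, mul_comm]
  congr 1
  exact prod_congr rfl fun l _ => if_neg (by omega)

theorem w2_zero (D : ℕ) : w2 D 0 = D.factorial := by simpa using w2_mul (Nat.zero_le D)

def IsExp (D : ℕ) (T Y : ℂ[X]) : Prop := Y.coeff 0 = 1 ∧ X ^ D ∣ derivative Y - T * Y

theorem IsExp.mul {D : ℕ} {T T' Y Y' : ℂ[X]} (h : IsExp D T Y) (h' : IsExp D T' Y') :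
    IsExp D (T + T') (Y * Y') := by
  refine ⟨by rw [mul_coeff_zero, h.1, h'.1, one_mul], ?_⟩
  have := (h.2.mul_right Y').add (h'.2.mul_left Y)
  rw [derivative_mul]
  convert this using 1
  ring

theorem IsExp.unique {D : ℕ} {T Y Y' : ℂ[X]} (h : IsExp D T Y) (h' : IsExp D T Y') :
    ∀ j ≤ D, Y.coeff j = Y'.coeff j := by
  intro j
  induction j using Nat.strong_induction_on with
  | _ j ih =>
    intro hj
    cases j with
    | zero => rw [h.1, h'.1]
    | succ j =>
      have h1 := X_pow_dvd_iff.1 h.2 j (by omega)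
      have h2 := X_pow_dvd_iff.1 h'.2 j (by omega)
      rw [Polynomial.coeff_sub, coeff_derivative, Polynomial.coeff_mul, sub_eq_zero] at h1 h2
      have h3 : Y.coeff (j + 1) * (j + 1) = Y'.coeff (j + 1) * (j + 1) := by
        rw [h1, h2]
        refine sum_congr rfl fun p hp => ?_
        have := mem_antidiagonal.1 hp
        rw [ih p.2 (by omega) (by omega)]
      exact mul_right_cancel₀ (by exact_mod_cast Nat.succ_ne_zero j) h3

theorem isExp_prod {ι : Type} (s : Finset ι) (lam : ι → ℂ) (D : ℕ) :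
    IsExp D (∑ i ∈ s, Polynomial.C (lam i) * ∑ k ∈ range D, (-(Polynomial.C (lam i) * X)) ^ k)
      (∏ i ∈ s, (1 + Polynomial.C (lam i) * X)) := by
  classical
  induction s using Finset.induction_on with
  | empty => exact ⟨by simp, by simp⟩
  | insert i s hi ih =>
    rw [sum_insert hi, prod_insert hi]
    refine IsExp.mul ⟨by simp, ?_⟩ ih
    have := mul_neg_geom_sum (-(Polynomial.C (lam i) * X)) D
    refine ⟨Polynomial.C (lam i) * (-Polynomial.C (lam i)) ^ D, ?_⟩
    rw [sub_neg_eq_add] at this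
    rw [mul_assoc, mul_comm _ (1 + _), this]
    simp only [derivative_add, derivative_one, derivative_mul, derivative_C, derivative_X]
    rw [← neg_mul, mul_pow]
    ring

theorem isExp_trunc {S : ℂ[X]} (hS : X ∣ S) (D : ℕ) :
    IsExp D (derivative S) (∑ m ∈ range (D + 1), Polynomial.C (1 / (m.factorial : ℂ)) * S ^ m) := by
  constructor
  · rw [finsetSum_coeff, sum_range_succ', sum_eq_zero]
    · simp
    · intro m _
      rw [Polynomial.coeff_C_mul, X_dvd_iff.1 (hS.trans (dvd_pow_self _ (by omega))), mul_zero]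
  · have h1 : derivative (∑ m ∈ range (D + 1), Polynomial.C (1 / (m.factorial : ℂ)) * S ^ m) =
        derivative S * ∑ m ∈ range D, Polynomial.C (1 / (m.factorial : ℂ)) * S ^ m := by
      rw [derivative_sum, sum_range_succ', mul_sum]
      simp only [derivative_C_mul, pow_zero, derivative_one, mul_zero, add_zero, derivative_pow_succ]
      refine sum_congr rfl fun m _ => ?_
      have : (1 / ((m + 1).factorial : ℂ)) * (m + 1) = 1 / (m.factorial : ℂ) := by
        have h2 : (m.factorial : ℂ) ≠ 0 := by exact_mod_cast m.factorial_ne_zero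
        have h3 : (m + 1 : ℂ) ≠ 0 := by exact_mod_cast Nat.succ_ne_zero m
        rw [Nat.factorial_succ]
        push_cast
        field_simp
      rw [← this, Polynomial.C_mul]
      ring
    rw [h1, sum_range_succ, mul_add, sub_add_cancel_left, dvd_neg]
    exact ((pow_dvd_pow_of_dvd hS D).mul_left _).mul_left _

theorem expo_coeff {D : ℕ} (lam : Fin D → ℂ) (p : ℕ → ℂ)
    (hp : ∀ k < D, p (k + 1) = ∑ i, lam i ^ (k + 1)) :
    (expo D p).coeff D = (D.factorial : ℂ) ^ (D + 1) * ∏ i, lam i := by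
  have hD : (D.factorial : ℂ) ≠ 0 := by exact_mod_cast D.factorial_ne_zero
  let S : ℂ[X] := Polynomial.C (1 / (D.factorial : ℂ)) * ser D p
  have hS : X ∣ S := Dvd.dvd.mul_left (dvd_sum fun k _ =>
    Dvd.dvd.mul_left (dvd_pow_self _ (by omega)) _) _
  have h1 : expo D p = Polynomial.C ((D.factorial : ℂ) ^ (D + 1)) *
      ∑ m ∈ range (D + 1), Polynomial.C (1 / (m.factorial : ℂ)) * S ^ m := by
    rw [expo, mul_sum]
    refine sum_congr rfl fun m hm => ?_
    have hm' : m ≤ D := Nat.le_of_lt_succ (mem_range.1 hm)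
    have h2 : (m.factorial : ℂ) ≠ 0 := by exact_mod_cast m.factorial_ne_zero
    have h3 : (w2 D m : ℂ) = D.factorial / m.factorial := by
      rw [eq_div_iff h2]
      exact_mod_cast w2_mul hm'
    rw [mul_pow, ← Polynomial.C_pow, ← mul_assoc, ← mul_assoc, ← Polynomial.C_mul, ← Polynomial.C_mul,
      w2_zero, h3]
    congr 2
    obtain ⟨c, rfl⟩ := Nat.exists_eq_add_of_le hm'
    rw [Nat.add_sub_cancel_left, one_div_pow]
    field_simp
    ring
  have h2 : derivative S = ∑ i, Polynomial.C (lam i) *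
      ∑ k ∈ range D, (-(Polynomial.C (lam i) * X)) ^ k := by
    simp only [S, ser, derivative_C_mul, derivative_sum, derivative_X_pow_succ, mul_sum]
    rw [sum_comm]
    refine sum_congr rfl fun k hk => ?_
    have h3 : (w1 D k : ℂ) * (k + 1) = D.factorial := by exact_mod_cast w1_mul (mem_range.1 hk)
    rw [← mul_assoc, ← mul_assoc, ← Polynomial.C_mul, ← Polynomial.C_mul, hp k (mem_range.1 hk),
      show 1 / (D.factorial : ℂ) * ((-1) ^ k * (w1 D k : ℂ) * ∑ i, lam i ^ (k + 1)) * (k + 1) =
        ∑ i, (-1) ^ k * lam i ^ (k + 1) by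
        rw [← mul_sum, div_mul_eq_mul_div, div_mul_eq_mul_div, div_eq_iff hD, ← h3]
        ring, map_sum, sum_mul]
    refine sum_congr rfl fun i _ => ?_
    rw [neg_pow (Polynomial.C (lam i) * X), mul_pow]
    simp only [map_mul, map_pow, map_neg, map_one]
    ring
  have h3 := isExp_trunc hS D
  rw [h2] at h3
  rw [h1, Polynomial.coeff_C_mul, h3.unique (isExp_prod univ lam D) D le_rfl]
  congr 1
  have h4 := coeff_prod_of_natDegree_le (s := univ) (fun i => 1 + Polynomial.C (lam i) * X) 1
    fun i _ => by compute_degree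
  simp only [card_univ, Fintype.card_fin, mul_one] at h4
  rw [h4]
  simp [Polynomial.coeff_one]

end newton

end Vale.Agent.P337
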